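import Vale.Agent.P253Z.Spec
import Vale.Agent.P272.K.C2.LogDet

/-!
# P253W, block FG: statements which do not mention the flow
-/

open scoped Manifold ContDiff Bundle ENNReal Topology ComplexConjugate ComplexOrder Matrix
open Bundle IsManifold MeasureTheory Set Metric Filter Vale.Agent.P253.Mfd Vale.Agent.P253Z
open Vale.Agent.P272.K (Cm dz dzb cHess jacM Chart)
open Vale.Agent.P272.K.C2 (DM DMb RM MC)
open Vale.Agent.P253.R2.H451 (ContPsh WeakLevi levi2)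

noncomputable section

namespace Vale.Agent.P253W.FG

/-- matrices -/
abbrev Mt (n : ℕ) : Type := Matrix (Fin n) (Fin n) ℂ

/-- `g^{j k̄} a_{j k̄}` -/
def tg {n : ℕ} (g a : Mt n) : ℝ := (g⁻¹ * a).trace.re

/-- `A_{j k̄} ξ_j conj ξ_k` -/
def qf {n : ℕ} (A : Mt n) (ξ : Cm n) : ℝ := (ξ ⬝ᵥ (A *ᵥ star ξ)).re

/-- the matrix `∂_j f ∂_k̄ f` -/
def gg {n : ℕ} (f : Cm n → ℝ) (z : Cm n) : Mt n :=
  Matrix.of fun j k => dz j (fun y => (f y : ℂ)) z * conj (dz k (fun y => (f y : ℂ)) z)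

/-- the largest eigenvalue of `A` with respect to `B` -/
def lam {n : ℕ} (A B : Mt n) : ℝ := sSup ((fun ξ => qf A ξ / qf B ξ) '' sphere (0 : Cm n) 1)

/-- **LAM**: the largest eigenvalue -/
structure LAM (n : ℕ) : Prop where
  le : ∀ A B : Mt n, A.IsHermitian → B.PosDef → ((lam A B : ℂ) • B - A).PosSemidef
  att : ∀ A B : Mt n, A.IsHermitian → B.PosDef → ∃ ξ : Cm n, ξ ≠ 0 ∧ qf A ξ = lam A B * qf B ξ
  min : ∀ (A B : Mt n) (c : ℝ), A.IsHermitian → B.PosDef → ((c : ℂ) • B - A).PosSemidef →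
    lam A B ≤ c
  inv : ∀ A B J : Mt n, A.IsHermitian → B.PosDef → J.det ≠ 0 → lam (pb J A) (pb J B) = lam A B
  cont : ∀ (X : Type) [TopologicalSpace X] (s : Set X) (A B : X → Mt n), ContinuousOn A s →
    ContinuousOn B s → (∀ x ∈ s, (B x).PosDef) → ContinuousOn (fun x => lam (A x) (B x)) s

/-- **EIG**: inequalities for traces and determinants -/
structure EIG (n : ℕ) : Prop where
  qf_le : ∀ A B : Mt n, (B - A).PosSemidef → ∀ ξ, qf A ξ ≤ qf B ξ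
  qf_pos : ∀ A : Mt n, A.PosDef → ∀ ξ, ξ ≠ 0 → 0 < qf A ξ
  mono : ∀ g a b : Mt n, g.PosDef → (b - a).PosSemidef → tg g a ≤ tg g b
  self : ∀ g : Mt n, g.PosDef → tg g g = n
  inv : ∀ g a J : Mt n, J.det ≠ 0 → g.det ≠ 0 → tg (pb J g) (pb J a) = tg g a
  det_inv : ∀ g a J : Mt n, J.det ≠ 0 →
    (pb J a).det.re / (pb J g).det.re = a.det.re / g.det.re
  psd_inv : ∀ a J : Mt n, a.PosSemidef → (pb J a).PosSemidef
  sq : ∀ g a : Mt n, g.PosDef → a.IsHermitian → tg g a ^ 2 ≤ n * (g⁻¹ * a * g⁻¹ * a).trace.re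
  up : ∀ (A B : Mt n) (c : ℝ), A.PosDef → B.PosDef → ((Real.exp c : ℂ) • B - A).PosSemidef →
    Real.log (A.det.re / B.det.re) ≤ n * c
  low : ∀ C : ℝ, ∃ c : ℝ, 0 < c ∧ ∀ A B : Mt n, A.PosDef → B.PosDef →
    ((C : ℂ) • B - A).PosSemidef → -C ≤ Real.log (A.det.re / B.det.re) →
    (A - (c : ℂ) • B).PosSemidef
  /-- Cauchy-Schwarz for gradients -/
  cs : ∀ (g : Mt n) (a b : Cm n), g.PosDef →
    √(tg g (Matrix.vecMulVec (a + b) (star (a + b)))) ≤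
      √(tg g (Matrix.vecMulVec a (star a))) + √(tg g (Matrix.vecMulVec b (star b)))
  nn : ∀ (g : Mt n) (a : Cm n), g.PosDef → 0 ≤ tg g (Matrix.vecMulVec a (star a))

/-- **SWA**: the computation in the parabolic Schwarz lemma at one point. `W` is Kähler with
nonnegative bisectional curvature, `K - e^l W` is closed. -/
def SWA (n : ℕ) : Prop :=
  ∀ (W K : Cm n → Mt n) (l : Cm n → ℝ) (z ξ₀ : Cm n) (η : ℝ), MC 2 W z → MC 2 K z →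
    ContDiffAt ℝ 2 l z → (∀ᶠ y in 𝓝 z, (W y).PosDef ∧ (K y).PosDef) →
    (∀ᶠ y in 𝓝 z, ∀ i j k, dz k (fun y => W y i j) y = dz i (fun y => W y k j) y) →
    (∀ᶠ y in 𝓝 z, ∀ i j k, dz k (fun y => K y i j - (Real.exp (l y) : ℂ) * W y i j) y =
      dz i (fun y => K y k j - (Real.exp (l y) : ℂ) * W y k j) y) →
    (∀ X a : Cm n, 0 ≤ qf (∑ q, ∑ p, (X p * conj (X q)) • RM p q W z) a) →
    0 ≤ η → (((η * Real.exp (l z) : ℝ) : ℂ) • W z - cHess l z).PosSemidef →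
    (((η * Real.exp (l z) : ℝ) : ℂ) • W z - gg l z).PosSemidef → ξ₀ ≠ 0 →
    Real.exp (l z) * qf (W z) ξ₀ ≤ qf (K z) ξ₀ →
    ∃ ξ : Cm n → Cm n, ContDiff ℝ ∞ ξ ∧ ξ z = ξ₀ ∧
      (∀ j, dz j (fun y => ((Real.log (qf (W y) (ξ y)) : ℝ) : ℂ)) z = 0) ∧
      qf (cHess (fun y => Real.log (K y).det.re) z) ξ₀ / qf (K z) ξ₀ -
          tg (K z) (cHess (fun y => Real.log (qf (K y) (ξ y))) z) +
          tg (K z) (cHess (fun y => Real.log (qf (W y) (ξ y))) z) + tg (K z) (cHess l z) ≤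
        3 * η * (Real.exp (l z) * tg (K z) (W z)) +
          4 * √(η * (Real.exp (l z) * tg (K z) (W z))) *
            √(tg (K z) (gg (fun y => Real.log (qf (K y) (ξ y))) z)) *
            (Real.exp (l z) * qf (W z) ξ₀ / qf (K z) ξ₀)

/-- **CALC**: functions of time and space -/
structure CALC (n : ℕ) : Prop where
  slice : ∀ (I : Set ℝ) (U : Set (Cm n)) (Φ : ℝ × Cm n → ℂ), IsOpen U →
    ContDiffOn ℝ ∞ Φ (I ×ˢ U) → ∀ t ∈ I, ∀ z ∈ U, ContDiffAt ℝ ∞ (fun y => Φ (t, y)) z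
  d : ∀ (I : Set ℝ) (U : Set (Cm n)) (Φ : ℝ × Cm n → ℂ), UniqueDiffOn ℝ I → IsOpen U →
    ContDiffOn ℝ ∞ Φ (I ×ˢ U) → ∀ j,
      ContDiffOn ℝ ∞ (fun q : ℝ × Cm n => dz j (fun y => Φ (q.1, y)) q.2) (I ×ˢ U) ∧
      ContDiffOn ℝ ∞ (fun q : ℝ × Cm n => dzb j (fun y => Φ (q.1, y)) q.2) (I ×ˢ U)
  hess : ∀ (I : Set ℝ) (U : Set (Cm n)) (Φ : ℝ × Cm n → ℝ), UniqueDiffOn ℝ I → IsOpen U →
    ContDiffOn ℝ ∞ Φ (I ×ˢ U) → ∀ j k,
      ContDiffOn ℝ ∞ (fun q : ℝ × Cm n => cHess (fun y => Φ (q.1, y)) q.2 j k) (I ×ˢ U)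
  /-- the time derivative commutes with the complex Hessian -/
  comm : ∀ (I : Set ℝ) (U : Set (Cm n)) (Φ Ψ : ℝ × Cm n → ℝ) (t : ℝ), I ∈ 𝓝 t → IsOpen U →
    ContDiffOn ℝ ∞ Φ (I ×ˢ U) → (∀ y ∈ U, HasDerivAt (fun s => Φ (s, y)) (Ψ (t, y)) t) →
    ∀ z ∈ U, ∀ j k, HasDerivAt (fun s => cHess (fun y => Φ (s, y)) z j k)
      (cHess (fun y => Ψ (t, y)) z j k) t
  /-- derivatives of `log det` and of the trace along a path of matrices -/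
  ldet : ∀ (g : ℝ → Mt n) (g' : Mt n) (t : ℝ), (∀ j k, HasDerivAt (fun s => g s j k) (g' j k) t) →
    (∀ᶠ s in 𝓝 t, (g s).PosDef) → HasDerivAt (fun s => Real.log (g s).det.re) (tg (g t) g') t
  tr : ∀ (g a : ℝ → Mt n) (g' a' : Mt n) (t : ℝ),
    (∀ j k, HasDerivAt (fun s => g s j k) (g' j k) t) →
    (∀ j k, HasDerivAt (fun s => a s j k) (a' j k) t) → (g t).PosDef →
    HasDerivAt (fun s => tg (g s) (a s))
      (tg (g t) a' - ((g t)⁻¹ * g' * (g t)⁻¹ * a t).trace.re) t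
  /-- at a local minimum -/
  min : ∀ (f : Cm n → ℝ) (z : Cm n), ContDiffAt ℝ 2 f z → IsLocalMin f z →
    (cHess f z).PosSemidef ∧ ∀ j, dz j (fun y => (f y : ℂ)) z = 0

/-- **MP**: the minimum principle with a barrier -/
def MP : Prop :=
  ∀ (X : Type) [TopologicalSpace X] (D : Set X) (T m : ℝ) (l : X → ℝ) (f : ℝ → X → ℝ), 0 < T →
    ContinuousOn l D → (∀ x ∈ D, 0 ≤ l x) → (∀ c, IsCompact {x | x ∈ D ∧ l x ≤ c}) →
    ContinuousOn (fun q : ℝ × X => f q.1 q.2) (Icc 0 T ×ˢ D) →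
    (∃ C, ∀ t ∈ Icc 0 T, ∀ x ∈ D, -C ≤ f t x) → (∀ x ∈ D, m ≤ f 0 x) →
    (∀ κ : ℝ, 0 < κ → ∃ δ₀ : ℝ, 0 < δ₀ ∧ ∀ δ ∈ Ioc 0 δ₀, ∀ t₀ ∈ Ioo 0 T, ∀ x₀ ∈ D,
      (∀ t ∈ Ico 0 T, ∀ x ∈ D,
        f t₀ x₀ + δ * l x₀ + κ / (T - t₀) ≤ f t x + δ * l x + κ / (T - t)) → m ≤ f t₀ x₀) →
    ∀ t ∈ Icc 0 T, ∀ x ∈ D, m ≤ f t x

/-- **GRON**: bounds for the potential at one point -/
def GRON : Prop :=
  ∀ N a₀ T L : ℝ, 0 ≤ N → ∃ C : ℝ, ∀ (y y' : ℝ → ℝ) (a T' : ℝ), 0 ≤ a → a ≤ a₀ → T' ≤ T →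
    y 0 = 0 → (∀ t ∈ Icc 0 T', HasDerivWithinAt y (y' t) (Icc 0 T') t) →
    (∀ t ∈ Icc 0 T', y' t ≤ a * (y t - t * y' t + N * t)) →
    (∀ t ∈ Icc 0 T', -L ≤ y t + (2 * T + 1 - t) * y' t + N * t) →
    ∀ t ∈ Icc 0 T', |y t| ≤ C ∧ |y' t| ≤ C

variable {n : ℕ} {M : Type} [MetricSpace M] [ChartedSpace (Cm n) M]
  [RiemannianBundle (fun x : M => TangentSpace 𝓘(ℝ, Cm n) x)]

variable (n M) in
/-- **BK**: the bisectional curvature in terms of the matrix of the metric -/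
def BK : Prop := ∀ e : Chart n M, Hc e → ∀ z ∈ e.target, ∀ X a : Cm n,
  0 ≤ qf (∑ q, ∑ p, (X p * conj (X q)) • RM p q (hm e) z) a

variable (n M) in
/-- **RBL**: Richberg's theorem for bounds of any sign, with control of the gradient -/
def RBL : Prop :=
  ∀ u c L ε : M → ℝ, Continuous c → Continuous L → Continuous ε → (∀ x, 0 ≤ L x) →
    (∀ x, 0 < ε x) → WeakLevi (Cm n) u c univ →
    (∀ x, ∀ᶠ p : M × M in 𝓝 (x, x), |u p.1 - u p.2| ≤ L x * dist p.1 p.2) →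
    ∃ u' : M → ℝ, Sm n u' ∧ (∀ x, |u' x - u x| ≤ ε x) ∧ ∀ e : Chart n M, Hc e → ∀ z ∈ e.target,
      (cHess (fun y => u' (e.symm y)) z -
        ((c (e.symm z) - ε (e.symm z) : ℝ) : ℂ) • hm e z).PosSemidef ∧
      (((200 * (L (e.symm z) + ε (e.symm z)) ^ 2 : ℝ) : ℂ) • hm e z -
        gg (fun y => u' (e.symm y)) z).PosSemidef

variable (n) in
/-- a smooth substitute for the square of the distance to `o` -/
structure Rho (o : M) (K : ℝ) (ϱ : M → ℝ) : Prop where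
  sm : Sm n ϱ
  near : ∀ x, |ϱ x - dist x o ^ 2| ≤ 1
  hess : ∀ e : Chart n M, Hc e → ∀ z ∈ e.target,
    ((2 : ℂ) • hm e z - cHess (fun y => ϱ (e.symm y)) z).PosSemidef
  grad : ∀ e : Chart n M, Hc e → ∀ z ∈ e.target,
    (((K * (1 + dist (e.symm z) o) ^ 2 : ℝ) : ℂ) • hm e z -
      gg (fun y => ϱ (e.symm y)) z).PosSemidef

variable (n M) in
/-- **RHO** -/
def RHO : Prop := ∀ o : M, ∃ (K : ℝ) (ϱ : M → ℝ), 0 ≤ K ∧ Rho n o K ϱ

variable (n) in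
/-- a cutoff function with small gradient and almost nonnegative complex Hessian -/
structure Cut (ε : ℝ) (σ : M → ℝ) : Prop where
  sm : Sm n σ
  nn : ∀ x, 0 ≤ σ x
  le : ∀ x, σ x ≤ 1
  cpt : HasCompactSupport σ
  hess : ∀ e : Chart n M, Hc e → ∀ z ∈ e.target,
    ((ε : ℂ) • hm e z + cHess (fun y => σ (e.symm y)) z).PosSemidef
  grad : ∀ e : Chart n M, Hc e → ∀ z ∈ e.target,
    ((ε : ℂ) • hm e z - gg (fun y => σ (e.symm y)) z).PosSemidef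

variable (n M) in
/-- **SIG** -/
def SIG : Prop := ∀ (o : M) (ε R : ℝ), 0 < ε → ∃ σ : M → ℝ, Cut n ε σ ∧
  ∀ x, dist x o ≤ R → σ x = 1

variable (n M) in
/-- **ETA**: holomorphic `n`-forms of exponential growth -/
def ETA : Prop := ∀ o x : M, ∃ (η : M → ℂ) (C₀ : ℝ), IsSec n 1 η ∧ η x ≠ 0 ∧
  ∀ y, nrm n 1 η y ≤ Real.exp (C₀ * (1 + dist y o))

end Vale.Agent.P253W.FG
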