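import Vale.Agent.P253W.FG.Defs
import Vale.Agent.P272.K.N.MaxP

/-!
# P253W, block FG: calculus for functions of time and space
-/

open scoped ContDiff Topology ComplexConjugate ComplexOrder Matrix
open Set Metric Filter
open Vale.Agent.P272.K (Cm dz dzb cHess)
open Vale.Agent.P272.K.C2

noncomputable section

namespace Vale.Agent.P253W.FG

namespace Calc

theorem two_le : (2 : WithTop ℕ∞) ≤ ∞ := by
  have : ((2 : ℕ∞) : WithTop ℕ∞) ≤ ((⊤ : ℕ∞) : WithTop ℕ∞) := WithTop.coe_le_coe.2 le_top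
  exact this

variable {n : ℕ} {I : Set ℝ} {U : Set (Cm n)} {F : Type*} [NormedAddCommGroup F] [NormedSpace ℝ F]

theorem slice {Φ : ℝ × Cm n → F} (hU : IsOpen U) (h : ContDiffOn ℝ ∞ Φ (I ×ˢ U)) {t : ℝ}
    (ht : t ∈ I) {z : Cm n} (hz : z ∈ U) : ContDiffAt ℝ ∞ (fun y => Φ (t, y)) z := by
  have : ContDiffOn ℝ ∞ (fun y => Φ (t, y)) U :=
    h.comp (contDiff_const.prodMk contDiff_id).contDiffOn fun y hy => ⟨ht, hy⟩
  exact this.contDiffAt (hU.mem_nhds hz)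

theorem fderiv_slice {Φ : ℝ × Cm n → F} (hU : IsOpen U) (h : ContDiffOn ℝ ∞ Φ (I ×ˢ U)) {t : ℝ}
    (ht : t ∈ I) {z : Cm n} (hz : z ∈ U) (v : Cm n) :
    fderiv ℝ (fun y => Φ (t, y)) z v = fderivWithin ℝ Φ (I ×ˢ U) (t, z) (0, v) := by
  have h1 := (h.differentiableOn (by simp) (t, z) ⟨ht, hz⟩).hasFDerivWithinAt
  have h2 : HasFDerivWithinAt (fun y : Cm n => (t, y)) (ContinuousLinearMap.inr ℝ ℝ (Cm n)) U z :=
    (hasFDerivAt_prodMk_right t z).hasFDerivWithinAt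
  have h3 := (h1.comp z h2 fun y hy => ⟨ht, hy⟩).hasFDerivAt (hU.mem_nhds hz)
  have h4 : fderiv ℝ (fun y => Φ (t, y)) z = _ := h3.fderiv
  rw [h4]; rfl

theorem dir {Φ : ℝ × Cm n → F} (hI : UniqueDiffOn ℝ I) (hU : IsOpen U)
    (h : ContDiffOn ℝ ∞ Φ (I ×ˢ U)) (v : Cm n) :
    ContDiffOn ℝ ∞ (fun q : ℝ × Cm n => fderiv ℝ (fun y => Φ (q.1, y)) q.2 v) (I ×ˢ U) := by
  have h1 : ContDiffOn ℝ ∞ (fderivWithin ℝ Φ (I ×ˢ U)) (I ×ˢ U) :=
    h.fderivWithin (hI.prod hU.uniqueDiffOn) (by simp)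
  exact (h1.clm_apply contDiffOn_const).congr fun q hq => fderiv_slice hU h hq.1 hq.2 v

theorem dd {Φ : ℝ × Cm n → ℂ} (hI : UniqueDiffOn ℝ I) (hU : IsOpen U)
    (h : ContDiffOn ℝ ∞ Φ (I ×ˢ U)) (a b : ℂ) (v w : Cm n) :
    ContDiffOn ℝ ∞ (fun q : ℝ × Cm n => DD a b v w (fun y => Φ (q.1, y)) q.2) (I ×ˢ U) :=
  (contDiffOn_const.mul (dir hI hU h v)).add (contDiffOn_const.mul (dir hI hU h w))

theorem d {Φ : ℝ × Cm n → ℂ} (hI : UniqueDiffOn ℝ I) (hU : IsOpen U)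
    (h : ContDiffOn ℝ ∞ Φ (I ×ˢ U)) (j : Fin n) :
    ContDiffOn ℝ ∞ (fun q : ℝ × Cm n => dz j (fun y => Φ (q.1, y)) q.2) (I ×ˢ U) ∧
      ContDiffOn ℝ ∞ (fun q : ℝ × Cm n => dzb j (fun y => Φ (q.1, y)) q.2) (I ×ˢ U) := by
  simp only [dz_eq_DD, dzb_eq_DD]
  exact ⟨dd hI hU h _ _ _ _, dd hI hU h _ _ _ _⟩

theorem ofR {Φ : ℝ × Cm n → ℝ} {s : Set (ℝ × Cm n)} (h : ContDiffOn ℝ ∞ Φ s) :
    ContDiffOn ℝ ∞ (fun q => (Φ q : ℂ)) s := Complex.ofRealCLM.contDiff.comp_contDiffOn h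

theorem hess {Φ : ℝ × Cm n → ℝ} (hI : UniqueDiffOn ℝ I) (hU : IsOpen U)
    (h : ContDiffOn ℝ ∞ Φ (I ×ˢ U)) (j k : Fin n) :
    ContDiffOn ℝ ∞ (fun q : ℝ × Cm n => cHess (fun y => Φ (q.1, y)) q.2 j k) (I ×ˢ U) :=
  (d hI hU (d hI hU (ofR h) k).2 j).1

/-- the time derivative -/
def DT (Φ : ℝ × Cm n → F) (q : ℝ × Cm n) : F := fderiv ℝ Φ q (1, 0)

theorem hasDT {Φ : ℝ × Cm n → F} {t : ℝ} {z : Cm n} (h : DifferentiableAt ℝ Φ (t, z)) :
    HasDerivAt (fun s => Φ (s, z)) (DT Φ (t, z)) t := by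
  have h2 : HasDerivAt (fun s : ℝ => (s, z)) ((1 : ℝ), (0 : Cm n)) t :=
    (hasDerivAt_id t).prodMk (hasDerivAt_const t z)
  exact h.hasFDerivAt.comp_hasDerivAt t h2

theorem at_of {Φ : ℝ × Cm n → F} (hI : IsOpen I) (hU : IsOpen U) (h : ContDiffOn ℝ ∞ Φ (I ×ˢ U))
    {q : ℝ × Cm n} (hq : q ∈ I ×ˢ U) : ContDiffAt ℝ ∞ Φ q :=
  h.contDiffAt ((hI.prod hU).mem_nhds hq)

theorem DT_sm {Φ : ℝ × Cm n → F} (hI : IsOpen I) (hU : IsOpen U)
    (h : ContDiffOn ℝ ∞ Φ (I ×ˢ U)) : ContDiffOn ℝ ∞ (DT Φ) (I ×ˢ U) := fun q hq =>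
  (((at_of hI hU h hq).fderiv_right (m := ∞) (by simp)).clm_apply
    contDiffAt_const).contDiffWithinAt

theorem fderiv_slice' {Φ : ℝ × Cm n → F} (hI : IsOpen I) (hU : IsOpen U)
    (h : ContDiffOn ℝ ∞ Φ (I ×ˢ U)) {q : ℝ × Cm n} (hq : q ∈ I ×ˢ U) (v : Cm n) :
    fderiv ℝ (fun y => Φ (q.1, y)) q.2 v = fderiv ℝ Φ q (0, v) := by
  rw [fderiv_slice hU h hq.1 hq.2, fderivWithin_of_mem_nhds ((hI.prod hU).mem_nhds hq)]

theorem DT_dir {Φ : ℝ × Cm n → F} (hI : IsOpen I) (hU : IsOpen U)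
    (h : ContDiffOn ℝ ∞ Φ (I ×ˢ U)) {q : ℝ × Cm n} (hq : q ∈ I ×ˢ U) (v : Cm n) :
    DT (fun p : ℝ × Cm n => fderiv ℝ (fun y => Φ (p.1, y)) p.2 v) q =
      fderiv ℝ (fun y => DT Φ (q.1, y)) q.2 v := by
  have h1 := at_of hI hU h hq
  have h2 : DifferentiableAt ℝ (fderiv ℝ Φ) q :=
    (h1.fderiv_right (m := ∞) (by simp)).differentiableAt (by simp)
  have e1 : (fun p : ℝ × Cm n => fderiv ℝ (fun y => Φ (p.1, y)) p.2 v) =ᶠ[𝓝 q]
      fun p => fderiv ℝ Φ p (0, v) := by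
    filter_upwards [(hI.prod hU).mem_nhds hq] with p hp using fderiv_slice' hI hU h hp v
  rw [fderiv_slice' hI hU (DT_sm hI hU h) hq v, DT, e1.fderiv_eq]
  unfold DT
  rw [fderiv_clm_apply h2 (differentiableAt_const _), fderiv_clm_apply h2 (differentiableAt_const _)]
  simp only [fderiv_fun_const, Pi.zero_apply, ContinuousLinearMap.comp_zero, zero_add,
    ContinuousLinearMap.flip_apply]
  exact (h1.of_le (m := 2) two_le).isSymmSndFDerivAt
    (by simp [minSmoothness_of_isRCLikeNormedField]) _ _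

theorem DT_dd {Φ : ℝ × Cm n → ℂ} (hI : IsOpen I) (hU : IsOpen U)
    (h : ContDiffOn ℝ ∞ Φ (I ×ˢ U)) {q : ℝ × Cm n} (hq : q ∈ I ×ˢ U) (a b : ℂ) (v w : Cm n) :
    DT (fun p : ℝ × Cm n => DD a b v w (fun y => Φ (p.1, y)) p.2) q =
      DD a b v w (fun y => DT Φ (q.1, y)) q.2 := by
  have h1 := (at_of hI hU (dir hI.uniqueDiffOn hU h v) hq).differentiableAt (by simp)
  have h2 := (at_of hI hU (dir hI.uniqueDiffOn hU h w) hq).differentiableAt (by simp)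
  have h3 := ((hasDT h1).const_mul a).add ((hasDT h2).const_mul b)
  have h4 := hasDT ((at_of hI hU (dd hI.uniqueDiffOn hU h a b v w) hq).differentiableAt (by simp))
  rw [DT_dir hI hU h hq, DT_dir hI hU h hq] at h3
  exact h4.unique h3

theorem comm {Φ Ψ : ℝ × Cm n → ℝ} {t : ℝ} (hI : I ∈ 𝓝 t) (hU : IsOpen U)
    (h : ContDiffOn ℝ ∞ Φ (I ×ˢ U)) (hΨ : ∀ y ∈ U, HasDerivAt (fun s => Φ (s, y)) (Ψ (t, y)) t)
    {z : Cm n} (hz : z ∈ U) (j k : Fin n) :
    HasDerivAt (fun s => cHess (fun y => Φ (s, y)) z j k) (cHess (fun y => Ψ (t, y)) z j k) t := by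
  have ht : t ∈ interior I := mem_interior_iff_mem_nhds.2 hI
  have ho : IsOpen (interior I) := isOpen_interior
  have h0 := ofR (h.mono (prod_mono interior_subset subset_rfl))
  have h1 := (d ho.uniqueDiffOn hU h0 k).2
  have h2 := (d ho.uniqueDiffOn hU h1 j).1
  have h3 := hasDT ((at_of ho hU h2 (q := (t, z)) ⟨ht, hz⟩).differentiableAt (by simp))
  refine HasDerivAt.congr_deriv h3 (Eq.symm ?_)
  simp only [dz_eq_DD, dzb_eq_DD'] at h1 ⊢
  rw [DT_dd ho hU h1 ⟨ht, hz⟩, cHess_apply, dz_eq_DD, dzb_eq_DD']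
  refine DD_congr _ _ _ _ ?_
  filter_upwards [hU.mem_nhds hz] with y hy
  rw [DT_dd ho hU h0 (q := (t, y)) ⟨ht, hy⟩]
  refine DD_congr _ _ _ _ ?_
  filter_upwards [hU.mem_nhds hy] with x hx
  exact ((hΨ x hx).ofReal_comp).unique
    (hasDT ((at_of ho hU h0 (q := (t, x)) ⟨ht, hx⟩).differentiableAt (by simp)))

theorem det {g : ℝ → Mt n} {g' : Mt n} {t : ℝ}
    (h : ∀ j k, HasDerivAt (fun s => g s j k) (g' j k) t) :
    HasDerivAt (fun s => (g s).det) (((g t).adjugate * g').trace) t := by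
  simp only [Matrix.det_apply']
  have h1 := HasDerivAt.fun_sum (u := Finset.univ) fun (σ : Equiv.Perm (Fin n)) _ =>
    (HasDerivAt.fun_finsetProd (u := Finset.univ) fun i _ => h (σ i) i).const_mul
      ((Equiv.Perm.sign σ : ℤ) : ℂ)
  refine HasDerivAt.congr_deriv h1 (Eq.symm ?_)
  simp only [Finset.mul_sum]
  rw [Finset.sum_comm]
  simp only [Matrix.trace, Matrix.diag_apply]
  refine Finset.sum_congr rfl fun i _ => ?_
  have e3 : ((g t).adjugate * g') i i = ((g t).updateCol i (fun r => g' r i)).det := by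
    rw [← Matrix.cramer_apply, Matrix.cramer_eq_adjugate_mulVec]
    rfl
  rw [e3, Matrix.det_apply']
  refine Finset.sum_congr rfl fun σ _ => ?_
  congr 1
  rw [← Finset.mul_prod_erase Finset.univ _ (Finset.mem_univ i), Matrix.updateCol_self, mul_comm,
    smul_eq_mul]
  congr 1
  refine Finset.prod_congr rfl fun j hj => ?_
  rw [Matrix.updateCol_ne (Finset.ne_of_mem_erase hj)]

theorem det_real {A : Mt n} (h : A.PosDef) : ((A.det.re : ℝ) : ℂ) = A.det ∧ 0 < A.det.re := by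
  have := Complex.lt_def.1 h.det_pos
  exact ⟨Complex.ext rfl (by simpa using this.2), by simpa using this.1⟩

theorem ldet {g : ℝ → Mt n} {g' : Mt n} {t : ℝ}
    (h : ∀ j k, HasDerivAt (fun s => g s j k) (g' j k) t) (hp : (g t).PosDef) :
    HasDerivAt (fun s => Real.log (g s).det.re) (tg (g t) g') t := by
  have h1 := (Complex.reCLM.hasFDerivAt.comp_hasDerivAt t (det h)).log (det_real hp).2.ne'
  refine HasDerivAt.congr_deriv h1 (Eq.symm ?_)
  have h2 := (det_real hp).1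
  have h3 := (det_real hp).2
  simp only [tg, Function.comp, Complex.reCLM_apply, Matrix.inv_def, Ring.inverse_eq_inv',
    Matrix.smul_mul, Matrix.trace_smul, smul_eq_mul]
  rw [← h2, ← Complex.ofReal_inv, Complex.re_ofReal_mul, Complex.ofReal_re]
  field_simp

theorem mul {a b : ℝ → Mt n} {a' b' : Mt n} {t : ℝ}
    (ha : ∀ j k, HasDerivAt (fun s => a s j k) (a' j k) t)
    (hb : ∀ j k, HasDerivAt (fun s => b s j k) (b' j k) t) (j k : Fin n) :
    HasDerivAt (fun s => (a s * b s) j k) ((a' * b t + a t * b') j k) t := by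
  simp only [Matrix.mul_apply, Matrix.add_apply, ← Finset.sum_add_distrib]
  exact HasDerivAt.fun_sum fun i _ => (ha j i).mul (hb i k)

theorem inv {g : ℝ → Mt n} {g' : Mt n} {t : ℝ}
    (h : ∀ j k, HasDerivAt (fun s => g s j k) (g' j k) t) (h0 : (g t).det ≠ 0) (j k : Fin n) :
    HasDerivAt (fun s => (g s)⁻¹ j k) ((-((g t)⁻¹ * g' * (g t)⁻¹)) j k) t := by
  have hd : ∀ j k, DifferentiableAt ℝ (fun s => (g s)⁻¹ j k) t := fun j k => by
    simp only [Matrix.inv_def, Ring.inverse_eq_inv', Matrix.smul_apply, smul_eq_mul,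
      Matrix.adjugate_apply]
    refine ((det h).differentiableAt.inv h0).mul (det (g' := g'.updateRow k 0) fun p q => ?_
      ).differentiableAt
    by_cases hp : p = k
    · simp only [hp, Matrix.updateRow_self]
      exact hasDerivAt_const _ _
    · simp only [Matrix.updateRow_ne hp]
      exact h p q
  set G' : Mt n := Matrix.of fun j k => deriv (fun s => (g s)⁻¹ j k) t
  have h1 : ∀ j k, HasDerivAt (fun s => (g s)⁻¹ j k) (G' j k) t := fun j k => (hd j k).hasDerivAt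
  have h2 : G' * g t + (g t)⁻¹ * g' = 0 := by
    ext p q
    refine (mul h1 h p q).unique ((hasDerivAt_const t ((1 : Mt n) p q)).congr_of_eventuallyEq ?_)
    filter_upwards [(det h).continuousAt.eventually_ne h0] with s hs
    rw [Matrix.nonsing_inv_mul _ (Ne.isUnit hs)]
  have h3 : G' = -((g t)⁻¹ * g' * (g t)⁻¹) := by
    rw [← Matrix.neg_mul, ← eq_neg_of_add_eq_zero_left h2, Matrix.mul_assoc,
      Matrix.mul_nonsing_inv _ (Ne.isUnit h0), Matrix.mul_one]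
  rw [← h3]
  exact h1 j k

theorem tr {g a : ℝ → Mt n} {g' a' : Mt n} {t : ℝ}
    (hg : ∀ j k, HasDerivAt (fun s => g s j k) (g' j k) t)
    (ha : ∀ j k, HasDerivAt (fun s => a s j k) (a' j k) t) (hp : (g t).PosDef) :
    HasDerivAt (fun s => tg (g s) (a s))
      (tg (g t) a' - ((g t)⁻¹ * g' * (g t)⁻¹ * a t).trace.re) t := by
  have h1 := HasDerivAt.fun_sum (u := Finset.univ) fun i _ =>
    mul (inv hg hp.det_pos.ne') ha i i
  have h2 := Complex.reCLM.hasFDerivAt.comp_hasDerivAt t h1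
  refine HasDerivAt.congr_deriv h2 (Eq.symm ?_)
  change _ = (-((g t)⁻¹ * g' * (g t)⁻¹) * a t + (g t)⁻¹ * a').trace.re
  rw [Matrix.trace_add, Matrix.neg_mul, Matrix.trace_neg, Complex.add_re, Complex.neg_re, tg]
  ring

theorem min {f : Cm n → ℝ} {z : Cm n} (hf : ContDiffAt ℝ 2 f z) (h : IsLocalMin f z) :
    (cHess f z).PosSemidef ∧ ∀ j, dz j (fun y => (f y : ℂ)) z = 0 := by
  refine ⟨?_, fun j => ?_⟩
  · have := Vale.Agent.P272.K.N.neg_cHess_posSemidef hf.neg h.neg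
    rwa [cHess_neg hf, neg_neg] at this
  · have h1 := (Complex.ofRealCLM.hasFDerivAt.comp z
      (hf.differentiableAt (by simp)).hasFDerivAt).fderiv
    rw [h.fderiv_eq_zero] at h1
    have h2 : fderiv ℝ (fun y => (f y : ℂ)) z = 0 := by
      refine h1.trans ?_
      simp
    simp [dz, h2]

end Calc

theorem calc' (n : ℕ) : CALC n where
  slice _ _ _ hU h _ ht _ hz := Calc.slice hU h ht hz
  d _ _ _ hI hU h j := Calc.d hI hU h j
  hess _ _ _ hI hU h j k := Calc.hess hI hU h j k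
  comm _ _ _ _ _ hI hU h hΨ _ hz j k := Calc.comm hI hU h hΨ hz j k
  ldet _ _ _ h hp := Calc.ldet h hp.self_of_nhds
  tr _ _ _ _ _ hg ha hp := Calc.tr hg ha hp
  min _ _ hf h := Calc.min hf h

end Vale.Agent.P253W.FG
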