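import Vale.Agent.P253W.FG.Sol
import Vale.Agent.P253W.FG.Calc
import Vale.Agent.P253Z.B1b

/-!
# P253W, block FG: evolution equations
-/

open scoped Manifold ContDiff Bundle ENNReal Topology ComplexConjugate ComplexOrder Matrix
open Bundle IsManifold MeasureTheory Set Metric Filter Vale.Agent.P253.Mfd Vale.Agent.P253Z
open Vale.Agent.P272.K (Cm dz dzb cHess jacM Chart)
open Vale.Agent.P272.K.C2

set_option linter.unusedSectionVars false

noncomputable section

namespace Vale.Agent.P253W.FG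

section alg
variable {n : ℕ}

theorem pb_add (J A B : Mt n) : pb J (A + B) = pb J A + pb J B := by
  simp only [pb, Matrix.mul_add, Matrix.add_mul]

theorem pb_sub (J A B : Mt n) : pb J (A - B) = pb J A - pb J B := by
  simp only [pb, Matrix.mul_sub, Matrix.sub_mul]

theorem pb_neg (J A : Mt n) : pb J (-A) = -pb J A := by
  simp only [pb, Matrix.mul_neg, Matrix.neg_mul]

theorem pb_smul (J A : Mt n) (c : ℂ) : pb J (c • A) = c • pb J A := by
  simp only [pb, Matrix.mul_smul, Matrix.smul_mul]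

theorem tg_add (g A B : Mt n) : tg g (A + B) = tg g A + tg g B := by
  simp only [tg, Matrix.mul_add, Matrix.trace_add, Complex.add_re]

theorem tg_sub (g A B : Mt n) : tg g (A - B) = tg g A - tg g B := by
  simp only [tg, Matrix.mul_sub, Matrix.trace_sub, Complex.sub_re]

theorem tg_neg (g A : Mt n) : tg g (-A) = -tg g A := by
  simp only [tg, Matrix.mul_neg, Matrix.trace_neg, Complex.neg_re]

theorem tg_smul (g A : Mt n) (c : ℝ) : tg g ((c : ℂ) • A) = c * tg g A := by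
  simp only [tg, Matrix.mul_smul, Matrix.trace_smul, smul_eq_mul, Complex.re_ofReal_mul]

theorem tg_zero (g : Mt n) : tg g 0 = 0 := by simp [tg]

theorem EIG.tg_nn (E : EIG n) {g A : Mt n} (hg : g.PosDef) (hA : A.PosSemidef) : 0 ≤ tg g A := by
  have := E.mono g 0 A hg (by rwa [sub_zero])
  rwa [tg_zero] at this

theorem psd_smul {A : Mt n} (hA : A.PosSemidef) {c : ℝ} (hc : 0 ≤ c) :
    ((c : ℂ) • A).PosSemidef := hA.smul (by exact_mod_cast hc)

theorem pd_smul {A : Mt n} (hA : A.PosDef) {c : ℝ} (hc : 0 < c) : ((c : ℂ) • A).PosDef :=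
  hA.smul (by exact_mod_cast hc)

variable {E : Type*} [NormedAddCommGroup E] [NormedSpace ℝ E] {s : Set E} {A B : E → Mt n}

theorem sm_det (hA : ∀ j k, ContDiffOn ℝ ∞ (fun q => A q j k) s) :
    ContDiffOn ℝ ∞ (fun q => (A q).det) s := by
  simp only [Matrix.det_apply']
  exact ContDiffOn.sum fun σ _ => contDiffOn_const.mul (contDiffOn_prod fun i _ => hA _ _)

theorem sm_inv (hA : ∀ j k, ContDiffOn ℝ ∞ (fun q => A q j k) s) (h0 : ∀ q ∈ s, (A q).det ≠ 0)
    (j k : Fin n) : ContDiffOn ℝ ∞ (fun q => (A q)⁻¹ j k) s := by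
  simp only [Matrix.inv_def, Ring.inverse_eq_inv', Matrix.smul_apply, smul_eq_mul,
    Matrix.adjugate_apply]
  refine ((sm_det hA).inv h0).mul (sm_det fun p q => ?_)
  by_cases hp : p = k
  · simp only [hp, Matrix.updateRow_self]
    exact contDiffOn_const
  · simp only [Matrix.updateRow_ne hp]
    exact hA p q

theorem sm_tg (hA : ∀ j k, ContDiffOn ℝ ∞ (fun q => A q j k) s)
    (hB : ∀ j k, ContDiffOn ℝ ∞ (fun q => B q j k) s) (h0 : ∀ q ∈ s, (A q).det ≠ 0) :
    ContDiffOn ℝ ∞ (fun q => tg (A q) (B q)) s := by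
  simp only [tg, Matrix.trace, Matrix.diag_apply, Matrix.mul_apply]
  exact Complex.reCLM.contDiff.comp_contDiffOn (ContDiffOn.sum fun i _ =>
    ContDiffOn.sum fun j _ => (sm_inv hA h0 i j).mul (hB j i))

theorem sm_ldet (hA : ∀ j k, ContDiffOn ℝ ∞ (fun q => A q j k) s) (h0 : ∀ q ∈ s, (A q).PosDef) :
    ContDiffOn ℝ ∞ (fun q => Real.log (A q).det.re) s :=
  (Complex.reCLM.contDiff.comp_contDiffOn (sm_det hA)).log fun q hq =>
    (Calc.det_real (h0 q hq)).2.ne'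

end alg

variable {n : ℕ} {M : Type} [MetricSpace M] [ChartedSpace (Cm n) M]
  [IsManifold 𝓘(ℂ, Cm n) 1 M] [IsManifold 𝓘(ℝ, Cm n) ∞ M]
  [RiemannianBundle (fun x : M => TangentSpace 𝓘(ℝ, Cm n) x)]
  [IsContMDiffRiemannianBundle 𝓘(ℝ, Cm n) ∞ (Cm n) (fun x : M => TangentSpace 𝓘(ℝ, Cm n) x)]
  [IsRiemannianManifold 𝓘(ℝ, Cm n) M] [CompleteSpace M] [ConnectedSpace M] [NoncompactSpace M]
  [MeasurableSpace M] [BorelSpace M]
  {η T t : ℝ} {D : Set M} {l f : M → ℝ} {φ : ℝ → M → ℝ} {e e' : Chart n M} {x : M} {z : Cm n}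

theorem cd_open (e : Chart n M) (hD : IsOpen D) : IsOpen (cd e D) :=
  e.continuousOn_symm.isOpen_inter_preimage e.open_target hD

theorem mem_cd (hx : x ∈ e.source) (hD : x ∈ D) : e x ∈ cd e D :=
  ⟨e.map_source hx, by rwa [mem_preimage, e.left_inv hx]⟩

theorem mem_pc (hD : x ∈ D) : pc n x x ∈ cd (pc n x) D := mem_cd (mem_chart_source _ x) hD

theorem pc_symm (x : M) : (pc n x).symm (pc n x x) = x :=
  (pc n x).left_inv (mem_chart_source _ x)

theorem hs_ch (a : B1a n M) (he : Hc e) (he' : Hc e') (hx : x ∈ e.source) (hx' : x ∈ e'.source)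
    (hf : ContDiffAt ℝ 2 (fun y => f (e'.symm y)) (e' x)) :
    hs f e (e x) = pb (jacM e e' x) (hs f e' (e' x)) := by
  refine Eq.trans (cHess_congr ?_) (MC.hess_ch a he he' hx hx' hf)
  filter_upwards [MC.ev_both hx hx'] with y hy
  rw [e'.left_inv hy.2]

/-- continuity can be checked in charts -/
theorem cont_ch (a : B1a n M) (_hD : IsOpen D) {I : Set ℝ} {F : ℝ → M → ℝ}
    (h : ∀ e : Chart n M, Hc e → ContinuousOn (ch e F) (I ×ˢ cd e D)) :
    ContinuousOn (fun q : ℝ × M => F q.1 q.2) (I ×ˢ D) := by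
  rintro ⟨t, x⟩ ⟨ht, hx⟩
  have hs := mem_chart_source (Cm n) x
  have h1 := h _ (a.chart x) (t, pc n x x) ⟨ht, mem_pc hx⟩
  have h2 : ContinuousWithinAt (fun q : ℝ × M => (q.1, pc n x q.2))
      (I ×ˢ (D ∩ (pc n x).source)) (t, x) :=
    (continuousAt_fst.prodMk (((pc n x).continuousAt hs).comp continuousAt_snd)).continuousWithinAt
  have h3 := ContinuousWithinAt.comp (f := fun q : ℝ × M => (q.1, pc n x q.2)) h1 h2
    fun q hq => mk_mem_prod hq.1 (mem_cd hq.2.2 hq.2.1)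
  have h4 : ContinuousWithinAt (fun q : ℝ × M => F q.1 q.2) (I ×ˢ (D ∩ (pc n x).source)) (t, x) :=
    h3.congr (fun q hq => by simp only [Function.comp, ch, (pc n x).left_inv hq.2.2])
      (by simp only [Function.comp, ch, (pc n x).left_inv hs])
  refine h4.mono_of_mem_nhdsWithin ?_
  have h5 : (univ ×ˢ (pc n x).source : Set (ℝ × M)) ∈ 𝓝 (t, x) :=
    prod_mem_nhds univ_mem ((pc n x).open_source.mem_nhds hs)
  filter_upwards [self_mem_nhdsWithin, mem_nhdsWithin_of_mem_nhds h5] with q h6 h7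
  exact ⟨h6.1, h6.2, h7.2⟩

variable (n) in
/-- the time derivative of the metric -/
def gd (l : M → ℝ) (φ : ℝ → M → ℝ) (t : ℝ) (e : Chart n M) (z : Cm n) : Mt n :=
  -rh l e z + hs (lh n l φ t) e z

variable (n) in
/-- the second time derivative of the potential -/
def ww (l : M → ℝ) (φ : ℝ → M → ℝ) (t : ℝ) (x : M) : ℝ :=
  tg (gh l φ t (pc n x) (pc n x x)) (gd n l φ t (pc n x) (pc n x x))

variable (n) in
/-- the standing hypotheses -/
structure Hy (η : ℝ) (D : Set M) (l : M → ℝ) (T : ℝ) (φ : ℝ → M → ℝ) : Prop where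
  a : B1a n M
  b : B1b n M
  E : EIG n
  B : Bar n η D l
  S : Sol n D l T φ
  T0 : 0 < T

theorem ric_sm (b : B1b n M) (he : Hc e) (hz : z ∈ e.target) (j k : Fin n) :
    ContDiffAt ℝ ∞ (fun y => ric e y j k) z :=
  contDiffAt_cHess ((b.vd_sm e he z hz).log (b.vd_pos e he z hz).ne').neg (by simp) j k

theorem Bar.hh_pos (_B : Bar n η D l) (b : B1b n M) (he : Hc e) (hz : z ∈ cd e D) :
    (hh l e z).PosDef := pd_smul (b.wpos e he z hz.1) (Real.exp_pos _)

theorem Bar.hh_sm (B : Bar n η D l) (b : B1b n M) (he : Hc e) (hz : z ∈ cd e D) (j k : Fin n) :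
    ContDiffAt ℝ ∞ (fun y => hh l e y j k) z :=
  (contDiffAt_ofReal (B.sm e he z hz).exp).mul (b.wsm e he z hz.1 j k)

theorem Bar.rh_sm (B : Bar n η D l) (b : B1b n M) (he : Hc e) (hz : z ∈ cd e D) (j k : Fin n) :
    ContDiffAt ℝ ∞ (fun y => rh l e y j k) z :=
  (ric_sm b he hz.1 j k).sub
    (contDiffAt_const.mul (contDiffAt_cHess (B.sm e he z hz) (by simp) j k))

theorem hh_ch (b : B1b n M) (he : Hc e) (he' : Hc e') (hx : x ∈ e.source) (hx' : x ∈ e'.source) :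
    hh l e (e x) = pb (jacM e e' x) (hh l e' (e' x)) := by
  rw [hh, hh, pb_smul, e.left_inv hx, e'.left_inv hx', b.wch e e' he he' x hx hx']

theorem Bar.rh_ch (B : Bar n η D l) (a : B1a n M) (b : B1b n M) (he : Hc e) (he' : Hc e')
    (hx : x ∈ e.source) (hx' : x ∈ e'.source) (hD : x ∈ D) :
    rh l e (e x) = pb (jacM e e' x) (rh l e' (e' x)) := by
  rw [rh, rh, pb_sub, pb_smul, b.ric_ch e e' he he' x hx hx',
    hs_ch a he he' hx hx' ((B.sm e' he' _ (mem_cd hx' hD)).of_le Calc.two_le)]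

theorem Bar.cont (B : Bar n η D l) (a : B1a n M) : ContinuousOn l D := fun x hx => by
  have h1 := (B.sm _ (a.chart x) _ (mem_pc hx)).continuousAt
  have hs := mem_chart_source (Cm n) x
  refine ((h1.comp (f := pc n x) ((pc n x).continuousAt hs)).congr ?_).continuousWithinAt
  filter_upwards [(pc n x).open_source.mem_nhds hs] with y hy
  rw [Function.comp, (pc n x).left_inv hy]

theorem Bar.ldet (B : Bar n η D l) (b : B1b n M) (he : Hc e) (hz : z ∈ cd e D) :
    cHess (fun y => Real.log (hh l e y).det.re) z = -rh l e z := by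
  have h1 : (fun y => Real.log (hh l e y).det.re) =ᶠ[𝓝 z]
      fun y => n * l (e.symm y) - -Real.log (vd e y) := by
    filter_upwards [(cd_open e B.op).mem_nhds hz] with y hy
    rw [hh, Matrix.det_smul, Fintype.card_fin, ← Complex.ofReal_pow, Complex.re_ofReal_mul, ← vd,
      Real.log_mul (pow_pos (Real.exp_pos _) _).ne' (b.vd_pos e he y hy.1).ne', Real.log_pow,
      Real.log_exp, sub_neg_eq_add]
  have h2 := (B.sm e he z hz).of_le Calc.two_le
  rw [cHess_congr h1, cHess_sub (contDiffAt_const.mul h2)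
    (((b.vd_sm e he z hz.1).log (b.vd_pos e he z hz.1).ne').neg.of_le Calc.two_le),
    cHess_const_mul _ h2, rh, neg_sub]
  rfl

namespace Hy

variable (H : Hy n η D l T φ)
include H

theorem ud : UniqueDiffOn ℝ (Icc (0 : ℝ) T) := uniqueDiffOn_Icc H.T0

theorem φ_sm (he : Hc e) (ht : t ∈ Icc 0 T) (hz : z ∈ cd e D) :
    ContDiffAt ℝ ∞ (fun y => φ t (e.symm y)) z :=
  Calc.slice (cd_open e H.B.op) (H.S.sm e he) ht hz

theorem pos (he : Hc e) (ht : t ∈ Icc 0 T) (hz : z ∈ cd e D) : (gh l φ t e z).PosDef := by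
  obtain ⟨c, C, hc, h⟩ := H.S.bd
  have := (pd_smul (H.B.hh_pos H.b he hz) hc).add_posSemidef ((h t ht).2 e he z hz).1
  rwa [add_sub_cancel] at this

theorem det_ne (he : Hc e) (ht : t ∈ Icc 0 T) (hz : z ∈ cd e D) : (gh l φ t e z).det ≠ 0 :=
  (H.pos he ht hz).det_pos.ne'

theorem gh_ch (he : Hc e) (he' : Hc e') (ht : t ∈ Icc 0 T) (hx : x ∈ e.source)
    (hx' : x ∈ e'.source) (hD : x ∈ D) :
    gh l φ t e (e x) = pb (jacM e e' x) (gh l φ t e' (e' x)) := by
  rw [gh, gh, pb_add, pb_sub, pb_smul, hh_ch H.b he he' hx hx', H.B.rh_ch H.a H.b he he' hx hx' hD,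
    hs_ch H.a he he' hx hx' ((H.φ_sm he' ht (mem_cd hx' hD)).of_le Calc.two_le)]

theorem lh_eq (he : Hc e) (ht : t ∈ Icc 0 T) (hz : z ∈ cd e D) : lh n l φ t (e.symm z) =
    Real.log (gh l φ t e z).det.re - Real.log (hh l e z).det.re := by
  have hx := e.map_target hz.1
  have hs := mem_chart_source (Cm n) (e.symm z)
  have hc := H.a.chart (e.symm z)
  rw [lh, H.gh_ch hc he ht hs hx hz.2, hh_ch H.b hc he hs hx,
    H.E.det_inv _ _ _ (H.a.jac_ne _ _ hc he _ hs hx), e.right_inv hz.1,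
    Real.log_div (Calc.det_real (H.pos he ht hz)).2.ne'
      (Calc.det_real (H.B.hh_pos H.b he hz)).2.ne']

theorem lift {F : Cm n → ℂ} (h : ∀ z ∈ cd e D, ContDiffAt ℝ ∞ F z) :
    ContDiffOn ℝ ∞ (fun q : ℝ × Cm n => F q.2) (Icc 0 T ×ˢ cd e D) := fun q hq =>
  ((h q.2 hq.2).comp q contDiffAt_snd).contDiffWithinAt

theorem gh_sm (he : Hc e) (j k : Fin n) :
    ContDiffOn ℝ ∞ (fun q : ℝ × Cm n => gh l φ q.1 e q.2 j k) (Icc 0 T ×ˢ cd e D) :=
  ((H.lift fun _ hz => H.B.hh_sm H.b he hz j k).sub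
    ((Complex.ofRealCLM.contDiff.comp_contDiffOn contDiffOn_fst).mul
      (H.lift fun _ hz => H.B.rh_sm H.b he hz j k))).add
    (Calc.hess H.ud (cd_open e H.B.op) (H.S.sm e he) j k)

theorem lh_sm (he : Hc e) : ContDiffOn ℝ ∞ (ch e (lh n l φ)) (Icc 0 T ×ˢ cd e D) :=
  ((sm_ldet (H.gh_sm he) fun _ hq => H.pos he hq.1 hq.2).sub
    (sm_ldet (fun j k => H.lift fun _ hz => H.B.hh_sm H.b he hz j k)
      fun _ hq => H.B.hh_pos H.b he hq.2)).congr fun _ hq => H.lh_eq he hq.1 hq.2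

theorem lh_sl (he : Hc e) (ht : t ∈ Icc 0 T) (hz : z ∈ cd e D) :
    ContDiffAt ℝ ∞ (fun y => lh n l φ t (e.symm y)) z :=
  Calc.slice (cd_open e H.B.op) (H.lh_sm he) ht hz

theorem gh_sl (he : Hc e) (ht : t ∈ Icc 0 T) (hz : z ∈ cd e D) (j k : Fin n) :
    ContDiffAt ℝ ∞ (fun y => gh l φ t e y j k) z :=
  Calc.slice (Φ := fun q : ℝ × Cm n => gh l φ q.1 e q.2 j k) (cd_open e H.B.op) (H.gh_sm he j k)
    ht hz

theorem gd_sm (he : Hc e) (j k : Fin n) :
    ContDiffOn ℝ ∞ (fun q : ℝ × Cm n => gd n l φ q.1 e q.2 j k) (Icc 0 T ×ˢ cd e D) :=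
  (H.lift fun _ hz => H.B.rh_sm H.b he hz j k).neg.add
    (Calc.hess H.ud (cd_open e H.B.op) (H.lh_sm he) j k)

theorem gd_ch (he : Hc e) (he' : Hc e') (ht : t ∈ Icc 0 T) (hx : x ∈ e.source)
    (hx' : x ∈ e'.source) (hD : x ∈ D) :
    gd n l φ t e (e x) = pb (jacM e e' x) (gd n l φ t e' (e' x)) := by
  rw [gd, gd, pb_add, pb_neg, H.B.rh_ch H.a H.b he he' hx hx' hD,
    hs_ch H.a he he' hx hx' ((H.lh_sl he' ht (mem_cd hx' hD)).of_le Calc.two_le)]

theorem ww_eq (he : Hc e) (ht : t ∈ Icc 0 T) (hz : z ∈ cd e D) :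
    ww n l φ t (e.symm z) = tg (gh l φ t e z) (gd n l φ t e z) := by
  have hx := e.map_target hz.1
  have hs := mem_chart_source (Cm n) (e.symm z)
  have hc := H.a.chart (e.symm z)
  have h0 := H.det_ne he ht hz
  rw [← e.right_inv hz.1] at h0
  rw [ww, H.gh_ch hc he ht hs hx hz.2, H.gd_ch hc he ht hs hx hz.2,
    H.E.inv _ _ _ (H.a.jac_ne _ _ hc he _ hs hx) h0, e.right_inv hz.1]

theorem ww_sm (he : Hc e) : ContDiffOn ℝ ∞ (ch e (ww n l φ)) (Icc 0 T ×ˢ cd e D) :=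
  (sm_tg (H.gh_sm he) (H.gd_sm he) fun _ hq => H.det_ne he hq.1 hq.2).congr
    fun _ hq => H.ww_eq he hq.1 hq.2

theorem ww_sl (he : Hc e) (ht : t ∈ Icc 0 T) (hz : z ∈ cd e D) :
    ContDiffAt ℝ ∞ (fun y => ww n l φ t (e.symm y)) z :=
  Calc.slice (cd_open e H.B.op) (H.ww_sm he) ht hz

theorem ldet (he : Hc e) (ht : t ∈ Icc 0 T) (hz : z ∈ cd e D) :
    cHess (fun y => Real.log (gh l φ t e y).det.re) z = gd n l φ t e z := by
  have h1 : (fun y => Real.log (gh l φ t e y).det.re) =ᶠ[𝓝 z]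
      fun y => Real.log (hh l e y).det.re + lh n l φ t (e.symm y) := by
    filter_upwards [(cd_open e H.B.op).mem_nhds hz] with y hy
    rw [H.lh_eq he ht hy]
    ring
  have h2 : ContDiffAt ℝ ∞ (fun y => Real.log (hh l e y).det.re) z :=
    (sm_ldet (fun j k y hy => (H.B.hh_sm H.b he hy j k).contDiffWithinAt)
      fun _ hq => H.B.hh_pos H.b he hq).contDiffAt ((cd_open e H.B.op).mem_nhds hz)
  rw [cHess_congr h1, cHess_add (h2.of_le Calc.two_le) ((H.lh_sl he ht hz).of_le Calc.two_le),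
    H.B.ldet H.b he hz]
  rfl

theorem dφ (ht : t ∈ Ioo 0 T) (hx : x ∈ D) : HasDerivAt (fun s => φ s x) (lh n l φ t x) t :=
  (H.S.eq t (Ioo_subset_Icc_self ht) x hx).hasDerivAt (Icc_mem_nhds ht.1 ht.2)

theorem dg (he : Hc e) (ht : t ∈ Ioo 0 T) (hz : z ∈ cd e D) (j k : Fin n) :
    HasDerivAt (fun s => gh l φ s e z j k) (gd n l φ t e z j k) t := by
  have h1 := Calc.comm (Ψ := ch e (lh n l φ)) (Icc_mem_nhds ht.1 ht.2) (cd_open e H.B.op)
    (H.S.sm e he) (fun y hy => H.dφ ht hy.2) hz j k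
  have h2 := ((hasDerivAt_const t (hh l e z j k)).sub
    ((hasDerivAt_id t).ofReal_comp.mul_const (rh l e z j k))).add h1
  refine HasDerivAt.congr_deriv h2 ?_
  simp only [gd, Matrix.add_apply, Matrix.neg_apply, Complex.ofReal_one, one_mul, zero_sub]
  rfl

theorem dlh (ht : t ∈ Ioo 0 T) (hx : x ∈ D) :
    HasDerivAt (fun s => lh n l φ s x) (ww n l φ t x) t := by
  have hc := H.a.chart x
  have h1 := (Calc.ldet (H.dg hc ht (mem_pc hx))
    (H.pos hc (Ioo_subset_Icc_self ht) (mem_pc hx))).sub_const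
      (Real.log (hh l (pc n x) (pc n x x)).det.re)
  refine h1.congr_of_eventuallyEq ?_
  filter_upwards [Icc_mem_nhds ht.1 ht.2] with s hs
  rw [← H.lh_eq hc hs (mem_pc hx), pc_symm]

theorem dww (ht : t ∈ Ioo 0 T) (hx : x ∈ D) : ∃ w' : ℝ, HasDerivAt (fun s => ww n l φ s x) w' t ∧
    n * w' + ww n l φ t x ^ 2 ≤
      n * tg (gh l φ t (pc n x) (pc n x x)) (hs (ww n l φ t) (pc n x) (pc n x x)) := by
  have hc := H.a.chart x
  have hz := mem_pc (n := n) hx
  have ht' := Ioo_subset_Icc_self ht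
  have h1 : ∀ j k, HasDerivAt (fun s => gd n l φ s (pc n x) (pc n x x) j k)
      (hs (ww n l φ t) (pc n x) (pc n x x) j k) t := fun j k => by
    have h0 : ∀ y ∈ cd (pc n x) D, HasDerivAt (fun s => ch (pc n x) (lh n l φ) (s, y))
        (ch (pc n x) (ww n l φ) (t, y)) t := fun y hy => by
      simp only [ch]
      exact H.dlh ht hy.2
    have := (Calc.comm (Icc_mem_nhds ht.1 ht.2) (cd_open _ H.B.op)
      (H.lh_sm hc) h0 hz j k).const_add ((-rh l (pc n x) (pc n x x)) j k)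
    simp only [gd, hs, Matrix.add_apply]
    simp only [ch] at this
    exact this
  refine ⟨_, Calc.tr (H.dg hc ht hz) h1 (H.pos hc ht' hz), ?_⟩
  have h2 : (gd n l φ t (pc n x) (pc n x x)).IsHermitian := by
    rw [← H.ldet hc ht' hz]
    exact cHess_isHermitian (((sm_ldet (fun j k y hy => (H.gh_sl hc ht' hy j k).contDiffWithinAt)
      fun _ hq => H.pos hc ht' hq).contDiffAt ((cd_open _ H.B.op).mem_nhds hz)).of_le Calc.two_le)
  have h3 := H.E.sq _ _ (H.pos hc ht' hz) h2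
  rw [ww]
  linarith

theorem gh_zero (_he : Hc e) (hz : z ∈ cd e D) : gh l φ 0 e z = hh l e z := by
  have h1 : hs (φ 0) e z = 0 := by
    refine (cHess_congr ?_).trans (cHess_const 0)
    filter_upwards [(cd_open e H.B.op).mem_nhds hz] with y hy using H.S.zero _ hy.2
  simp [gh, h1]

theorem lh_zero (hx : x ∈ D) : lh n l φ 0 x = 0 := by
  rw [lh, H.gh_zero (H.a.chart x) (mem_pc hx),
    div_self (Calc.det_real (H.B.hh_pos H.b (H.a.chart x) (mem_pc hx))).2.ne', Real.log_one]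

theorem φ_cont : ContinuousOn (fun q : ℝ × M => φ q.1 q.2) (Icc 0 T ×ˢ D) :=
  cont_ch H.a H.B.op fun e he => (H.S.sm e he).continuousOn

theorem lh_cont : ContinuousOn (fun q : ℝ × M => lh n l φ q.1 q.2) (Icc 0 T ×ˢ D) :=
  cont_ch H.a H.B.op fun _ he => (H.lh_sm he).continuousOn

theorem ww_cont : ContinuousOn (fun q : ℝ × M => ww n l φ q.1 q.2) (Icc 0 T ×ˢ D) :=
  cont_ch H.a H.B.op fun _ he => (H.ww_sm he).continuousOn

end Hy

end Vale.Agent.P253W.FG
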