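import Vale.Agent.P253W.FG.Defs
import Vale.Agent.P253W.A.Lin

/-!
# P253W, block FG, row LAM: the largest eigenvalue, traces and determinants
-/

set_option linter.all false

open Matrix Set Metric Vale.Agent.P253Z Vale.Agent.P253W.A Vale.Agent.P253W.A.Lin
open scoped ComplexOrder
open Vale.Agent.P272.K (Cm)

noncomputable section

namespace Vale.Agent.P253W.FG

namespace Lam

variable {n : ℕ} {A B C J g : Mt n} {l : Fin n → ℝ}

theorem qf_eq (A : Mt n) (ξ : Cm n) : qf A ξ = hf A (star ξ) := by rw [qf, hf, star_star]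

theorem pb_eq (J A : Mt n) : pb J A = (J.map (starRingEnd ℂ))ᴴ * A * J.map (starRingEnd ℂ) := by
  rw [pb]
  congr 2
  ext
  simp

theorem unit_bar (h : J.det ≠ 0) : IsUnit (J.map (starRingEnd ℂ)) :=
  (isUnit_iff_isUnit_det _).2 (by
    rw [← RingHom.mapMatrix_apply, ← RingHom.map_det]
    exact ((map_ne_zero _).2 h).isUnit)

theorem qf_le (h : (B - A).PosSemidef) (ξ : Cm n) : qf A ξ ≤ qf B ξ := by
  rw [qf_eq, qf_eq, ← sub_nonneg, ← hf_sub]
  exact h.re_dotProduct_nonneg _

theorem qf_pos (h : A.PosDef) {ξ : Cm n} (e : ξ ≠ 0) : 0 < qf A ξ :=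
  qf_eq A ξ ▸ h.re_dotProduct_pos (star_ne_zero.2 e)

theorem qf_smul (A : Mt n) (t : ℝ) (ξ : Cm n) : qf A ((t : ℂ) • ξ) = t ^ 2 * qf A ξ := by
  simp [qf, mulVec_smul]
  ring

theorem exists_max (hn : 1 ≤ n) (A : Mt n) (hB : B.PosDef) : ∃ ξ : Cm n, ξ ≠ 0 ∧
    qf A ξ = lam A B * qf B ξ ∧ ∀ η, qf A η ≤ lam A B * qf B η := by
  have : Nonempty (Fin n) := ⟨⟨0, hn⟩⟩
  have c (A : Mt n) : Continuous (qf A) := by unfold qf; fun_prop
  obtain ⟨ξ, h1, h2, h3⟩ := (isCompact_sphere (0 : Cm n) 1).exists_sSup_image_eq_and_ge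
    (NormedSpace.sphere_nonempty.2 zero_le_one) (f := fun ξ => qf A ξ / qf B ξ)
    ((c A).continuousOn.div (c B).continuousOn fun ξ h =>
      (qf_pos hB (ne_zero_of_mem_unit_sphere ⟨ξ, h⟩)).ne')
  have h0 : ξ ≠ 0 := ne_zero_of_mem_unit_sphere ⟨ξ, h1⟩
  rw [lam, h2]
  refine ⟨ξ, h0, (div_mul_cancel₀ _ (qf_pos hB h0).ne').symm, fun η => ?_⟩
  rcases eq_or_ne η 0 with rfl | e
  · simp [qf]
  have := h3 (((‖η‖⁻¹ : ℝ) : ℂ) • η) (by simp [norm_smul, e])
  rwa [qf_smul, qf_smul, mul_div_mul_left _ _ (by simpa using e), div_le_iff₀ (qf_pos hB e)] at this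

theorem le (hn : 1 ≤ n) (hA : A.IsHermitian) (hB : B.PosDef) :
    ((lam A B : ℂ) • B - A).PosSemidef :=
  psd_of_hf ((hB.1.smul (Complex.conj_ofReal _)).sub hA) fun v => by
    obtain ⟨-, -, -, h⟩ := exists_max hn A hB
    simpa only [hf_sub, hf_smul, sub_nonneg, qf_eq, star_star] using h (star v)

theorem min (hn : 1 ≤ n) {c : ℝ} (hB : B.PosDef) (h : ((c : ℂ) • B - A).PosSemidef) :
    lam A B ≤ c := by
  obtain ⟨ξ, h0, h1, -⟩ := exists_max hn A hB
  have := qf_le h ξ
  rw [h1, qf_eq (_ • _), hf_smul, ← qf_eq] at this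
  exact le_of_mul_le_mul_right this (qf_pos hB h0)

theorem psd_diag (u : IsUnit C) :
    (Cᴴ * diagonal (fun i => (l i : ℂ)) * C).PosSemidef ↔ ∀ i, 0 ≤ l i :=
  u.posSemidef_star_left_conjugate_iff.trans (by simp)

theorem pos_diag (u : IsUnit C) (h : (Cᴴ * diagonal (fun i => (l i : ℂ)) * C).PosDef) (i : Fin n) :
    0 < l i := by simpa using posDef_diagonal_iff.1 (u.posDef_star_left_conjugate_iff.1 h) i

theorem le_diag (u : IsUnit C) {c : ℝ}
    (h : ((c : ℂ) • (Cᴴ * C) - Cᴴ * diagonal (fun i => (l i : ℂ)) * C).PosSemidef) (i : Fin n) :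
    l i ≤ c := sub_nonneg.1 ((psd_diag (l := fun i => c - l i) u).1 (by
  simpa [← diagonal_sub, Matrix.mul_sub, Matrix.sub_mul, ← smul_one_eq_diagonal] using h) i)

theorem det_diag (h : (Cᴴ * C).PosDef) :
    (Cᴴ * diagonal (fun i => (l i : ℂ)) * C).det.re / (Cᴴ * C).det.re = ∏ i, l i := by
  have e : (Cᴴ * diagonal (fun i => (l i : ℂ)) * C).det = (∏ i, l i : ℝ) * (Cᴴ * C).det := by
    simp only [det_mul, det_diagonal, Complex.ofReal_prod]
    ring
  rw [e, Complex.re_ofReal_mul, mul_div_cancel_right₀ _ (Complex.pos_iff.1 h.det_pos).1.ne']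

theorem tg_vec (g : Mt n) (a : Cm n) : tg g (vecMulVec a (star a)) = hf g⁻¹ a := by
  rw [tg, hf, mul_vecMulVec, trace_vecMulVec, dotProduct_comm]

theorem sqrt_hf (C : Mt n) (a : Cm n) : √(hf (Cᴴ * C) a) = ‖WithLp.toLp 2 (C *ᵥ a)‖ := by
  have := hf_conj C 1 a
  rw [Matrix.mul_one] at this
  rw [this, EuclideanSpace.norm_eq]
  simp [hf, dotProduct, Complex.conj_mul', ← Complex.ofReal_pow]

end Lam

open Lam

theorem lamm {n : ℕ} (hn : 1 ≤ n) : LAM n where
  le _ _ := le hn
  att A _ _ hB := (exists_max hn A hB).imp fun _ h => ⟨h.1, h.2.1⟩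
  min _ _ _ _ := min hn
  inv A B J hA hB hJ := by
    have u := unit_bar hJ
    have e (c : ℂ) : c • pb J B - pb J A = star (J.map (starRingEnd ℂ)) * (c • B - A) *
        J.map (starRingEnd ℂ) := by
      simp [pb_eq, Matrix.mul_sub, Matrix.sub_mul, star_eq_conjTranspose]
    have hB' : (pb J B).PosDef := pb_eq J B ▸ u.posDef_star_left_conjugate_iff.2 hB
    exact le_antisymm (min hn hB' (e _ ▸ u.posSemidef_star_left_conjugate_iff.2 (le hn hA hB)))
      (min hn hB (u.posSemidef_star_left_conjugate_iff.1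
        (e _ ▸ le hn (pb_eq J A ▸ isHermitian_conjTranspose_mul_mul _ hA) hB')))
  cont X _ s A B hA hB h := by
    rw [continuousOn_iff_continuous_restrict] at hA hB ⊢
    have c {A : X → Mt n} (hA : Continuous (s.restrict A)) :
        Continuous fun p : s × sphere (0 : Cm n) 1 => qf (s.restrict A p.1) p.2 := by
      unfold qf
      fun_prop
    have := isCompact_univ.continuous_sSup
      (f := fun (x : s) (ξ : sphere (0 : Cm n) 1) => qf (A x) ξ / qf (B x) ξ) ((c hA).div (c hB)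
        fun p => (qf_pos (h _ p.1.2) (ne_zero_of_mem_unit_sphere p.2)).ne')
    exact this.congr fun x => congrArg sSup
      (image_univ.trans (image_eq_range (fun ξ => qf (A x) ξ / qf (B x) ξ) _).symm)

theorem eig (n : ℕ) : EIG n where
  qf_le _ _ := qf_le
  qf_pos _ h _ := qf_pos h
  mono g a b hg h := by
    simpa [tg, Matrix.mul_sub] using tr_nonneg hg.inv.posSemidef h
  self g hg := by simp [tg, nonsing_inv_mul _ ((isUnit_iff_isUnit_det _).1 hg.isUnit)]
  inv g a J hJ _ := by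
    have u := (isUnit_iff_isUnit_det _).1 (unit_bar hJ)
    simp only [tg, pb, Matrix.mul_inv_rev, Matrix.mul_assoc]
    rw [nonsing_inv_mul_cancel_left _ _ (by simpa using hJ), trace_mul_comm]
    simp only [Matrix.mul_assoc, mul_nonsing_inv _ u, Matrix.mul_one]
  det_inv g a J hJ := by
    have e (a : Mt n) : (pb J a).det = (Complex.normSq J.det : ℝ) * a.det := by
      rw [pb, det_mul, det_mul, det_transpose, ← RingHom.mapMatrix_apply, ← RingHom.map_det,
        ← Complex.mul_conj]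
      ring
    rw [e, e, Complex.re_ofReal_mul, Complex.re_ofReal_mul, mul_div_mul_left _ _ (by simpa using hJ)]
  psd_inv a J h := pb_eq J a ▸ h.conjTranspose_mul_mul_same _
  sq g a hg ha := by
    obtain ⟨C, l, u, rfl, rfl⟩ := exists_diag ha hg
    have u1 := (isUnit_iff_isUnit_det _).1 u
    have u2 : IsUnit Cᴴ.det := (isUnit_iff_isUnit_det _).1 u.star
    simp only [tg, Matrix.mul_inv_rev, Matrix.mul_assoc, nonsing_inv_mul_cancel_left _ _ u2,
      mul_nonsing_inv_cancel_left _ _ u1]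
    rw [trace_mul_comm, trace_mul_comm C⁻¹]
    simp only [Matrix.mul_assoc, mul_nonsing_inv _ u1, Matrix.mul_one]
    simpa [← Complex.ofReal_mul, pow_two] using
      sq_sum_le_card_mul_sum_sq (s := Finset.univ) (f := l)
  up A B c hA hB h := by
    obtain ⟨C, l, u, rfl, rfl⟩ := exists_diag hA.1 hB
    rw [det_diag hB, Real.log_prod fun i _ => (pos_diag u hA i).ne']
    simpa using Finset.sum_le_card_nsmul Finset.univ _ c fun i _ =>
      (Real.log_le_iff_le_exp (pos_diag u hA i)).2 (le_diag u h i)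
  low c := by
    refine ⟨Real.exp (-c) / max c 1 ^ n, by positivity, fun A B hA hB h h' => ?_⟩
    obtain ⟨C, l, u, rfl, rfl⟩ := exists_diag hA.1 hB
    have p := pos_diag u hA
    rw [det_diag hB, Real.le_log_iff_exp_le (Finset.prod_pos fun i _ => p i)] at h'
    have := (psd_diag (l := fun i => l i - Real.exp (-c) / max c 1 ^ n) u).2 fun i => by
      rw [sub_nonneg, div_le_iff₀ (by positivity)]
      refine h'.trans ?_
      rw [← Finset.mul_prod_erase _ l (Finset.mem_univ i)]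
      refine mul_le_mul_of_nonneg_left ((Finset.prod_le_prod (g := fun _ => max c 1)
        (fun j _ => (p j).le) fun j _ => le_max_of_le_left (le_diag u h j)).trans ?_) (p i).le
      rw [Finset.prod_const]
      exact pow_le_pow_right₀ (le_max_right c 1) (by simp)
    simpa only [Complex.ofReal_sub, ← diagonal_sub, Matrix.mul_sub, Matrix.sub_mul,
      ← smul_one_eq_diagonal, Matrix.mul_smul, Matrix.smul_mul, Matrix.mul_one] using this
  cs g a b hg := by
    obtain ⟨C, e⟩ := exists_sq hg.inv.posSemidef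
    simp only [tg_vec, e, sqrt_hf, mulVec_add, WithLp.toLp_add, norm_add_le]
  nn g a hg := tg_vec g a ▸ hg.inv.posSemidef.re_dotProduct_nonneg a

end Vale.Agent.P253W.FG
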