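import Vale.Agent.P253Z.RB.Loc
import Vale.Agent.P253Z.RB.Max

/-!
# P253W, block FG: smoothing of plurisubharmonic functions with control of the gradient
-/

open scoped ContDiff Topology
open Set Metric Filter MeasureTheory Real
open Vale.Agent.P272.K (Cm)
open Vale.Agent.P253.R2.H451 (levi2)
open Vale.Agent.P253Z.RB

set_option maxSynthPendingDepth 3

noncomputable section

namespace Vale.Agent.P253W.FG.Rbl

variable {n : ℕ}

/-- smoothing which keeps the modulus of continuity -/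
theorem smoothing {φ : Cm n → ℝ} {z₀ : Cm n} {r : ℝ} (hr : 0 < r)
    (hc : ContinuousOn φ (ball z₀ (3 * r))) (h : P284Z.Psh φ (ball z₀ (3 * r))) {ε : ℝ}
    (hε : 0 < ε) {N : Cm n → ℝ}
    (hN : ∀ a ∈ ball z₀ (3 * r), ∀ b ∈ ball z₀ (3 * r), φ a ≤ φ b + N (b - a)) :
    ∃ q : Cm n → ℝ, ContDiff ℝ ∞ q ∧ ∀ z ∈ ball z₀ r, |q z - φ z| ≤ ε ∧
      (∀ v, 0 ≤ levi2 q z v) ∧ ∀ b ∈ ball z₀ r, q z ≤ q b + N (b - z) := by
  have hs : closedBall z₀ (2 * r) ⊆ ball z₀ (3 * r) := closedBall_subset_ball (by linarith)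
  have hK := isCompact_closedBall z₀ (2 * r)
  obtain ⟨δ, hδ, hu⟩ := Metric.uniformContinuousOn_iff_le.1
    (hK.uniformContinuousOn_of_continuous (hc.mono hs)) ε hε
  obtain ⟨k, k1, k2, k3, k4, -, k6⟩ := P284Z.exists_kernel (volume : Measure (Cm n)) (lt_min hδ hr)
  obtain ⟨V, v1, -, hV⟩ := h.exists_bp (.of_cont hc) isOpen_ball hK hs
  obtain ⟨f, B, m1, m2, m3, -⟩ := hV.cut hK v1
  have hk : Integrable k := k1.continuous.integrable_of_hasCompactSupport k2
  have hi : ∀ y, Integrable (fun w => k w * f (y + w)) := fun y => hk.mul_bdd (c := B)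
    (m1.comp (measurable_const_add y)).aestronglyMeasurable (Eventually.of_forall fun _ => m2 _)
  have mem : ∀ y ∈ ball z₀ r, ∀ w, ‖w‖ ≤ min δ r → y + w ∈ closedBall z₀ (2 * r) :=
    fun y hy w hw => by
      have := dist_triangle (y + w) y z₀
      rw [dist_self_add_left] at this
      exact mem_closedBall.2 (by linarith [mem_ball.1 hy, min_le_right δ r])
  have mono : ∀ {a b : Cm n → ℝ}, (∀ w, ‖w‖ ≤ min δ r → a w ≤ b w) → ∀ w, k w * a w ≤ k w * b w :=
    fun hab w => (lt_or_ge (min δ r) ‖w‖).elim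
      (fun hw => by simp only [k4 w hw, zero_mul, le_refl])
      fun hw => mul_le_mul_of_nonneg_left (hab w hw) (k3 w)
  have sm : ContDiff ℝ ∞ fun y => ∫ w, k w * f (y + w) := by
    have hf : LocallyIntegrable f := (locallyIntegrable_const B).mono m1.aestronglyMeasurable
      (Eventually.of_forall fun w => (m2 w).trans (le_abs_self B))
    have k7 : HasCompactSupport fun w => k (-w) := k2.comp_homeomorph (Homeomorph.neg _)
    convert k7.contDiff_convolution_right (ContinuousLinearMap.mul ℝ ℝ) hf (k1.comp contDiff_neg)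
      using 2 with y
    rw [convolution_mul, ← integral_add_left_eq_self (fun t => f t * k (-(y - t))) y]
    exact integral_congr_ae (Eventually.of_forall fun w => by simp [mul_comm])
  have ps : P284Z.Psh (fun y => ∫ w, k w * f (y + w)) (ball z₀ r) := by
    refine ⟨sm.continuous.continuousOn.upperSemicontinuousOn, fun z w hw => ?_⟩
    obtain ⟨s1, s2⟩ := P284Z.Z.swap m1 m2 hk (q := fun p => z + p.1 • w + p.2) (by fun_prop)
    rw [s1]
    refine integral_mono (hi z) s2 (mono fun x hx => ?_)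
    rw [m3 _ (mem z (P284Z.disc_mem hw) x hx)]
    refine (h.2 (z + x) w fun ζ hζ => hs (add_right_comm z _ x ▸ mem _ (hw ζ hζ) x hx)).trans_eq
      (circleAverage_congr_sphere fun ζ hζ => ?_)
    simp only [add_right_comm z x]
    exact (m3 _ (mem _ (hw ζ (le_of_eq (by simpa using hζ))) x hx)).symm
  have cst : ∀ t : ℝ, ∫ w, k w * t = t := fun t => by rw [integral_mul_const, k6, one_mul]
  refine ⟨_, sm, fun z hz => ⟨?_, fun v => ps.levi_nonneg (isOpen_ball.mem_nhds hz)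
    (sm.contDiffAt.of_le (by norm_cast)) v, fun b hb => ?_⟩⟩
  · have h1 : ∀ w, ‖w‖ ≤ min δ r → |f (z + w) - φ z| ≤ ε := fun w hw => by
      rw [m3 _ (mem z hz w hw)]
      exact hu _ (mem z hz w hw) z (by simpa using mem z hz 0 (by simp [hδ.le, hr.le]))
        (by simpa using hw.trans (min_le_left _ _))
    have h2 := integral_mono (hi z) (hk.mul_const (φ z + ε))
      (mono fun w hw => by linarith [(abs_le.1 (h1 w hw)).2])
    have h3 := integral_mono (hk.mul_const (φ z - ε)) (hi z)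
      (mono fun w hw => by linarith [(abs_le.1 (h1 w hw)).1])
    rw [cst] at h2 h3
    exact abs_le.2 ⟨by linarith, by linarith⟩
  · rw [← cst (N (b - z)), ← integral_add (hi b) (hk.mul_const _)]
    refine integral_mono (hi z) ((hi b).add (hk.mul_const _)) fun w => ?_
    refine (mono (a := fun w => f (z + w)) (b := fun w => f (b + w) + N (b - z))
      (fun w hw => ?_) w).trans_eq (mul_add _ _ _)
    rw [m3 _ (mem z hz w hw), m3 _ (mem b hb w hw)]
    simpa using hN _ (hs (mem z hz w hw)) _ (hs (mem b hb w hw))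

/-- the derivative of a function with a homogeneous modulus of continuity -/
theorem fderiv_le {p N : Cm n → ℝ} {z : Cm n} (hp : DifferentiableAt ℝ p z)
    (hN : ∀ (t : ℝ) v, N (t • v) = |t| * N v) (h0 : ∀ v, 0 ≤ N v)
    (h : ∀ᶠ b in 𝓝 z, |p b - p z| ≤ N (b - z)) (v : Cm n) : |fderiv ℝ p z v| ≤ N v := by
  have h2 : HasDerivAt (fun t : ℝ => z + t • v) v 0 := by
    simpa using ((hasDerivAt_id (0 : ℝ)).smul_const v).const_add z
  have h3 : Tendsto (fun t : ℝ => z + t • v) (𝓝 0) (𝓝 z) := by simpa using h2.continuousAt.tendsto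
  refine (hp.hasFDerivAt.comp_hasDerivAt_of_eq 0 h2 (by simp)).le_of_lip' (h0 v) ?_
  filter_upwards [h3.eventually h] with t ht
  simpa [hN, mul_comm] using ht

theorem quad_lip (B : Cm n →L[ℝ] Cm n →L[ℝ] ℝ) {z₀ a b : Cm n} {R : ℝ} (ha : a ∈ ball z₀ R)
    (hb : b ∈ ball z₀ R) : |B (a - z₀) (a - z₀) - B (b - z₀) (b - z₀)| ≤ 2 * R * ‖B‖ * ‖b - a‖ := by
  have e : B (a - z₀) (a - z₀) - B (b - z₀) (b - z₀) =
      -(B (b - a) (a - z₀) + B (b - z₀) (b - a)) := by
    simp only [map_sub, sub_apply]; ring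
  have h1 := B.le_opNorm₂ (b - a) (a - z₀)
  have h2 := B.le_opNorm₂ (b - z₀) (b - a)
  have h3 := mul_le_mul_of_nonneg_left (mem_ball_iff_norm.1 ha).le
    (mul_nonneg (norm_nonneg B) (norm_nonneg (b - a)))
  have h4 := mul_le_mul_of_nonneg_left (mem_ball_iff_norm.1 hb).le
    (mul_nonneg (norm_nonneg B) (norm_nonneg (b - a)))
  rw [e, abs_neg]
  refine (abs_add_le _ _).trans ?_
  rw [Real.norm_eq_abs] at h1 h2
  linarith

theorem exists_eta {m C a : ℝ} (hm : 0 < m) (hC : 0 ≤ C) (ha : 0 < a) :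
    ∃ η : ℝ, 0 < η ∧ η ≤ a ∧ η * C ≤ m := by
  refine ⟨min a (m / (C + 1)), by positivity, min_le_left _ _, ?_⟩
  have := min_le_right a (m / (C + 1))
  rw [le_div_iff₀ (by positivity)] at this
  have h0 : 0 < min a (m / (C + 1)) := by positivity
  nlinarith

/-- the local piece in `ℂⁿ` -/
theorem piece_aux {U s : Cm n → ℝ} (B : Cm n →L[ℝ] Cm n →L[ℝ] ℝ) {z₀ : Cm n} {r θ a : ℝ}
    (hr : 0 < r) (hθ : 0 < θ) (ha : 0 < a) (hB : 6 * r * ‖B‖ ≤ θ)
    (h2 : ContinuousOn (fun z => U z - B (z - z₀) (z - z₀)) (ball z₀ (3 * r)))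
    (h3 : P284Z.Psh (fun z => U z - B (z - z₀) (z - z₀)) (ball z₀ (3 * r)))
    (hs : ∀ (t : ℝ) v, s (t • v) = |t| * s v) (h0 : ∀ v, 0 ≤ s v)
    (hU : ∀ x ∈ ball z₀ (3 * r), ∀ y ∈ ball z₀ (3 * r), |U x - U y| ≤ s (y - x))
    {b : Cm n → ℝ} (hb : ContDiff ℝ ∞ b) (hb1 : ∀ z, b z ≤ 1) :
    ∃ δ > 0, ∃ p : Cm n → ℝ, ContDiff ℝ ∞ p ∧ ∀ z ∈ ball z₀ r,
      (∀ v, levi2 (fun z => B (z - z₀) (z - z₀)) z v - θ * ‖v‖ ^ 2 ≤ levi2 p z v) ∧
      (∀ v, |fderiv ℝ p z v| ≤ s v + 3 * θ * ‖v‖) ∧ p z ≤ U z + a ∧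
      (b z = 0 → p z ≤ U z) ∧ (b z = 1 → U z + δ ≤ p z) := by
  have hN := sm_quad B z₀
  have hb2 : Continuous (fderiv ℝ (fderiv ℝ b)) :=
    (hb.fderiv_right (m := 1) (by norm_cast)).continuous_fderiv one_ne_zero
  obtain ⟨C, hC⟩ := (isCompact_closedBall z₀ r).exists_bound_of_continuousOn hb2.continuousOn
  obtain ⟨D, hD⟩ := (isCompact_closedBall z₀ r).exists_bound_of_continuousOn
    (hb.continuous_fderiv (by simp)).continuousOn
  have hC0 := (norm_nonneg _).trans (hC z₀ (mem_closedBall_self hr.le))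
  have hD0 := (norm_nonneg _).trans (hD z₀ (mem_closedBall_self hr.le))
  obtain ⟨η, hη, hη1, hη2⟩ := exists_eta hθ (by positivity : 0 ≤ 4 * C + 2 * D) (half_pos ha)
  have lip : ∀ x ∈ ball z₀ (3 * r), ∀ y ∈ ball z₀ (3 * r),
      |B (x - z₀) (x - z₀) - B (y - z₀) (y - z₀)| ≤ θ * ‖y - x‖ := fun x hx y hy =>
    (quad_lip B hx hy).trans (mul_le_mul_of_nonneg_right (by linarith) (norm_nonneg _))
  obtain ⟨q, q1, q2⟩ := smoothing hr h2 h3 (half_pos hη) (N := fun v => s v + θ * ‖v‖)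
    fun x hx y hy => by linarith [(abs_le.1 (hU x hx y hy)).2, (abs_le.1 (lip x hx y hy)).1]
  have hq : ContDiff ℝ ∞ fun z => q z + (1 * B (z - z₀) (z - z₀) + 0) :=
    q1.add ((contDiff_const.mul hN).add contDiff_const)
  refine ⟨η / 2, half_pos hη, fun z => q z + (1 * B (z - z₀) (z - z₀) + 0) + (2 * η * b z + -η),
    hq.add ((contDiff_const.mul hb).add contDiff_const), fun z hz => ?_⟩
  obtain ⟨a1, a2, a0⟩ := q2 z hz
  obtain ⟨a3, a4⟩ := abs_le.1 a1
  have a5 := mul_le_mul_of_nonneg_left (hb1 z) hη.le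
  have hz' := ball_subset_closedBall hz
  have hs3 : ball z₀ r ⊆ ball z₀ (3 * r) := ball_subset_ball (by linarith)
  refine ⟨fun v => ?_, fun v => ?_, by linarith, fun h => by simp only [h]; linarith,
    fun h => by simp only [h]; linarith⟩
  · rw [levi2_lin (hq.contDiffAt.of_le (by norm_cast)) (hb.contDiffAt.of_le (by norm_cast)),
      levi2_lin (q1.contDiffAt.of_le (by norm_cast)) (hN.contDiffAt.of_le (by norm_cast))]
    have b4 := (abs_le.1 ((abs_levi2_le b z v).trans (mul_le_mul_of_nonneg_right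
      (mul_le_mul_of_nonneg_left (hC z hz') zero_le_two) (sq_nonneg _)))).1
    have b5 := mul_le_mul_of_nonneg_left b4 hη.le
    have b6 := mul_le_mul_of_nonneg_right hη2 (sq_nonneg ‖v‖)
    have b7 : 0 ≤ η * D * ‖v‖ ^ 2 := by positivity
    linarith [a2 v]
  · have c1 := fderiv_le (hq.differentiable (by simp) z) (N := fun v => s v + 2 * θ * ‖v‖)
      (fun t v => by rw [hs, norm_smul, Real.norm_eq_abs]; ring)
      (fun v => add_nonneg (h0 v) (by positivity)) (by
        filter_upwards [isOpen_ball.mem_nhds hz] with y hy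
        have d1 := a0 y hy
        have d2 := (q2 y hy).2.2 z hz
        have d3 := abs_le.1 (lip z (hs3 hz) y (hs3 hy))
        have d4 : s (z - y) = s (y - z) := by simpa using hs (-1) (y - z)
        rw [d4, norm_sub_rev] at d2
        exact abs_le.2 ⟨by linarith [d3.2], by linarith [d3.1]⟩) v
    have c2 := ((hq.differentiable (by simp) z).hasFDerivAt.add
      (((hb.differentiable (by simp) z).hasFDerivAt.const_mul (2 * η)).add_const (-η))).fderiv
    have c3 := ((fderiv ℝ b z).le_opNorm v).trans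
      (mul_le_mul_of_nonneg_right (hD z hz') (norm_nonneg v))
    have c4 := mul_le_mul_of_nonneg_left c3 hη.le
    have c5 := mul_le_mul_of_nonneg_right hη2 (norm_nonneg v)
    have c6 : 0 ≤ η * C * ‖v‖ := by positivity
    refine (le_of_eq (congrArg (fun L => |L v|) c2)).trans ?_
    rw [add_apply, smul_apply, smul_eq_mul]
    refine (abs_add_le _ _).trans ?_
    rw [abs_mul, abs_of_pos (mul_pos two_pos hη)]
    rw [Real.norm_eq_abs] at c4
    linarith

theorem exists_sol {ι : Type*} {s : Finset ι} {δ : ι → ℝ} (hδ : ∀ j, 0 < δ j) {y : ι → ℝ}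
    {a w : ℝ} (h1 : ∀ j ∈ s, y j ≤ a + w) (h2 : ∃ j ∈ s, a + δ j ≤ y j) :
    ∃ t ∈ Icc a (a + w), Ph s δ y t = G 1 := by
  have hc : Continuous (Ph s δ y) :=
    continuous_finsetSum _ fun j _ => G_sm.continuous.comp (by fun_prop)
  obtain ⟨j, hj, h3⟩ := h2
  refine intermediate_value_Icc' (by linarith [h1 j hj, hδ j]) hc.continuousOn ⟨?_, ?_⟩
  · rw [show Ph s δ y (a + w) = 0 from Finset.sum_eq_zero fun j hj =>
      G_zero (div_nonpos_of_nonpos_of_nonneg (by linarith [h1 j hj]) (hδ j).le)]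
    exact G_one.le
  · refine le_trans (G_mono ?_) (Finset.single_le_sum (f := fun j => G ((y j - a) / δ j))
      (fun i _ => G_nonneg _) hj)
    rw [le_div_iff₀ (hδ j)]
    linarith

/-- the gradient of a function which touches a combination from above -/
theorem touch1 {ι : Type*} (s : Finset ι) {l : ι → ℝ} {g : ι → Cm n → ℝ} {f : Cm n → ℝ} {z : Cm n}
    (hg : ∀ j ∈ s, DifferentiableAt ℝ (g j) z) (hf : DifferentiableAt ℝ f z)
    (h : ∀ᶠ y in 𝓝 z, f z + ∑ j ∈ s, l j * (g j y - g j z) ≤ f y) (v : Cm n) :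
    fderiv ℝ f z v = ∑ j ∈ s, l j * fderiv ℝ (g j) z v := by
  have h1 := hf.hasFDerivAt.sub (HasFDerivAt.fun_sum fun j hj =>
    ((hg j hj).hasFDerivAt.sub_const (g j z)).const_mul (l j))
  have h2 : IsLocalMin (f - fun y => ∑ j ∈ s, l j * (g j y - g j z)) z :=
    h.mono fun y hy => by simp only [Pi.sub_apply, sub_self, mul_zero, Finset.sum_const_zero]; linarith
  have h3 := congrArg (fun L => L v) (h2.hasFDerivAt_eq_zero h1)
  simpa [sub_eq_zero] using h3

end Vale.Agent.P253W.FG.Rbl
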