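import Vale.Agent.P253W.FG.Defs
import Vale.Agent.P253W.FG.RblA
import Vale.Agent.P253Z.EXH
import Vale.Agent.P253Z.SCH
import Vale.Agent.P253Z.B1a
import Vale.Agent.P253Z.B1b
import Vale.Agent.P253Z.SUP.Disc

/-!
# P253W, block FG: Richberg's theorem with control of the gradient
-/

open scoped Manifold ContDiff Bundle ENNReal Topology ComplexConjugate ComplexOrder
open Bundle IsManifold MeasureTheory Set Metric Filter Vale.Agent.P253.Mfd Vale.Agent.P253Z
open Vale.Agent.P272.K (Cm dz dzb cHess jacM Chart)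
open Vale.Agent.P253.R2.H451 (WeakLevi levi2)
open Vale.Agent.P253.R2.H618 (dist_le_near metric_near leviSq_all)
open Vale.Agent.P253Z.RB

set_option maxSynthPendingDepth 3
set_option linter.unusedSectionVars false

noncomputable section

namespace Vale.Agent.P253W.FG

variable {n : ℕ} {M : Type} [MetricSpace M] [ChartedSpace (Cm n) M]
  [IsManifold 𝓘(ℂ, Cm n) 1 M] [IsManifold 𝓘(ℝ, Cm n) ∞ M]
  [RiemannianBundle (fun x : M => TangentSpace 𝓘(ℝ, Cm n) x)]
  [IsContMDiffRiemannianBundle 𝓘(ℝ, Cm n) ∞ (Cm n) (fun x : M => TangentSpace 𝓘(ℝ, Cm n) x)]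
  [IsRiemannianManifold 𝓘(ℝ, Cm n) M] [CompleteSpace M] [ConnectedSpace M] [NoncompactSpace M]
  [MeasurableSpace M] [BorelSpace M] {μ : Measure M}

namespace Rbl

variable {u c L ε : M → ℝ} {e : Chart n M}

/-- the form `c g` is almost constant near a point -/
theorem near (hK : IsKahler (Cm n) M) (hc : Continuous c) (he : Hc e) {z₀ : Cm n}
    (hz₀ : z₀ ∈ e.target) {η : ℝ} (hη : 0 < η) : ∀ᶠ z in 𝓝 z₀, ∀ v,
      |c (e.symm z) * chartG e z v v - c (e.symm z₀) * chartG e z₀ v v| ≤ η * chartG e z₀ v v := by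
  have hL := localKahler_chartG hK he
  obtain ⟨m, hm, h1⟩ := hL.exists_lower isCompact_singleton (singleton_subset_iff.2 hz₀)
  have h2 : ContinuousAt (fun z => c (e.symm z) • chartG e z) z₀ :=
    (hc.continuousAt.comp (e.continuousAt_symm hz₀)).smul
      (hL.smooth.continuousOn.continuousAt (e.open_target.mem_nhds hz₀))
  filter_upwards [Metric.tendsto_nhds.1 h2 (η * m) (by positivity)] with z h5 v
  rw [dist_eq_norm] at h5
  have h6 := (c (e.symm z) • chartG e z - c (e.symm z₀) • chartG e z₀).le_opNorm₂ v v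
  have h7 := mul_le_mul_of_nonneg_right h5.le (sq_nonneg ‖v‖)
  have h8 := mul_le_mul_of_nonneg_left (h1 z₀ rfl v) hη.le
  simp only [sub_apply, smul_apply, smul_eq_mul, Real.norm_eq_abs] at h6
  linarith

/-- the local pieces -/
theorem piece (hK : IsKahler (Cm n) M) (hc : Continuous c) (hL : Continuous L) (hε : Continuous ε)
    (L0 : ∀ x, 0 ≤ L x) (ε0 : ∀ x, 0 < ε x) (hu : WeakLevi (Cm n) u c univ)
    (hl : ∀ x, ∀ᶠ p : M × M in 𝓝 (x, x), |u p.1 - u p.2| ≤ L x * dist p.1 p.2) (he : Hc e)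
    {z₀ : Cm n} (hz₀ : z₀ ∈ e.target) :
    ∃ r > 0, ball z₀ r ⊆ e.target ∧ ∀ b : Cm n → ℝ, ContDiff ℝ ∞ b → (∀ z, b z ≤ 1) →
      ∃ δ > 0, ∃ p : Cm n → ℝ, ContDiff ℝ ∞ p ∧ ∀ z ∈ ball z₀ r,
        (∀ v, 4 * ((c (e.symm z) - ε (e.symm z)) * chartG e z v v) ≤ levi2 p z v ∧
          |fderiv ℝ p z v| ≤ 8 * (L (e.symm z) + ε (e.symm z)) * √(chartG e z v v)) ∧
        p z ≤ u (e.symm z) + ε (e.symm z) ∧
        (b z = 0 → p z ≤ u (e.symm z)) ∧ (b z = 1 → u (e.symm z) + δ ≤ p z) := by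
  have hk := localKahler_chartG hK he
  obtain ⟨m, hm, hlow⟩ := hk.exists_lower isCompact_singleton (singleton_subset_iff.2 hz₀)
  obtain ⟨a, ha⟩ : ∃ a, a = ε (e.symm z₀) := ⟨_, rfl⟩
  have ha0 : 0 < a := ha ▸ ε0 _
  have hm1 : 0 < √m := Real.sqrt_pos.2 hm
  obtain ⟨B, hB⟩ : ∃ B : Cm n →L[ℝ] Cm n →L[ℝ] ℝ,
      ∀ v w, B v w = (c (e.symm z₀) - a / 4) * chartG e z₀ v w :=
    ⟨(c (e.symm z₀) - a / 4) • chartG e z₀, fun v w => rfl⟩
  obtain ⟨θ, hθ, hθ1, hθ2⟩ : ∃ θ > 0, θ ≤ a * m ∧ 3 * θ ≤ a * √m :=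
    ⟨min (a * m) (a * √m / 3), by positivity, min_le_left _ _,
      by linarith [min_le_right (a * m) (a * √m / 3)]⟩
  obtain ⟨δ₁, h1, -, hd⟩ := dist_le_near hK he (e.map_target hz₀) one_pos
  rw [e.right_inv hz₀] at hd
  have hs := e.continuousAt_symm hz₀
  have hl0 := hl (e.symm z₀)
  rw [nhds_prod_eq] at hl0
  obtain ⟨V, hV, hV'⟩ := (eventually_prod_self_iff (r := fun x y => |u (e.symm x) - u (e.symm y)| ≤
    L (e.symm z₀) * dist (e.symm x) (e.symm y))).1 ((hs.tendsto.prodMap hs.tendsto).eventually hl0)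
  have e1 : ∀ᶠ z in 𝓝 z₀, a / 2 < ε (e.symm z) :=
    (hε.continuousAt.comp hs).eventually (lt_mem_nhds (by simp only [Function.comp, ← ha]; linarith))
  have e2 : ∀ᶠ z in 𝓝 z₀, (L (e.symm z₀) + a) / 2 < L (e.symm z) + ε (e.symm z) :=
    ((hL.add hε).continuousAt.comp hs).eventually (lt_mem_nhds (by
      simp only [Function.comp, Pi.add_apply, ← ha]; linarith [L0 (e.symm z₀)]))
  obtain ⟨R, hR, h4⟩ := Metric.eventually_nhds_iff_ball.1 ((near hK hc he hz₀
    (by positivity : 0 < a / 4)).and ((near hK (hc.sub hε) he hz₀ (by positivity : 0 < a / 4)).and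
    ((metric_near hk hz₀ one_pos).and (e1.and (e2.and (Eventually.and hV (ball_mem_nhds z₀ h1)))))))
  obtain ⟨r, hr, hr1, hr2⟩ := exists_eta hθ (by positivity : 0 ≤ 6 * ‖B‖) (by positivity : 0 < R / 3)
  have h5 := fun z (hz : z ∈ ball z₀ (3 * r)) => h4 z (ball_subset_ball (by linarith) hz)
  have hs3 : ball z₀ r ⊆ ball z₀ (3 * r) := ball_subset_ball (by linarith)
  have ht : ball z₀ (3 * r) ⊆ e.target := fun z hz => (h5 z hz).2.2.1.1
  have hlN : ∀ z v, levi2 (fun z => B (z - z₀) (z - z₀)) z v =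
      4 * ((c (e.symm z₀) - a / 4) * chartG e z₀ v v) := fun z v => by
    rw [levi2_quad B (fun v w => by rw [hB, hB, hk.symm z₀ hz₀ v w])
      (fun v => by rw [hB, hB, hk.herm z₀ hz₀ v v]), hB]
  obtain ⟨h2, h3⟩ := psh_of_weak hu he isOpen_ball ht ((sm_quad B z₀).of_le (by norm_cast))
    fun z hz v => by
      rw [hlN, ← chartG_apply]
      linarith [(abs_le.1 ((h5 z hz).1 v)).1]
  have l0 := L0 (e.symm z₀)
  refine ⟨r, hr, hs3.trans ht, fun b hb hb1 => ?_⟩
  obtain ⟨δ, hδ, p, p1, p2⟩ := piece_aux (U := fun z => u (e.symm z))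
    (s := fun v => L (e.symm z₀) * ((1 + 1) * √(chartG e z₀ v v))) B hr hθ (half_pos ha0)
    (by linarith) h2 h3 (fun t v => by
      simp only [map_smul, smul_apply, smul_eq_mul, ← mul_assoc t]
      rw [Real.sqrt_mul (mul_self_nonneg t), Real.sqrt_mul_self_eq_abs]
      ring) (fun v => by positivity) (fun x hx y hy => (hV' x (h5 x hx).2.2.2.2.2.1 y
        (h5 y hy).2.2.2.2.2.1).trans (mul_le_mul_of_nonneg_left
        (hd x (h5 x hx).2.2.2.2.2.2 y (h5 y hy).2.2.2.2.2.2) l0)) hb hb1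
  refine ⟨δ, hδ, p, p1, fun z hz => ?_⟩
  obtain ⟨q1, q2, q3, q4⟩ := p2 z hz
  obtain ⟨-, g1, g2, g3, g4, -⟩ := h5 z (hs3 hz)
  refine ⟨fun v => ⟨le_trans ?_ (q1 v), (q2 v).trans ?_⟩, by linarith, q4⟩
  · have b1 := (abs_le.1 (g1 v)).2
    have b2 := mul_le_mul_of_nonneg_left (hlow z₀ rfl v) ha0.le
    have b3 := mul_le_mul_of_nonneg_right hθ1 (sq_nonneg ‖v‖)
    simp only [Pi.sub_apply, ← ha] at b1
    rw [hlN]
    linarith [mul_nonneg hθ.le (sq_nonneg ‖v‖)]
  · have b1 := Real.sqrt_le_sqrt (hlow z₀ rfl v)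
    have b2 := Real.sqrt_le_sqrt (g2.2 v).1
    rw [Real.sqrt_mul hm.le, Real.sqrt_sq (norm_nonneg _)] at b1
    rw [Real.sqrt_mul (sq_nonneg _), Real.sqrt_sq (by norm_num)] at b2
    have b3 := mul_le_mul_of_nonneg_right hθ2 (norm_nonneg v)
    have b4 := mul_le_mul_of_nonneg_left b1 ha0.le
    have b5 := mul_le_mul_of_nonneg_left b2 (by positivity : 0 ≤ 2 * L (e.symm z₀) + a)
    have b6 := mul_le_mul_of_nonneg_right g4.le (Real.sqrt_nonneg (chartG e z v v))
    have b7 := mul_nonneg ha0.le (Real.sqrt_nonneg (chartG e z v v))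
    linarith

/-- a locally finite family of pieces -/
theorem family (hK : IsKahler (Cm n) M) (a : B1a n M) (hc : Continuous c) (hL : Continuous L)
    (hε : Continuous ε) (L0 : ∀ x, 0 ≤ L x) (ε0 : ∀ x, 0 < ε x) (hu : WeakLevi (Cm n) u c univ)
    (hl : ∀ x, ∀ᶠ p : M × M in 𝓝 (x, x), |u p.1 - u p.2| ≤ L x * dist p.1 p.2) :
    ∃ (ι : Type) (e : ι → Chart n M) (K U : ι → Set M) (δ : ι → ℝ) (p : ι → Cm n → ℝ),
      (∀ i, Hc (e i)) ∧ LocallyFinite K ∧ (∀ i, IsClosed (K i)) ∧ (∀ i, IsOpen (U i)) ∧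
      (∀ i, K i ⊆ U i) ∧ (∀ i, U i ⊆ (e i).source) ∧ (∀ i, 0 < δ i) ∧
      (∀ i, ContDiff ℝ ∞ (p i)) ∧
      (∀ i, ∀ x ∈ U i, (∀ v, 4 * ((c x - ε x) * chartG (e i) (e i x) v v) ≤ levi2 (p i) (e i x) v ∧
        |fderiv ℝ (p i) (e i x) v| ≤ 8 * (L x + ε x) * √(chartG (e i) (e i x) v v)) ∧
        p i (e i x) ≤ u x + ε x ∧ (x ∉ K i → p i (e i x) ≤ u x)) ∧
      ∀ x, ∃ i, x ∈ K i ∧ u x + δ i ≤ p i (e i x) := by
  have := properSpace_riemannian (Cm n) M
  choose r hr ht hP using fun x : M =>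
    piece hK hc hL hε L0 ε0 hu hl (a.chart x) (mem_chart_target (Cm n) x)
  let U : M → Set M := fun x => (chartAt (Cm n) x).source ∩
    chartAt (Cm n) x ⁻¹' ball (chartAt (Cm n) x x) (r x)
  have hU : ∀ x, IsOpen (U x) := fun x => (chartAt (Cm n) x).isOpen_inter_preimage isOpen_ball
  obtain ⟨ι, f, hf⟩ := SmoothBumpCovering.exists_isSubordinate 𝓘(ℝ, Cm n) (U := U) isClosed_univ
    fun x _ => (hU x).mem_nhds ⟨mem_chart_source _ x, mem_ball_self (hr x)⟩
  choose δ hδ p hs hp using fun i => hP (f.c i) (f i).toContDiffBump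
    (f i).toContDiffBump.contDiff fun z => (f i).toContDiffBump.le_one
  have he : ∀ i, ∀ x ∈ U (f.c i), (f i).toContDiffBump (chartAt (Cm n) (f.c i) x) = f i x :=
    fun i x hx => ((f i).eqOn_source hx.1).symm
  refine ⟨ι, fun i => chartAt (Cm n) (f.c i), fun i => tsupport (f i), fun i => U (f.c i), δ, p,
    fun i => a.chart _, f.locallyFinite.closure, fun i => isClosed_tsupport _, fun i => hU _, hf,
    fun i x hx => hx.1, hδ, hs, fun i x hx => ?_, fun x => ?_⟩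
  · obtain ⟨h1, h2, h3, -⟩ := hp i _ hx.2
    rw [(chartAt (Cm n) (f.c i)).left_inv hx.1] at h1 h2 h3
    exact ⟨h1, h2, fun h => h3 ((he i x hx).trans (image_eq_zero_of_notMem_tsupport h))⟩
  · have hx : x ∈ tsupport (f (f.ind x (mem_univ x))) :=
      subset_tsupport _ (f.mem_support_ind x (mem_univ x))
    obtain ⟨-, -, -, h4⟩ := hp _ _ (hf _ hx).2
    rw [(chartAt (Cm n) _).left_inv (hf _ hx).1] at h4
    exact ⟨_, hx, h4 ((he _ x (hf _ hx)).trans (f.apply_ind x (mem_univ x)))⟩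

/-- the regularised maximum of the pieces -/
theorem glue (hK : IsKahler (Cm n) M) (a : B1a n M) (hc : Continuous c) (hL : Continuous L)
    (hε : Continuous ε) (L0 : ∀ x, 0 ≤ L x) (ε0 : ∀ x, 0 < ε x) (hu : WeakLevi (Cm n) u c univ)
    (hl : ∀ x, ∀ᶠ p : M × M in 𝓝 (x, x), |u p.1 - u p.2| ≤ L x * dist p.1 p.2) :
    ∃ t : M → ℝ, (∀ x, |t x - u x| ≤ ε x) ∧
      ∀ e : Chart n M, Hc e → ∀ z ∈ e.target, ContDiffAt ℝ ∞ (fun y => t (e.symm y)) z ∧ ∀ v,
        4 * ((c (e.symm z) - ε (e.symm z)) * chartG e z v v) ≤ levi2 (fun y => t (e.symm y)) z v ∧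
        |fderiv ℝ (fun y => t (e.symm y)) z v| ≤
          8 * (L (e.symm z) + ε (e.symm z)) * √(chartG e z v v) := by
  classical
  obtain ⟨ι, e, K, U, δ, p, he, hK1, hK2, hU, hKU, hUs, hδ, hs, h1, h2⟩ :=
    family hK a hc hL hε L0 ε0 hu hl
  let J : M → Finset ι := fun x => (hK1.point_finite x).toFinset
  have hJ : ∀ x i, i ∈ J x ↔ x ∈ K i := fun x i => Finite.mem_toFinset _
  choose t ht hG using fun x => exists_sol (s := J x) hδ (y := fun i => p i (e i x)) (a := u x)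
    (fun i hi => (h1 i x (hKU i ((hJ x i).1 hi))).2.1)
    ((h2 x).imp fun i hi => ⟨(hJ x i).2 hi.1, hi.2⟩)
  have loc : ∀ x₀, ∀ᶠ x in 𝓝 x₀, Ph (J x₀) δ (fun i => p i (e i x)) (t x) = G 1 := fun x₀ => by
    have h3 : ∀ᶠ x in 𝓝 x₀, ∀ i ∈ J x₀, x ∈ U i :=
      (eventually_all_finset _).2 fun i hi => (hU i).mem_nhds (hKU i ((hJ x₀ i).1 hi))
    filter_upwards [hK1.eventually_subset hK2 x₀, h3] with x h4 h5
    rw [← hG x]
    refine (Finset.sum_subset (fun i hi => (hJ x₀ i).2 (h4 ((hJ x i).1 hi)))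
      fun i hi hi' => G_zero (div_nonpos_of_nonpos_of_nonneg ?_ (hδ i).le)).symm
    linarith [(h1 i x (h5 i hi)).2.2 fun h => hi' ((hJ x i).2 h), (ht x).1]
  refine ⟨t, fun x => abs_le.2 ⟨by linarith [(ht x).1, ε0 x], by linarith [(ht x).2]⟩,
    fun e' he' z hz => ?_⟩
  set x₀ := e'.symm z with hx₀
  have hU0 : ∀ i ∈ J x₀, x₀ ∈ U i := fun i hi => hKU i ((hJ x₀ i).1 hi)
  have hτ : ∀ i ∈ J x₀, AnalyticAt ℂ (fun y => e i (e'.symm y)) z := fun i hi =>
    a.hol e' (e i) he' (he i) z hz (hUs i (hU0 i hi))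
  have hτ' : ∀ i ∈ J x₀, DifferentiableAt ℝ (fun y => e i (e'.symm y)) z := fun i hi =>
    (hτ i hi).differentiableAt.restrictScalars ℝ
  have hev := (e'.continuousAt_symm hz).eventually (loc x₀)
  have hsm : ContDiffAt ℝ ∞ (fun y => t (e'.symm y)) z :=
    smooth_sol (v := fun i y => p i (e i (e'.symm y))) hδ (fun i hi => (hs i).contDiffAt.comp z
      ((hτ i hi).contDiffAt.restrict_scalars ℝ)) G_one hev
  refine ⟨hsm, fun v => ?_⟩
  obtain ⟨l, l0, l1, l2⟩ := tangent (s := J x₀) hδ (y := fun i => p i (e i x₀)) (t := t x₀)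
    (G_one.trans_eq (hG x₀).symm)
  have hto := hev.mono fun y hy => l2 _ _ (hy.trans (hG x₀).symm)
  have h3 : ∀ i ∈ J x₀, _ := fun i hi => by
    have h := chartG_change he' (he i) (e'.map_target hz) (hUs i (hU0 i hi)) v v
    rw [e'.right_inv hz] at h
    exact h
  constructor
  · refine le_trans ?_ (touch (J x₀) (l := l) (p := p) (τ := fun i y => e i (e'.symm y)) hτ
      (fun i _ => (hs i).contDiffAt.of_le (by norm_cast)) (hsm.of_le (by norm_cast)) hto v)
    rw [← one_mul (4 * _), ← l1, Finset.sum_mul]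
    refine Finset.sum_le_sum fun i hi => mul_le_mul_of_nonneg_left ?_ (l0 i)
    rw [← h3 i hi]
    exact ((h1 i x₀ (hU0 i hi)).1 _).1
  · rw [touch1 (J x₀) (l := l) (g := fun i y => p i (e i (e'.symm y)))
      (fun i hi => ((hs i).differentiable (by simp) _).comp z (hτ' i hi))
      (hsm.differentiableAt (by simp)) hto v, ← one_mul (8 * _ * _), ← l1, Finset.sum_mul]
    refine (Finset.abs_sum_le_sum_abs _ _).trans (Finset.sum_le_sum fun i hi => ?_)
    rw [abs_mul, abs_of_nonneg (l0 i), ← h3 i hi, fderiv_fun_comp z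
      ((hs i).differentiable (by simp) _) (hτ' i hi)]
    exact mul_le_mul_of_nonneg_left ((h1 i x₀ (hU0 i hi)).1 _).2 (l0 i)

theorem herm_smul (b : B1b n M) (he : Hc e) {z : Cm n} (hz : z ∈ e.target) (k : ℝ) :
    ((k : ℂ) • hm e z).IsHermitian := (b.wpos e he z hz).1.smul (by simp [IsSelfAdjoint])

end Rbl

open Rbl in
/-- **RBL** -/
theorem rbl (hK : IsKahler (Cm n) M) (a : B1a n M) (b : B1b n M) : RBL n M := by
  intro u c L ε hc hL hε L0 ε0 hu hl
  obtain ⟨t, h1, h2⟩ := glue hK a hc hL hε L0 ε0 hu hl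
  refine ⟨t, fun e he z hz => (h2 e he z hz).1, h1, fun e he z hz => ?_⟩
  obtain ⟨h3, h4⟩ := h2 e he z hz
  have h5 : ContDiffAt ℝ 2 (fun y => t (e.symm y)) z := h3.of_le (by norm_cast)
  refine ⟨(b.psd _ ((b.herm _ z h5).sub (herm_smul b he hz _))).2 fun v => ?_,
    (b.psd _ ((herm_smul b he hz _).sub
      (Matrix.IsHermitian.ext fun j k => by simp [gg, mul_comm]))).2 fun v => ?_⟩
  · have h6 := (h4 v).1
    rw [b.levi _ z v h5, chartG_apply, b.quad e he z hz v] at h6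
    have h7 : ∀ κ : ℂ, ∑ j, ∑ k, (cHess (fun y => t (e.symm y)) z - κ • hm e z) j k *
        (v j * conj (v k)) = ∑ j, ∑ k, cHess (fun y => t (e.symm y)) z j k * (v j * conj (v k)) -
        κ * ∑ j, ∑ k, hm e z j k * (v j * conj (v k)) := fun κ => by
      simp only [Matrix.sub_apply, Matrix.smul_apply, smul_eq_mul, sub_mul, Finset.sum_sub_distrib,
        Finset.mul_sum, mul_assoc]
    rw [h7, Complex.sub_re, Complex.re_ofReal_mul]
    linarith
  · have hk := localKahler_chartG hK he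
    have g0 := P253.R2.H618.G_nonneg hk hz v
    have s4 : ∀ w, chartG e z w w = chartG e z v v → fderiv ℝ (fun y => t (e.symm y)) z w ^ 2 ≤
        64 * (L (e.symm z) + ε (e.symm z)) ^ 2 * chartG e z v v := fun w hw => by
      have := pow_le_pow_left₀ (abs_nonneg _) (h4 w).2 2
      rw [sq_abs, mul_pow, hw, Real.sq_sqrt g0] at this
      linarith
    have g4 := s4 v rfl
    have g5 := s4 (Complex.I • v) (hk.herm z hz v v)
    rw [chartG_apply, b.quad e he z hz] at g0 g4 g5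
    have h6 := Exh.sum_dz (h3.differentiableAt (by simp)) v
    have h7 : ∀ (K : ℝ) (w : Cm n), ∑ j, ∑ k, ((K : ℂ) • hm e z -
        Matrix.of fun j k => w j * conj (w k)) j k * (v j * conj (v k)) =
        K * ∑ j, ∑ k, hm e z j k * (v j * conj (v k)) -
          (∑ j, w j * v j) * conj (∑ j, w j * v j) := fun K w => by
      rw [map_sum, Finset.sum_mul_sum]
      simp only [Finset.mul_sum, ← Finset.sum_sub_distrib]
      exact Finset.sum_congr rfl fun j _ => Finset.sum_congr rfl fun k _ => by simp; ring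
    rw [gg, h7 _ fun j => dz j (fun y => (t (e.symm y) : ℂ)) z, h6, Complex.mul_conj,
      Complex.sub_re, Complex.re_ofReal_mul, Complex.ofReal_re, Complex.normSq_apply]
    generalize (∑ j, ∑ k, hm e z j k * (v j * conj (v k))).re = Q at *
    have g6 := mul_nonneg (sq_nonneg (L (e.symm z) + ε (e.symm z))) g0
    simp
    nlinarith

/-- **RHO** -/
theorem rho (c : Ctx n μ) : RHO n M := by
  intro o
  have := properSpace_riemannian (Cm n) M
  have : Nonempty (Fin n) := ⟨⟨0, c.npos⟩⟩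
  have hK := c.kahler
  have b := b1b hK b1a
  have hd : Continuous fun x : M => dist x o := by fun_prop
  obtain ⟨u, u1, u2, u3⟩ := rbl hK b1a b (fun x => -dist x o ^ 2) (fun _ => -1)
    (fun x => 2 * (dist x o + 1)) (fun _ => 1) continuous_const (by fun_prop) continuous_const
    (fun x => by positivity) (fun _ => one_pos)
    (Sup.weakLevi_of_discW hK (by fun_prop) fun x _ e he hx Y f U z₀ _ _ _ _ h =>
      ⟨fun _ => 1, fun _ => norm_one, fun η hη => (leviSq_all hK (fun y => Sch.nonneg (c.pos y)) o x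
        e he hx Y _ (fun _ => norm_one) _ (h _ fun _ => norm_one) η hη).mono fun r hr => by
          rw [Finset.sum_neg_distrib]; linarith⟩)
    fun x => by
      filter_upwards [prod_mem_nhds (ball_mem_nhds x one_pos) (ball_mem_nhds x one_pos)] with p hp
      have h1 := dist_triangle p.1 x o
      have h2 := dist_triangle p.2 x o
      rw [show -dist p.1 o ^ 2 - -dist p.2 o ^ 2 =
        (dist p.1 o + dist p.2 o) * -(dist p.1 o - dist p.2 o) by ring, abs_mul, abs_neg,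
        abs_of_nonneg (by positivity)]
      exact mul_le_mul (by linarith [mem_ball.1 hp.1, mem_ball.1 hp.2]) (abs_dist_sub_le _ _ _)
        (abs_nonneg _) (by positivity)
  refine ⟨1800, fun x => -u x, by norm_num, fun e he z hz => (u1 e he z hz).neg, fun x => ?_,
    fun e he z hz => ?_, fun e he z hz => ?_⟩
  · rw [← abs_neg]
    refine le_of_eq_of_le (congrArg _ (by ring)) (u2 x)
  · rw [P272.K.C2.cHess_neg ((u1 e he z hz).of_le (by norm_cast))]
    convert (u3 e he z hz).1 using 1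
    norm_num [add_comm]
  · have h1 : gg (fun y => -u (e.symm y)) z = gg (fun y => u (e.symm y)) z := by
      simp [gg, P272.K.C2.dz_neg]
    have h2 := (b.wpos e he z hz).posSemidef.smul (a := ((1800 * (1 + dist (e.symm z) o) ^ 2 -
      200 * (2 * (dist (e.symm z) o + 1) + 1) ^ 2 : ℝ) : ℂ))
      (Complex.zero_le_real.2 (by nlinarith [dist_nonneg (x := e.symm z) (y := o)]))
    rw [h1]
    convert h2.add (u3 e he z hz).2 using 1
    rw [Complex.ofReal_sub, sub_smul, sub_add_sub_cancel]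

end Vale.Agent.P253W.FG
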