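import Vale.Agent.P253W.FG.Lam
import Vale.Agent.P253Z.Main

/-!
# P253W, block FG: holomorphic `n`-forms of exponential growth (`ETA`)
-/

open scoped Manifold ContDiff Bundle ENNReal Topology ComplexConjugate ComplexOrder Matrix
open Bundle IsManifold MeasureTheory Set Metric Filter Vale.Agent.P253.Mfd Vale.Agent.P253Z
open Vale.Agent.P272.K (Cm dz dzb cHess jacM Chart)
open Vale.Agent.P253.R2.H618 (dist_le_near)

set_option linter.unusedSectionVars false

noncomputable section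

namespace Vale.Agent.P253W.FG

namespace Eta

section alg

variable {n : ℕ} {M : Type} [MetricSpace M] [ChartedSpace (Cm n) M]

/-- the Jacobian matrix of `b` in the chart `e` -/
def jm (b : Fin n → M → ℂ) (e : Chart n M) (z : Cm n) : Mt n :=
  LinearMap.toMatrix' (fderiv ℂ (fun w i => b i (e.symm w)) z : Cm n →ₗ[ℂ] Cm n)

/-- the form `db_1 ∧ … ∧ db_n` -/
def jac (b : Fin n → M → ℂ) (y : M) : ℂ :=
  (jm b (chartAt (Cm n) y) (chartAt (Cm n) y y)).det

theorem an_zero {f : M → ℂ} (hf : IsSec n 0 f) {e : Chart n M} (he : Hc e) {z : Cm n}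
    (hz : z ∈ e.target) : AnalyticAt ℂ (fun w => f (e.symm w)) z := by
  have h := hf e he z hz
  rwa [show co 0 f e = fun w => f (e.symm w) from funext fun w => by simp [co]] at h

variable {b : Fin n → M → ℂ}

theorem an_vec (hb : ∀ i, IsSec n 0 (b i)) {e : Chart n M} (he : Hc e) {z : Cm n}
    (hz : z ∈ e.target) : AnalyticAt ℂ (fun w i => b i (e.symm w)) z :=
  analyticAt_pi_iff.2 fun i => an_zero (hb i) he hz

theorem jm_mulVec (e : Chart n M) (z v : Cm n) :
    jm b e z *ᵥ v = fderiv ℂ (fun w i => b i (e.symm w)) z v :=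
  LinearMap.toMatrix'_mulVec _ v

theorem jm_ch (a : B1a n M) (hb : ∀ i, IsSec n 0 (b i)) {e e' : Chart n M} (he : Hc e)
    (he' : Hc e') {x : M} (hx : x ∈ e.source) (hx' : x ∈ e'.source) :
    jm b e (e x) = jm b e' (e' x) * jacM e e' x := by
  have hz := e.map_source hx
  have h1 : e.symm (e x) ∈ e'.source := by rwa [e.left_inv hx]
  have h2 := (a.hol e e' he he' _ hz h1).differentiableAt.hasFDerivAt
  have h3 : HasFDerivAt (fun w i => b i (e'.symm w))
      (fderiv ℂ (fun w i => b i (e'.symm w)) (e' x)) (e' (e.symm (e x))) := by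
    rw [e.left_inv hx]
    exact (an_vec hb he' (e'.map_source hx')).differentiableAt.hasFDerivAt
  have h4 := (HasFDerivAt.comp (e x) h3 h2).congr_of_eventuallyEq
    (f₁ := fun w i => b i (e.symm w)) (by
      filter_upwards [(e.continuousAt_symm hz).eventually (e'.open_source.mem_nhds h1)] with w hw
      simp only [Function.comp_apply, e'.left_inv hw])
  rw [jm, h4.fderiv, a.jac_eq e e' he he' x hx hx', jm, ← LinearMap.toMatrix'_comp]
  rfl

theorem co_jac (a : B1a n M) (hb : ∀ i, IsSec n 0 (b i)) {e : Chart n M} (he : Hc e) {z : Cm n}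
    (hz : z ∈ e.target) : co 1 (jac b) e z = (jm b e z).det := by
  have h := jm_ch a hb he (a.chart (e.symm z)) (e.map_target hz) (mem_chart_source _ _)
  rw [e.right_inv hz] at h
  rw [h, Matrix.det_mul, co, zpow_one, jac, mul_comm]

theorem sec_jac (a : B1a n M) (hb : ∀ i, IsSec n 0 (b i)) : IsSec n 1 (jac b) := by
  intro e he z hz
  have h1 := (an_vec hb he hz).fderiv
  have h2 : ∀ i j, AnalyticAt ℂ (fun w => jm b e w i j) z := fun i j =>
    analyticAt_pi_iff.1 (((ContinuousLinearMap.apply ℂ (Cm n)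
      (Pi.single j 1 : Cm n)).analyticAt _).comp h1) i
  have h3 : AnalyticAt ℂ (fun w => (jm b e w).det) z := by
    simp only [Matrix.det_apply']
    exact Finset.analyticAt_fun_sum _ fun σ _ =>
      analyticAt_const.mul (Finset.analyticAt_fun_prod _ fun i _ => h2 _ _)
  refine h3.congr ?_
  filter_upwards [e.open_target.mem_nhds hz] with w hw using (co_jac a hb he hw).symm

theorem jac_ne (a : B1a n M) (hb : ∀ i, IsSec n 0 (b i)) {e : Chart n M} (he : Hc e) {x : M}
    (hx : x ∈ e.source)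
    (h : ∀ v, fderiv ℂ (fun w i => b i (e.symm w)) (e x) v = 0 → v = 0) : jac b x ≠ 0 := by
  intro h0
  have h1 := co_jac a hb he (e.map_source hx)
  rw [co, e.left_inv hx, h0, mul_zero] at h1
  obtain ⟨v, hv, h2⟩ := Matrix.exists_mulVec_eq_zero_iff.2 h1.symm
  exact hv (h v (by rwa [jm_mulVec] at h2))

theorem sec_pow (a : B1a n M) {s : M → ℂ} (hs : IsSec n 1 s) (m : ℕ) : IsSec n m (s ^ m) := by
  induction m with
  | zero =>
    intro e _ z _
    rw [show co ((0 : ℕ) : ℤ) (s ^ 0) e = fun _ => 1 from funext fun w => by simp [co]]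
    exact analyticAt_const
  | succ m ih =>
    rw [pow_succ, Nat.cast_succ]
    exact a.sec_mul _ _ _ _ ih hs

theorem quad_pb (J : Mt n) (v : Cm n) :
    (∑ j, ∑ k, pb J 1 j k * (v j * conj (v k))).re = ∑ i, ‖(J *ᵥ v) i‖ ^ 2 := by
  have h : ∑ j, ∑ k, pb J 1 j k * (v j * conj (v k)) = ∑ i, (J *ᵥ v) i * conj ((J *ᵥ v) i) := by
    simp only [pb, Matrix.mul_one, Matrix.mul_apply, Matrix.transpose_apply, Matrix.map_apply,
      Matrix.mulVec, dotProduct, map_sum, map_mul, Finset.sum_mul, Finset.mul_sum]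
    rw [Finset.sum_comm]
    refine Eq.trans (Finset.sum_congr rfl fun k _ => Finset.sum_comm) ?_
    rw [Finset.sum_comm]
    exact Finset.sum_congr rfl fun i _ => Finset.sum_congr rfl fun k _ =>
      Finset.sum_congr rfl fun j _ => by ring
  rw [h, Complex.re_sum]
  refine Finset.sum_congr rfl fun i _ => ?_
  rw [Complex.mul_conj', ← Complex.ofReal_pow, Complex.ofReal_re]

theorem det_pb (J : Mt n) : (pb J 1).det.re = ‖J.det‖ ^ 2 := by
  rw [pb, Matrix.mul_one, Matrix.det_mul, Matrix.det_transpose, ← RingHom.mapMatrix_apply,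
    ← RingHom.map_det, Complex.mul_conj', ← Complex.ofReal_pow, Complex.ofReal_re]

end alg

variable {n : ℕ} {M : Type} [MetricSpace M] [ChartedSpace (Cm n) M]
  [IsManifold 𝓘(ℂ, Cm n) 1 M] [IsManifold 𝓘(ℝ, Cm n) ∞ M]
  [RiemannianBundle (fun x : M => TangentSpace 𝓘(ℝ, Cm n) x)]
  [IsContMDiffRiemannianBundle 𝓘(ℝ, Cm n) ∞ (Cm n) (fun x : M => TangentSpace 𝓘(ℝ, Cm n) x)]
  [IsRiemannianManifold 𝓘(ℝ, Cm n) M] {b : Fin n → M → ℂ}

/-- the differential of a function which is Lipschitz at a point -/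
theorem der_le (hK : IsKahler (Cm n) M) (hb : ∀ i, IsSec n 0 (b i)) {e : Chart n M} (he : Hc e)
    {y : M} (hy : y ∈ e.source) {L : ℝ} (hL : 0 ≤ L) (i : Fin n)
    (h : ∀ᶠ y' in 𝓝 y, ‖b i y' - b i y‖ ≤ L * dist y' y) (v : Cm n) :
    ‖(jm b e (e y) *ᵥ v) i‖ ^ 2 ≤ 4 * L ^ 2 * chartMetric e (e y) v v := by
  have hz := e.map_source hy
  obtain ⟨δ, hδ, -, hd⟩ := dist_le_near hK he hy one_pos
  have h0 : 0 ≤ chartMetric e (e y) v v := real_inner_self_nonneg
  have h2 : HasDerivAt (fun t : ℝ => e y + t • v) v 0 := by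
    simpa using ((hasDerivAt_id (0 : ℝ)).smul_const v).const_add (e y)
  have h3 : Tendsto (fun t : ℝ => e y + t • v) (𝓝 0) (𝓝 (e y)) := by
    simpa using h2.continuousAt.tendsto
  have h4 := hasDerivAt_pi.1 (((an_vec hb he hz).differentiableAt.hasFDerivAt.restrictScalars
    ℝ).comp_hasDerivAt_of_eq 0 h2 (by simp)) i
  have h5 : Tendsto e.symm (𝓝 (e y)) (𝓝 y) := e.tendsto_symm hy
  have h6 := h4.le_of_lip' (C := L * (2 * √(chartMetric e (e y) v v))) (by positivity) (by
    filter_upwards [(h5.comp h3).eventually h, h3.eventually (ball_mem_nhds _ hδ)] with t h7 h8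
    have h9 := hd _ (mem_ball_self hδ) _ h8
    simp only [add_sub_cancel_left, map_smul, smul_apply, smul_eq_mul, ← mul_assoc t,
      e.left_inv hy, chartG_apply] at h9
    rw [Real.sqrt_mul (mul_self_nonneg t), Real.sqrt_mul_self_eq_abs, dist_comm] at h9
    simp only [Function.comp_apply, zero_smul, add_zero, e.left_inv hy, sub_zero,
      Real.norm_eq_abs] at h7 ⊢
    refine h7.trans ((mul_le_mul_of_nonneg_left h9 hL).trans_eq (by ring)))
  rw [jm_mulVec]
  refine (pow_le_pow_left₀ (norm_nonneg _) h6 2).trans_eq ?_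
  rw [mul_pow, mul_pow, Real.sq_sqrt h0]
  ring

/-- the norm of the Jacobian form -/
theorem nrm_le (hK : IsKahler (Cm n) M) (a : B1a n M) (b' : B1b n M) (hb : ∀ i, IsSec n 0 (b i))
    {y : M} {L c : ℝ} (hL : 0 ≤ L) (hc : n * (4 * L ^ 2) ≤ Real.exp c)
    (h : ∀ i, ∀ᶠ y' in 𝓝 y, ‖b i y' - b i y‖ ≤ L * dist y' y) :
    nrm n 1 (jac b) y ≤ Real.exp (n * c) := by
  have he := a.chart y
  have hy := mem_chart_source (Cm n) y
  rw [nrm, jac]
  generalize chartAt (Cm n) y = e at he hy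
  have hz := e.map_source hy
  by_cases h0 : (jm b e (e y)).det = 0
  · rw [h0, norm_zero, zero_pow two_ne_zero, zero_mul]
    exact (Real.exp_pos _).le
  have h1 : (pb (jm b e (e y)) 1).PosDef := by
    rw [Lam.pb_eq]
    exact Matrix.PosDef.one.conjTranspose_mul_mul_same
      (Matrix.mulVec_injective_iff_isUnit.2 (Lam.unit_bar h0))
  have h2 := b'.wpos e he _ hz
  have h3 : (((Real.exp c : ℝ) : ℂ) • hm e (e y) - pb (jm b e (e y)) 1).PosSemidef := by
    refine (b'.psd _ ((h2.1.smul (Complex.conj_ofReal _)).sub h1.1)).2 fun v => ?_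
    have h4 : ∑ i, ‖(jm b e (e y) *ᵥ v) i‖ ^ 2 ≤
        ∑ _i : Fin n, 4 * L ^ 2 * chartMetric e (e y) v v :=
      Finset.sum_le_sum fun i _ => der_le hK hb he hy hL i (h i) v
    have h5 : 0 ≤ chartMetric e (e y) v v := real_inner_self_nonneg
    have h6 := mul_le_mul_of_nonneg_right hc h5
    rw [← quad_pb, Finset.sum_const, Finset.card_univ, Fintype.card_fin, nsmul_eq_mul] at h4
    simp only [Matrix.sub_apply, Matrix.smul_apply, smul_eq_mul, sub_mul, Finset.sum_sub_distrib,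
      mul_assoc, ← Finset.mul_sum, Complex.sub_re, Complex.re_ofReal_mul]
    rw [← b'.quad e he _ hz v]
    linarith
  have h7 := (eig n).up _ _ c h1 h2 h3
  rw [det_pb] at h7
  rw [zpow_neg_one, ← div_eq_mul_inv]
  exact (Real.log_le_iff_le_exp (div_pos (by positivity) (b'.vd_pos e he _ hz))).1 h7

/-- the Jacobian form of functions of exponential growth -/
theorem nrm_exp (hK : IsKahler (Cm n) M) (a : B1a n M) (b' : B1b n M) (hs : SCH n M)
    (hb : ∀ i, IsSec n 0 (b i)) {o : M} {K : ℝ} (hK0 : 0 ≤ K)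
    (h : ∀ i y, ‖b i y‖ ≤ Real.exp (K * (1 + dist y o))) :
    ∃ C₀ : ℝ, ∀ y, nrm n 1 (jac b) y ≤ Real.exp (C₀ * (1 + dist y o)) := by
  obtain ⟨C, hC, hs⟩ := hs
  refine ⟨n * (n * (4 * C ^ 2) + 4 * K), fun y => ?_⟩
  have hd := dist_nonneg (x := y) (y := o)
  refine (nrm_le hK a b' hb (L := C * Real.exp (K * (2 + dist y o)))
    (c := n * (4 * C ^ 2) + 2 * (K * (2 + dist y o))) (by positivity) ?_ fun i => ?_).trans
    (Real.exp_le_exp.2 ?_)
  · rw [Real.exp_add, mul_pow, ← Real.exp_nat_mul, ← mul_assoc, ← mul_assoc, mul_assoc (n : ℝ)]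
    exact mul_le_mul_of_nonneg_right (by linarith [Real.add_one_le_exp (n * (4 * C ^ 2))])
      (Real.exp_pos _).le
  · filter_upwards [ball_mem_nhds y (half_pos one_pos)] with y' hy'
    have h1 := hs (b i) (hb i) y 1 (Real.exp (K * (2 + dist y o))) one_pos (fun w hw =>
      (h i w).trans (Real.exp_le_exp.2 (mul_le_mul_of_nonneg_left
        (by linarith [dist_triangle w y o, mem_ball.1 hw]) hK0))) y' hy'
    rwa [div_one] at h1
  · rw [mul_assoc]
    refine mul_le_mul_of_nonneg_left ?_ (Nat.cast_nonneg n)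
    have h1 : 0 ≤ n * (4 * C ^ 2) * dist y o := by positivity
    nlinarith [mul_nonneg hK0 hd]

end Eta

variable {n : ℕ} {M : Type} [MetricSpace M] [ChartedSpace (Cm n) M]
  [IsManifold 𝓘(ℂ, Cm n) 1 M] [IsManifold 𝓘(ℝ, Cm n) ∞ M]
  [RiemannianBundle (fun x : M => TangentSpace 𝓘(ℝ, Cm n) x)]
  [IsContMDiffRiemannianBundle 𝓘(ℝ, Cm n) ∞ (Cm n) (fun x : M => TangentSpace 𝓘(ℝ, Cm n) x)]
  [IsRiemannianManifold 𝓘(ℝ, Cm n) M] [CompleteSpace M] [ConnectedSpace M] [NoncompactSpace M]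
  [MeasurableSpace M] [BorelSpace M] {μ : Measure M}

open Eta in
/-- holomorphic functions of exponential growth which are coordinates at `x` -/
theorem coords (c : Ctx n μ) (o x : M) : ∃ (b : Fin n → M → ℂ) (K : ℝ), 0 ≤ K ∧
    (∀ i, IsSec n 0 (b i)) ∧ jac b x ≠ 0 ∧ ∀ i y, ‖b i y‖ ≤ Real.exp (K * (1 + dist y o)) := by
  have h := all c
  obtain ⟨F⟩ := h.fr x
  obtain ⟨e, he, hx, m, hm, s₀, s, h0, h1, h2, h3⟩ := h.pk3 x
  have hΩ : F.Ω 0 x ≠ 0 := fun h4 => by
    have h5 := F.low 0 0 (mem_closedBall_self F.δ_pos.le)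
    rw [← F.ep, co, F.e.left_inv F.src, h4, mul_zero, norm_zero] at h5
    linarith
  have ht : ∀ i, InH n μ m (s i - (s i x / s₀ x) • s₀) := fun i => (h.v.mem m _).1
    (sub_mem ((h.v.mem m _).2 (h1 i)) (Submodule.smul_mem _ _ ((h.v.mem m _).2 h0)))
  have hsec : ∀ t, InH n μ m t → IsSec n 0 (t * F.Ω 0 ^ m) := fun t ht => by
    have h4 := h.a.sec_mul _ _ _ _ ht.1 (sec_pow h.a (F.sec 0) m)
    rwa [neg_add_cancel] at h4
  choose C hC using fun i => F.l2 m hm _ (ht i)
  have hb : ∀ i, IsSec n 0 ((s i - (s i x / s₀ x) • s₀) * F.Ω 0 ^ m) := fun i => hsec _ (ht i)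
  have hC2 : 0 ≤ F.C₂ * m := mul_nonneg F.C₂_pos.le (Nat.cast_nonneg m)
  refine ⟨fun i => (s i - (s i x / s₀ x) • s₀) * F.Ω 0 ^ m,
    ∑ i, |C i| + F.C₂ * m * (|F.A 0| + |F.R 0| + dist o x + 1), by positivity, hb,
    jac_ne h.a hb he hx fun v hv => ?_, fun i y => (hC i 0 y).trans (Real.exp_le_exp.2 ?_)⟩
  · have hz := e.map_source hx
    have g1 := (an_zero (hsec _ h0) he hz).differentiableAt
    have g2 : (s₀ * F.Ω 0 ^ m) (e.symm (e x)) ≠ 0 := by
      rw [e.left_inv hx]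
      exact mul_ne_zero h2 (pow_ne_zero m hΩ)
    have g3 := ((g1.inv g2).hasFDerivAt.fun_smul
      (an_vec hb he hz).differentiableAt.hasFDerivAt).add_const fun i => s i x / s₀ x
    have g4 := (g3.congr_of_eventuallyEq (f₁ := fun z i => s i (e.symm z) / s₀ (e.symm z)) (by
      filter_upwards [g1.continuousAt.eventually_ne g2] with w hw
      obtain ⟨g5, g6⟩ := mul_ne_zero_iff.1 hw
      funext i
      simp only [Pi.add_apply, Pi.smul_apply, Pi.mul_apply, Pi.sub_apply, Pi.inv_apply,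
        smul_eq_mul] at g6 ⊢
      field_simp
      ring)).fderiv
    refine h3.1 ?_
    rw [g4, map_zero, add_apply, smul_apply, hv,
      smul_zero, zero_add, ContinuousLinearMap.smulRight_apply]
    funext i
    simp [e.left_inv hx, h2]
  · have d0 := dist_nonneg (x := y) (y := o)
    have d1 := dist_nonneg (x := o) (y := x)
    have h4 : tl x (F.R 0) y ≤ dist y o + dist o x + |F.R 0| :=
      max_le (by linarith [dist_triangle y o x, neg_abs_le (F.R 0)]) (by positivity)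
    have h5 : C i ≤ ∑ i, |C i| := (le_abs_self _).trans
      (Finset.single_le_sum (f := fun i => |C i|) (fun _ _ => abs_nonneg _) (Finset.mem_univ i))
    have h6 : F.A 0 + tl x (F.R 0) y ≤ (|F.A 0| + |F.R 0| + dist o x + 1) * (1 + dist y o) := by
      have : 0 ≤ (|F.A 0| + |F.R 0| + dist o x) * dist y o := by positivity
      nlinarith [le_abs_self (F.A 0)]
    have h7 := mul_le_mul_of_nonneg_left h6 hC2
    have h8 : 0 ≤ (∑ i, |C i|) * dist y o := by positivity
    nlinarith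

open Eta in
/-- **ETA** -/
theorem eta (c : Ctx n μ) : ETA n M := by
  intro o x
  obtain ⟨b, K, hK, hb, h1, h2⟩ := coords c o x
  have h := all c
  obtain ⟨C₀, h3⟩ := nrm_exp c.kahler h.a h.b (sch c h.a) hb hK h2
  exact ⟨jac b, C₀, sec_jac h.a hb, h1, h3⟩

end Vale.Agent.P253W.FG
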