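import Vale.Agent.P253W.FG.Defs

/-!
# P253W, row FG.MP: the minimum principle with a barrier, and a Gronwall estimate
-/

open Set

namespace Vale.Agent.P253W.FG

theorem mp : MP := by
  rintro X _ D T m l f hT hl hl0 hc hf ⟨C, hC⟩ h0 H
  have key : ∀ t₁ ∈ Ico 0 T, ∀ x₁ ∈ D, m ≤ f t₁ x₁ := by
    intro t₁ ht₁ x₁ hx₁
    refine le_of_forall_pos_le_add fun ε hε => ?_
    have hTt : 0 < T - t₁ := sub_pos.2 ht₁.2
    have hl₁ := hl0 x₁ hx₁
    set κ := ε / 2 * (T - t₁) with hκ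
    have hκ0 : 0 < κ := by positivity
    obtain ⟨δ₀, hδ₀, H⟩ := H κ hκ0
    set δ := min δ₀ (ε / 2 / (l x₁ + 1)) with hδ
    have hδ0 : 0 < δ := lt_min hδ₀ (by positivity)
    have hδ1 : δ * l x₁ ≤ ε / 2 := by
      have h1 : δ * (l x₁ + 1) ≤ ε / 2 := (le_div_iff₀ (by positivity)).1 (min_le_right _ _)
      nlinarith
    have hκ1 : κ / (T - t₁) = ε / 2 := by rw [hκ, mul_div_assoc, div_self hTt.ne', mul_one]
    let Φ : ℝ × X → ℝ := fun q => f q.1 q.2 + δ * l q.2 + κ / (T - q.1)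
    have hV : 0 < Φ (t₁, x₁) + C := by
      have h1 := hC t₁ (Ico_subset_Icc_self ht₁) x₁ hx₁
      have h2 : 0 ≤ δ * l x₁ := by positivity
      simp only [Φ]
      linarith
    set V := Φ (t₁, x₁) + C with hVd
    let S : Set (ℝ × X) := Icc 0 (T - κ / V) ×ˢ {x | x ∈ D ∧ l x ≤ V / δ}
    have hη : 0 < κ / V := by positivity
    have hout : ∀ t ∈ Ico 0 T, ∀ x ∈ D, Φ (t, x) ≤ Φ (t₁, x₁) → (t, x) ∈ S := by
      intro t ht x hx h
      have h1 := hC t (Ico_subset_Icc_self ht) x hx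
      have h2 : 0 ≤ δ * l x := mul_nonneg hδ0.le (hl0 x hx)
      have h3 : 0 < T - t := sub_pos.2 ht.2
      have h4 : 0 < κ / (T - t) := by positivity
      have h5 : f t x + δ * l x + κ / (T - t) ≤ V - C := by
        rw [hVd, add_sub_cancel_right]
        exact h
      refine ⟨⟨ht.1, ?_⟩, hx, ?_⟩
      · have h6 : κ / (T - t) ≤ V := by linarith
        rw [div_le_iff₀ h3, mul_comm, ← div_le_iff₀ hV] at h6
        linarith
      · rw [le_div_iff₀ hδ0, mul_comm]
        linarith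
    have hS : ∀ q ∈ S, q.1 ∈ Ico 0 T ∧ q.2 ∈ D := fun q hq =>
      ⟨⟨hq.1.1, by linarith [hq.1.2]⟩, hq.2.1⟩
    have hΦ : ContinuousOn Φ S := by
      refine ((hf.mono fun q hq => ⟨Ico_subset_Icc_self (hS q hq).1, (hS q hq).2⟩).add
        (continuousOn_const.mul (hl.comp continuousOn_snd fun q hq => (hS q hq).2))).add ?_
      exact continuousOn_const.div (by fun_prop) fun q hq => (sub_pos.2 (hS q hq).1.2).ne'
    have h1 := hout t₁ ht₁ x₁ hx₁ le_rfl
    obtain ⟨⟨t₀, x₀⟩, hq, hmin⟩ := (isCompact_Icc.prod (hc _)).exists_isMinOn ⟨_, h1⟩ hΦ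
    obtain ⟨ht₀, hx₀⟩ := hS _ hq
    have h2 : Φ (t₀, x₀) ≤ Φ (t₁, x₁) := hmin h1
    have h3 : m ≤ f t₀ x₀ := by
      rcases ht₀.1.eq_or_lt with h | h
      · exact (show t₀ = 0 from h.symm) ▸ h0 x₀ hx₀
      · refine H δ ⟨hδ0, min_le_left _ _⟩ t₀ ⟨h, ht₀.2⟩ x₀ hx₀ fun t ht x hx => ?_
        change Φ (t₀, x₀) ≤ Φ (t, x)
        rcases le_total (Φ (t, x)) (Φ (t₁, x₁)) with h4 | h4
        · exact hmin (hout t ht x hx h4)
        · exact h2.trans h4
    have h4 : 0 ≤ δ * l x₀ := mul_nonneg hδ0.le (hl0 x₀ hx₀)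
    have h5 : 0 ≤ κ / (T - t₀) := div_nonneg hκ0.le (sub_pos.2 ht₀.2).le
    simp only [Φ] at h2
    linarith
  intro t ht x hx
  have h1 : ContinuousOn (fun s => f s x) (Icc 0 T) :=
    hf.comp (f := fun s : ℝ => (s, x)) (by fun_prop) fun s hs => ⟨hs, hx⟩
  exact ContinuousWithinAt.closure_le (s := Ico 0 T) (f := fun _ => m) (g := fun s => f s x)
    (by rwa [closure_Ico hT.ne]) continuousWithinAt_const
    ((h1 t ht).mono Ico_subset_Icc_self) fun s hs => key s hs x hx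

theorem gron : GRON := by
  intro N a₀ T L hN
  set K := |a₀| + 1 with hK
  set e := |a₀| * (N * |T|) + |L| + N * |T| with he
  have hK0 : 0 ≤ K := by positivity
  have he0 : 0 ≤ e := by positivity
  refine ⟨max (gronwallBound 0 K e |T|) (K * gronwallBound 0 K e |T| + e), ?_⟩
  intro y y' a T' ha ha₀ hT y0 hd h1 h2
  have hb : ∀ t ∈ Icc 0 T', |y' t| ≤ K * |y t| + e := by
    intro t ht
    have h3 := h1 t ht
    have h4 := h2 t ht
    have h5 : t ≤ T := ht.2.trans hT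
    have h6 : N * t ≤ N * |T| := mul_le_mul_of_nonneg_left (h5.trans (le_abs_self T)) hN
    have h7 : 0 ≤ N * t := mul_nonneg hN ht.1
    have h8 := abs_nonneg (y t)
    have h9 := le_abs_self (y t)
    have h10 : 0 ≤ |a₀| * |y t| := by positivity
    have h11 : 0 ≤ |a₀| * (N * |T|) := by positivity
    have h12 := abs_nonneg L
    rcases le_total 0 (y' t) with h | h
    · have h13 : 0 ≤ a * (t * y' t) := mul_nonneg ha (mul_nonneg ht.1 h)
      have h14 : a * (y t + N * t) ≤ |a₀| * (|y t| + N * |T|) :=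
        (mul_le_mul_of_nonneg_left (add_le_add h9 h6) ha).trans
          (mul_le_mul_of_nonneg_right (ha₀.trans (le_abs_self _)) (by positivity))
      rw [abs_of_nonneg h, hK, he]
      nlinarith
    · have h13 : 0 ≤ (2 * T - t) * -y' t := mul_nonneg (by linarith [ht.1]) (neg_nonneg.2 h)
      have h14 := le_abs_self L
      rw [abs_of_nonpos h, hK, he]
      nlinarith
  have hg := norm_le_gronwallBound_of_norm_deriv_right_le (f := y) (f' := y') (δ := 0) (K := K)
    (ε := e) (a := 0) (b := T') (fun t ht => (hd t ht).continuousWithinAt)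
    (fun t ht => (hd t (Ico_subset_Icc_self ht)).mono_of_mem_nhdsWithin (Icc_mem_nhdsGE_of_mem ht))
    (by rw [y0, norm_zero]) fun t ht => hb t (Ico_subset_Icc_self ht)
  intro t ht
  have h3 : |y t| ≤ gronwallBound 0 K e |T| := (hg t ht).trans
    (gronwallBound_mono le_rfl he0 hK0 (by linarith [ht.2, le_abs_self T]))
  exact ⟨h3.trans (le_max_left _ _), ((hb t ht).trans
    (add_le_add_left (mul_le_mul_of_nonneg_left h3 hK0) e)).trans (le_max_right _ _)⟩

end Vale.Agent.P253W.FG
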