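import Vale.Agent.P253W.FG.Defs
import Vale.Agent.P253Z.B1a
import Vale.Agent.P253Z.B1b
import Vale.Agent.P253Z.B2

/-!
# P253W, block FG, rows SIG and BK: cutoff functions, the bisectional curvature
-/

open scoped Manifold ContDiff Bundle ENNReal Topology ComplexConjugate ComplexOrder Matrix
open Bundle IsManifold MeasureTheory Set Metric Filter Vale.Agent.P253.Mfd Vale.Agent.P253Z
open Vale.Agent.P272.K (Cm dz dzb cHess jacM Chart)
open Vale.Agent.P272.K.C2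

set_option linter.unusedSectionVars false

noncomputable section

namespace Vale.Agent.P253W.FG

namespace Sig

theorem ex_beta : ∃ (β : ℝ → ℝ) (C : ℝ), ContDiff ℝ ∞ β ∧ 0 ≤ C ∧
    (∀ s, 0 ≤ β s ∧ β s ≤ 1 ∧ deriv β s ≤ 0) ∧ (∀ s ≤ 1, β s = 1) ∧ (∀ s, 2 ≤ s → β s = 0) ∧
    (∀ s ∈ Icc (-1 : ℝ) 3, |deriv β s| ≤ C ∧ |deriv (deriv β) s| ≤ C) ∧
    ∀ s, 2 < s → deriv β s = 0 ∧ deriv (deriv β) s = 0 := by
  let β : ℝ → ℝ := fun s => Real.smoothTransition (2 - s)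
  have h0 : ContDiff ℝ ∞ β := Real.smoothTransition.contDiff.comp (contDiff_const.sub contDiff_id)
  have h1 := (contDiff_infty_iff_deriv.1 h0).2
  have h2 := (contDiff_infty_iff_deriv.1 h1).2
  have an : Antitone β := fun _ _ h => Real.smoothTransition.monotone (by linarith)
  have z : ∀ s, 2 ≤ s → β s = 0 := fun s h => Real.smoothTransition.zero_of_nonpos (by linarith)
  have z1 : ∀ {f : ℝ → ℝ}, (∀ s, 2 < s → f s = 0) → ∀ s, 2 < s → deriv f s = 0 := fun {f} h s hs => by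
    have : f =ᶠ[𝓝 s] fun _ => 0 := (lt_mem_nhds hs).mono h
    simp [this.deriv_eq]
  obtain ⟨A, hA⟩ := (isCompact_Icc (a := (-1 : ℝ)) (b := 3)).exists_bound_of_continuousOn
    h1.continuous.continuousOn
  obtain ⟨B, hB⟩ := (isCompact_Icc (a := (-1 : ℝ)) (b := 3)).exists_bound_of_continuousOn
    h2.continuous.continuousOn
  exact ⟨β, max 0 (max A B), h0, le_max_left _ _, fun s => ⟨Real.smoothTransition.nonneg _,
    Real.smoothTransition.le_one _, an.deriv_nonpos⟩,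
    fun s h => Real.smoothTransition.one_of_one_le (by linarith), z,
    fun s h => ⟨(hA s h).trans (by simp), (hB s h).trans (by simp)⟩,
    fun s h => ⟨z1 (fun s h => z s h.le) s h, z1 (z1 fun s h => z s h.le) s h⟩⟩

variable {n : ℕ}

theorem psd_smul {A : Mt n} (h : A.PosSemidef) {c : ℝ} (hc : 0 ≤ c) : ((c : ℂ) • A).PosSemidef :=
  h.smul (Complex.zero_le_real.2 hc)

theorem gg_psd (f : Cm n → ℝ) (z : Cm n) : (gg f z).PosSemidef :=
  Matrix.posSemidef_vecMulVec_self_star fun j => dz j (fun y => (f y : ℂ)) z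

theorem gg_comp {ψ : ℝ → ℝ} {p : ℝ} {u : Cm n → ℝ} {z : Cm n} (hψ : HasDerivAt ψ p (u z))
    (hu : DifferentiableAt ℝ u z) : gg (fun y => ψ (u y)) z = ((p ^ 2 : ℝ) : ℂ) • gg u z := by
  ext j k
  simp only [gg, Matrix.of_apply, dz_comp_real _ hψ hu, Matrix.smul_apply, map_mul,
    Complex.conj_ofReal, smul_eq_mul]
  push_cast
  ring

theorem cHess_comp' {ψ ψ₁ : ℝ → ℝ} {ψ₂ : ℝ} {u : Cm n → ℝ} {z : Cm n}
    (hψ : ∀ s, HasDerivAt ψ (ψ₁ s) s) (hψ₁ : HasDerivAt ψ₁ ψ₂ (u z)) (hu : ContDiffAt ℝ 2 u z) :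
    cHess (fun y => ψ (u y)) z = (ψ₁ (u z) : ℂ) • cHess u z + (ψ₂ : ℂ) • gg u z := by
  ext j k
  rw [cHess_comp (Eventually.of_forall hψ) hψ₁ hu, dzb_real k (hu.differentiableAt (by norm_num))]
  rfl

theorem psd1 {g H G : Mt n} {ε p q a : ℝ} (hg : g.PosSemidef) (hH : ((2 : ℂ) • g - H).PosSemidef)
    (hG : G.PosSemidef) (ha : ((a : ℂ) • g - G).PosSemidef) (hp : p ≤ 0)
    (h : |q| * a - 2 * p ≤ ε) : ((ε : ℂ) • g + ((p : ℂ) • H + (q : ℂ) • G)).PosSemidef := by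
  convert (((psd_smul hH (neg_nonneg.2 hp)).add (psd_smul hg (sub_nonneg.2 h))).add
    (psd_smul ha (abs_nonneg q))).add
    (psd_smul hG (c := |q| + q) (by linarith [neg_abs_le q])) using 1
  push_cast
  module

theorem psd2 {g G : Mt n} {ε q a : ℝ} (hg : g.PosSemidef) (ha : ((a : ℂ) • g - G).PosSemidef)
    (hq : 0 ≤ q) (h : q * a ≤ ε) : ((ε : ℂ) • g - (q : ℂ) • G).PosSemidef := by
  convert (psd_smul hg (sub_nonneg.2 h)).add (psd_smul ha hq) using 1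
  push_cast
  module

theorem num {C K ε m b₁ b₂ r : ℝ} (hK : 0 ≤ K) (hm : 1 ≤ m) (h1 : |b₁| ≤ C) (h2 : |b₂| ≤ C)
    (hr : r ^ 2 ≤ 3 * m + 1) (hε : 2 * C + 10 * (C * K) + 10 * (C * C * K) ≤ ε * m) :
    |m⁻¹ * (m⁻¹ * b₂)| * (K * (1 + r) ^ 2) - 2 * (m⁻¹ * b₁) ≤ ε ∧
      (m⁻¹ * b₁) ^ 2 * (K * (1 + r) ^ 2) ≤ ε := by
  have m0 : 0 < m := by linarith
  have C0 : 0 ≤ C := (abs_nonneg _).trans h1
  have a1 : K * (1 + r) ^ 2 ≤ K * (10 * m) :=
    mul_le_mul_of_nonneg_left (by nlinarith [sq_nonneg (1 - r)]) hK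
  have a2 := mul_le_mul h2 a1 (by positivity) C0
  have a3 : b₁ ^ 2 ≤ C * C := by nlinarith [sq_abs b₁, abs_nonneg b₁]
  have a4 := mul_le_mul a3 a1 (by positivity) (by positivity)
  have a5 := mul_le_mul_of_nonneg_right hε m0.le
  have a6 := mul_le_mul_of_nonneg_right (neg_le_of_abs_le h1) m0.le
  have p1 : 0 ≤ C * m := by positivity
  have p2 : 0 ≤ C * K * m := by positivity
  have p3 : 0 ≤ C * C * K * m := by positivity
  rw [abs_mul, abs_mul, abs_of_pos (inv_pos.2 m0)]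
  constructor
  · rw [show m⁻¹ * (m⁻¹ * |b₂|) * (K * (1 + r) ^ 2) - 2 * (m⁻¹ * b₁) =
      (|b₂| * (K * (1 + r) ^ 2) - 2 * (b₁ * m)) / (m * m) by field_simp, div_le_iff₀ (by positivity)]
    linarith
  · rw [show (m⁻¹ * b₁) ^ 2 * (K * (1 + r) ^ 2) = b₁ ^ 2 * (K * (1 + r) ^ 2) / (m * m) by field_simp,
      div_le_iff₀ (by positivity)]
    linarith

end Sig

variable {n : ℕ} {M : Type} [MetricSpace M] [ChartedSpace (Cm n) M]
  [IsManifold 𝓘(ℂ, Cm n) 1 M] [IsManifold 𝓘(ℝ, Cm n) ∞ M]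
  [RiemannianBundle (fun x : M => TangentSpace 𝓘(ℝ, Cm n) x)]
  [IsContMDiffRiemannianBundle 𝓘(ℝ, Cm n) ∞ (Cm n) (fun x : M => TangentSpace 𝓘(ℝ, Cm n) x)]
  [IsRiemannianManifold 𝓘(ℝ, Cm n) M] [CompleteSpace M] [ConnectedSpace M] [NoncompactSpace M]
  [MeasurableSpace M] [BorelSpace M] {μ : Measure M}

open Sig in
/-- **SIG** -/
theorem sig (_a : B1a n M) (b : B1b n M) (h : RHO n M) : SIG n M := by
  intro o ε R hε
  have := properSpace_riemannian (Cm n) M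
  obtain ⟨K, ϱ, hK, hϱ⟩ := h o
  obtain ⟨β, C, sm, C0, b0, b1, b2, b3, b4⟩ := ex_beta
  obtain ⟨m, m1, m2⟩ : ∃ m : ℝ, R ^ 2 + 1 ≤ m ∧
      (2 * C + 10 * (C * K) + 10 * (C * C * K)) / ε ≤ m := ⟨_, le_max_left _ _, le_max_right _ _⟩
  have m3 : 1 ≤ m := by nlinarith [sq_nonneg R]
  have m0 : 0 < m := by linarith
  rw [div_le_iff₀' hε] at m2
  have d1 : ∀ {f : ℝ → ℝ}, ContDiff ℝ ∞ f → ∀ s,
      HasDerivAt (fun s => f (m⁻¹ * s)) (m⁻¹ * deriv f (m⁻¹ * s)) s := fun {f} hf s => by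
    simpa [Function.comp_def, mul_comm] using (hf.differentiable (by simp) (m⁻¹ * s)).hasDerivAt.comp s
      ((hasDerivAt_id s).const_mul m⁻¹)
  have nm : ∀ x, |m⁻¹ * (m⁻¹ * deriv (deriv β) (m⁻¹ * ϱ x))| * (K * (1 + dist x o) ^ 2) -
      2 * (m⁻¹ * deriv β (m⁻¹ * ϱ x)) ≤ ε ∧
      (m⁻¹ * deriv β (m⁻¹ * ϱ x)) ^ 2 * (K * (1 + dist x o) ^ 2) ≤ ε := fun x => by
    have h1 := abs_le.1 (hϱ.near x)
    rcases le_or_gt (m⁻¹ * ϱ x) 3 with h2 | h2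
    · have h3 : -1 ≤ m⁻¹ * ϱ x := by
        rw [le_inv_mul_iff₀ m0]; nlinarith [sq_nonneg (dist x o)]
      rw [inv_mul_le_iff₀ m0] at h2
      exact num hK m3 (b3 _ ⟨h3, (inv_mul_le_iff₀ m0).2 h2⟩).1 (b3 _ ⟨h3, (inv_mul_le_iff₀ m0).2 h2⟩).2
        (by linarith) m2
    · simp [(b4 _ (by linarith : 2 < m⁻¹ * ϱ x)).1, (b4 _ (by linarith : 2 < m⁻¹ * ϱ x)).2, hε.le]
  refine ⟨fun x => β (m⁻¹ * ϱ x), ⟨fun e he z hz => sm.contDiffAt.comp z
    (contDiffAt_const.mul (hϱ.sm e he z hz)), fun x => (b0 _).1, fun x => (b0 _).2.1,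
    HasCompactSupport.intro (isCompact_closedBall o (2 * m + 1)) fun x hx => b2 _ ?_,
    fun e he z hz => ?_, fun e he z hz => ?_⟩, fun x hx => b1 _ ?_⟩
  · rw [mem_closedBall, not_le] at hx
    rw [le_inv_mul_iff₀ m0]
    nlinarith [(abs_le.1 (hϱ.near x)).1]
  · rw [cHess_comp' (u := fun y => ϱ (e.symm y)) (d1 sm)
      ((d1 (contDiff_infty_iff_deriv.1 sm).2 _).const_mul m⁻¹)
      ((hϱ.sm e he z hz).of_le B2A.two_le)]
    exact psd1 (b.wpos e he z hz).posSemidef (hϱ.hess e he z hz) (gg_psd _ _) (hϱ.grad e he z hz)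
      (mul_nonpos_of_nonneg_of_nonpos (inv_pos.2 m0).le (b0 _).2.2) (nm _).1
  · rw [gg_comp (u := fun y => ϱ (e.symm y)) (d1 sm _)
      ((hϱ.sm e he z hz).differentiableAt (by simp))]
    exact psd2 (b.wpos e he z hz).posSemidef (hϱ.grad e he z hz) (sq_nonneg _) (nm _).2
  · rw [inv_mul_le_iff₀ m0]
    nlinarith [(abs_le.1 (hϱ.near x)).2, dist_nonneg (x := x) (y := o)]

/-- **BK** -/
theorem bk (c : Ctx n μ) : BK n M := by
  intro e he z hz X a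
  have b := b1b c.kahler (b1a (n := n) (M := M))
  by_cases hX : X = 0
  · simp [hX, qf]
  by_cases ha : a = 0
  · simp [ha, qf]
  have hU : ∀ᶠ y in 𝓝 z, y ∈ e.target := e.open_target.mem_nhds hz
  exact (Rc_pos_chartG c.kahler he hz (c.pos _) X a hX ha).le.trans
    (B2A.rm_eq (localKahler_chartG c.kahler he) hz (fun j k => (b.wsm e he z hz j k).of_le B2A.two_le)
      (hU.mono fun y hy => b.wpos e he y hy) (hU.mono fun y hy => b.quad e he y hy) b.levi X a).ge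

end Vale.Agent.P253W.FG
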