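import Vale.Agent.P253W.FG.Fin
import Vale.Agent.P253W.FG.Eta
import Vale.Agent.P253W.FG.Mp
import Vale.Agent.P253W.FG.Rbl
import Vale.Agent.P253W.FG.Sig
import Vale.Agent.P253W.Asm
import Vale.Agent.P253W.FP.Main

/-!
# P253W, block F: the Kähler-Ricci flow exists for all times
-/

open scoped Manifold ContDiff Bundle
open Bundle MeasureTheory Vale.Agent.P253Z
open Vale.Agent.P272.K (Cm)

namespace Vale.Agent.P253W

variable {n : ℕ} {M : Type} [MetricSpace M] [ChartedSpace (Cm n) M]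
  [IsManifold 𝓘(ℂ, Cm n) 1 M] [IsManifold 𝓘(ℝ, Cm n) ∞ M]
  [RiemannianBundle (fun x : M => TangentSpace 𝓘(ℝ, Cm n) x)]
  [IsContMDiffRiemannianBundle 𝓘(ℝ, Cm n) ∞ (Cm n) (fun x : M => TangentSpace 𝓘(ℝ, Cm n) x)]
  [IsRiemannianManifold 𝓘(ℝ, Cm n) M] [CompleteSpace M] [ConnectedSpace M] [NoncompactSpace M]
  [MeasurableSpace M] [BorelSpace M] {μ : Measure M}

open FG in
theorem blF (c : Ctx n μ) : BlF n M := by
  have A := all c
  exact In.krf ⟨A.a, A.b, A.r, eig n, lamm c.npos, swa n (eig n), FG.bk c, mp, gron,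
    bar c.npos A.a A.b (lamm c.npos) (eig n), sig A.a A.b (FG.rho c), FG.rho c, eta c⟩
    (FP.All.lt A.a A.b) (FP.All.lim A.a A.b)

end Vale.Agent.P253W
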