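import Vale.Agent.P253W.FG.Sw

/-!
# P253W, block FG: the lower bound for the scalar curvature
-/

open scoped Manifold ContDiff Bundle ENNReal Topology ComplexConjugate ComplexOrder Matrix
open Bundle IsManifold MeasureTheory Set Metric Filter Vale.Agent.P253.Mfd Vale.Agent.P253Z
open Vale.Agent.P272.K (Cm dz dzb cHess jacM Chart)
open Vale.Agent.P272.K.C2

set_option linter.unusedSectionVars false

noncomputable section

namespace Vale.Agent.P253W.FG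

theorem zp_d (δ : ℝ) (k : ℤ) {s : ℝ} (h : 1 - δ * s ≠ 0) :
    HasDerivAt (fun s => (1 - δ * s) ^ k) (-(k * δ) * (1 - δ * s) ^ (k - 1)) s := by
  refine HasDerivAt.congr_deriv ((hasDerivAt_zpow k _ (Or.inl h)).comp (h := fun s => 1 - δ * s) s
    (((hasDerivAt_id s).const_mul δ).const_sub 1)) ?_
  ring

theorem an_fin {N ρ w w' δ Δ L G Y : ℝ} (hN : 0 ≤ N) (hρ : 0 < ρ) (hρ' : ρ ≤ 1) (hw : 0 < w)
    (hw' : 0 ≤ w') (hδ : δ ∈ Ioc (0 : ℝ) 1) (hL : L ≤ Y) (hG : G ≤ Y) (hY : 0 ≤ Y)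
    (h : N * w' + w ^ 2 ≤ N * Δ)
    (h' : Δ ≤ ρ ^ 2 * w * (2 * δ * ρ ^ (-3 : ℤ) * L + 2 * δ * (3 * δ * ρ ^ (-4 : ℤ)) * G)) :
    ρ ^ 2 * w ≤ 8 * N * δ * Y := by
  have h0 := hδ.1
  have h1 : ρ ^ 2 * w * (2 * δ * ρ ^ (-3 : ℤ) * L + 2 * δ * (3 * δ * ρ ^ (-4 : ℤ)) * G) =
      w * (2 * δ * (ρ * L) + 6 * δ * (δ * G)) / ρ ^ 2 := by
    field_simp
    ring
  have h2 : ρ * L ≤ Y := (mul_le_mul_of_nonneg_left hL hρ.le).trans (mul_le_of_le_one_left hY hρ')
  have h3 : δ * G ≤ Y := (mul_le_mul_of_nonneg_left hG h0.le).trans (mul_le_of_le_one_left hY hδ.2)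
  rw [h1, le_div_iff₀ (by positivity)] at h'
  have h4 : Δ * ρ ^ 2 ≤ w * (8 * δ * Y) :=
    h'.trans (mul_le_mul_of_nonneg_left (by nlinarith) hw.le)
  have h5 : w ^ 2 * ρ ^ 2 ≤ N * Δ * ρ ^ 2 :=
    mul_le_mul_of_nonneg_right (by nlinarith [mul_nonneg hN hw']) (sq_nonneg ρ)
  refine le_of_mul_le_mul_left ?_ hw
  nlinarith [mul_le_mul_of_nonneg_left h4 hN]

variable {n : ℕ} {M : Type} [MetricSpace M] [ChartedSpace (Cm n) M]
  [IsManifold 𝓘(ℂ, Cm n) 1 M] [IsManifold 𝓘(ℝ, Cm n) ∞ M]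
  [RiemannianBundle (fun x : M => TangentSpace 𝓘(ℝ, Cm n) x)]
  [IsContMDiffRiemannianBundle 𝓘(ℝ, Cm n) ∞ (Cm n) (fun x : M => TangentSpace 𝓘(ℝ, Cm n) x)]
  [IsRiemannianManifold 𝓘(ℝ, Cm n) M] [CompleteSpace M] [ConnectedSpace M] [NoncompactSpace M]
  [MeasurableSpace M] [BorelSpace M]
  {η T t : ℝ} {D : Set M} {l : M → ℝ} {φ : ℝ → M → ℝ} {e : Chart n M} {x : M} {z : Cm n}

namespace Hy

variable (H : Hy n η D l T φ) (b2 : B2 n M) (mp : MP)
include H b2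

theorem ww_zero (hx : x ∈ D) : ww n l φ 0 x ≤ n ^ 2 * η := by
  have hc := H.a.chart x
  have hz := mem_pc (n := n) hx
  have hp := H.B.hh_pos H.b hc hz
  have h1 : hs (lh n l φ 0) (pc n x) (pc n x x) = 0 := by
    refine (cHess_congr ?_).trans (cHess_const 0)
    filter_upwards [(cd_open _ H.B.op).mem_nhds hz] with y hy using H.lh_zero hy.2
  have h2 := H.E.tg_nn hp (b2 _ hc _ hz.1).posSemidef
  have h3 := H.E.tg_nn hp (H.bar4 x hx).2
  rw [tg_sub, tg_smul, H.E.self _ hp] at h3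
  rw [ww, H.gh_zero hc hz, gd, h1, add_zero, tg_neg, rh, tg_sub, ← Complex.ofReal_natCast, tg_smul]
  nlinarith [mul_nonneg (Nat.cast_nonneg (α := ℝ) n) h3]

include mp

theorem ww_le (ht : t ∈ Icc 0 T) (hx : x ∈ D) : ww n l φ t x ≤ n ^ 2 * η := by
  obtain ⟨y₀, hy₀, hy⟩ := H.y_bd
  have hη := H.B.pos
  have hl := H.B.cont H.a
  have key : ∀ δ ∈ Ioc (0 : ℝ) 1, ∀ t ∈ Icc 0 T, ∀ x ∈ {x | x ∈ D ∧ l x ≤ δ⁻¹},
      -(n ^ 2 * η + 8 * n * δ * (η * y₀)) ≤ -((1 - δ * l x) ^ 2 * ww n l φ t x) := fun δ hδ => by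
    have h0 := hδ.1
    have hsub : Icc (0 : ℝ) T ×ˢ {x | x ∈ D ∧ l x ≤ δ⁻¹} ⊆ Icc 0 T ×ˢ D :=
      prod_mono subset_rfl fun x hx => hx.1
    have hρ : ∀ x ∈ {x | x ∈ D ∧ l x ≤ δ⁻¹}, 0 ≤ 1 - δ * l x ∧ 1 - δ * l x ≤ 1 := fun x hx =>
      ⟨sub_nonneg.2 ((mul_le_mul_of_nonneg_left hx.2 h0.le).trans (mul_inv_cancel₀ h0.ne').le),
        sub_le_self _ (mul_nonneg h0.le (H.B.nn x hx.1))⟩
    have hf : ContinuousOn (fun q : ℝ × M => -((1 - δ * l q.2) ^ 2 * ww n l φ q.1 q.2))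
        (Icc 0 T ×ˢ {x | x ∈ D ∧ l x ≤ δ⁻¹}) :=
      (((continuousOn_const.sub (continuousOn_const.mul (hl.comp continuousOn_snd
        fun q hq => hq.2.1))).pow 2).mul (H.ww_cont.mono hsub)).neg
    obtain ⟨C, hC⟩ := (isCompact_Icc.prod (H.B.cpt δ⁻¹)).bddBelow_image hf
    have hm : 0 ≤ 8 * n * δ * (η * y₀) := by positivity
    refine mp M _ T _ (fun _ => 0) (fun t x => -((1 - δ * l x) ^ 2 * ww n l φ t x)) H.T0
      continuousOn_const (fun _ _ => le_rfl) (fun c => ?_) hf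
      ⟨-C, fun t ht x hx => by simpa using hC ⟨(t, x), ⟨ht, hx⟩, rfl⟩⟩ (fun x hx => ?_)
      fun κ hκ => ⟨1, one_pos, fun δ' _ t ht x hx hmin => ?_⟩
    · by_cases hc : 0 ≤ c
      · simpa [hc] using H.B.cpt δ⁻¹
      · simp [hc]
    · have h1 := mul_le_mul_of_nonneg_left (H.ww_zero b2 hx.1) (sq_nonneg (1 - δ * l x))
      have h2 : (1 - δ * l x) ^ 2 * (n ^ 2 * η) ≤ n ^ 2 * η :=
        mul_le_of_le_one_left (by positivity) (pow_le_one₀ (hρ x hx).1 (hρ x hx).2)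
      linarith
    by_contra hneg
    have hP : n ^ 2 * η + 8 * n * δ * (η * y₀) < (1 - δ * l x) ^ 2 * ww n l φ t x := by
      linarith [not_le.1 hneg]
    have hP0 : 0 < (1 - δ * l x) ^ 2 * ww n l φ t x := lt_of_le_of_lt (by positivity) hP
    have hw : 0 < ww n l φ t x := pos_of_mul_pos_right hP0 (sq_nonneg _)
    have hρ0 : 0 < 1 - δ * l x := (hρ x hx).1.lt_of_ne fun h => by simp [← h] at hP0
    have ht' := Ioo_subset_Icc_self ht
    have hc := H.a.chart x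
    have hz := mem_pc (n := n) hx.1
    have hp := H.pos hc ht' hz
    have hlx := hl.continuousAt (H.B.op.mem_nhds hx.1)
    have hN : {y | 0 < 1 - δ * l y} ∈ 𝓝 x :=
      (continuousAt_const.sub (continuousAt_const.mul hlx)).eventually (lt_mem_nhds hρ0)
    have hK : {x | x ∈ D ∧ l x ≤ δ⁻¹} ∈ 𝓝 x := by
      filter_upwards [hN, H.B.op.mem_nhds hx.1] with y h1 h2
      exact ⟨h2, by rw [← one_div, le_div_iff₀ h0]; linarith⟩
    obtain ⟨w', d1, d2⟩ := H.dww ht hx.1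
    obtain ⟨sl, b1⟩ := H.bar4 x hx.1
    have sw := (H.ww_sl hc ht' hz).of_le Calc.two_le
    obtain ⟨k1, -, -⟩ := loc_test (f := fun t x => -((1 - δ * l x) ^ 2 * ww n l φ t x))
      (l' := fun _ => 0)
      (F := fun s y => -((1 - δ * l ((pc n x).symm y)) ^ 2 * ww n l φ s ((pc n x).symm y)))
      (F' := -((1 - δ * l x) ^ 2 * w')) ht hK hmin
      (Eventually.of_forall fun s => by rw [pc_symm]) (Eventually.of_forall fun _ => le_rfl)
      (by rw [pc_symm]) (by simp only [pc_symm]; exact (d1.const_mul _).neg)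
      (((contDiffAt_const.sub (contDiffAt_const.mul sl)).pow 2).mul sw).neg contDiffAt_const
    have k2 : 0 ≤ w' := by
      have : 0 < κ / (T - t) ^ 2 := div_pos hκ (pow_pos (sub_pos.2 ht.2) 2)
      exact (pos_of_mul_pos_right (a := (1 - δ * l x) ^ 2) (by linarith) (sq_nonneg _)).le
    have hne : 1 - δ * l ((pc n x).symm (pc n x x)) ≠ 0 := by rw [pc_symm]; exact hρ0.ne'
    have s1 : ContDiffAt ℝ 2 (fun y => (1 - δ * l ((pc n x).symm y)) ^ (-2 : ℤ)) (pc n x x) := by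
      simp only [zpow_neg, zpow_ofNat]
      exact ((contDiffAt_const.sub (contDiffAt_const.mul sl)).pow 2).inv (pow_ne_zero _ hne)
    have k3 : IsLocalMin (fun y => (1 - δ * l x) ^ 2 * ww n l φ t x *
        (1 - δ * l ((pc n x).symm y)) ^ (-2 : ℤ) - ww n l φ t ((pc n x).symm y)) (pc n x x) := by
      filter_upwards [ev_symm (n := n) hK, ev_symm (n := n) hN] with y h1 h2
      have h3 := hmin t (Ioo_subset_Ico_self ht) _ h1
      have h4 : 0 < (1 - δ * l ((pc n x).symm y)) ^ 2 := pow_pos h2 2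
      simp only [pc_symm, zpow_neg, zpow_ofNat]
      rw [mul_right_comm, mul_inv_cancel₀ (pow_pos hρ0 2).ne', one_mul, sub_self, sub_nonneg,
        ← div_eq_mul_inv, le_div_iff₀ h4]
      linarith
    have k4 := (Calc.min ((contDiffAt_const.mul s1).sub sw) k3).1
    rw [cHess_sub (contDiffAt_const.mul s1) sw, cHess_const_mul _ s1,
      cHess_cp (ψ := fun s => (1 - δ * s) ^ (-2 : ℤ)) (ψ₁ := fun s => 2 * δ * (1 - δ * s) ^ (-3 : ℤ))
        (ψ₂ := 2 * δ * (3 * δ * (1 - δ * l x) ^ (-4 : ℤ))) (by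
          filter_upwards [(continuousAt_const.sub (continuousAt_const.mul
            continuousAt_id)).eventually_ne hne] with s hs
          simpa using zp_d δ (-2) hs)
        (by simpa [pc_symm] using (zp_d δ (-3) hne).const_mul (2 * δ)) sl] at k4
    have k5 := H.E.tg_nn hp k4
    have k6 := H.E.tg_nn hp b1
    have k7 := H.E.tg_nn hp (H.B.grad _ hc _ hz)
    have k8 := mul_le_mul_of_nonneg_left (hy t ht' _ hc _ hz) hη.le
    simp only [tg_add, tg_sub, tg_smul, pc_symm] at k5 k6 k7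
    have k9 := an_fin (Nat.cast_nonneg n) hρ0 (hρ x hx).2 hw k2 hδ ((sub_nonneg.1 k6).trans k8)
      ((sub_nonneg.1 k7).trans k8) (by positivity) d2 (sub_nonneg.1 k5)
    have : 0 ≤ (n : ℝ) ^ 2 * η := by positivity
    linarith
  have h1 : ∀ᶠ δ in 𝓝[>] (0 : ℝ), (1 - δ * l x) ^ 2 * ww n l φ t x ≤
      n ^ 2 * η + 8 * n * δ * (η * y₀) := by
    filter_upwards [Ioc_mem_nhdsGT one_pos, tendsto_inv_nhdsGT_zero.eventually_ge_atTop (l x)]
      with δ h2 h3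
    linarith [key δ h2 t ht x ⟨hx, h3⟩]
  have h2 := le_of_tendsto_of_tendsto (tendsto_nhdsWithin_of_tendsto_nhds
    (Continuous.tendsto (by fun_prop) 0)) (tendsto_nhdsWithin_of_tendsto_nhds
      (Continuous.tendsto (by fun_prop) 0)) h1
  simpa using h2

theorem anti (hx : x ∈ D) : AntitoneOn (fun t => lh n l φ t x - n ^ 2 * η * t) (Icc 0 T) := by
  have h : ∀ t ∈ interior (Icc 0 T), HasDerivAt (fun t => lh n l φ t x - n ^ 2 * η * t)
      (ww n l φ t x - n ^ 2 * η * 1) t := fun t ht =>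
    (H.dlh (by rwa [interior_Icc] at ht) hx).sub ((hasDerivAt_id t).const_mul _)
  refine antitoneOn_of_deriv_nonpos (convex_Icc 0 T) ((H.lh_cont.comp
    (continuousOn_id.prodMk continuousOn_const) fun t ht => mk_mem_prod ht hx).sub (by fun_prop))
    (fun t ht => (h t ht).differentiableAt.differentiableWithinAt) fun t ht => ?_
  rw [(h t ht).deriv]
  linarith [H.ww_le b2 mp (interior_subset ht) hx]

end Hy

end Vale.Agent.P253W.FG
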