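import Vale.Agent.P253W.FG.Ev

/-!
# P253W, row FG.BAR: the conformal factor `-2 log σ`
-/

open scoped Manifold ContDiff Bundle ENNReal Topology ComplexConjugate ComplexOrder Matrix
open Bundle IsManifold MeasureTheory Set Metric Filter Vale.Agent.P253.Mfd Vale.Agent.P253Z
open Vale.Agent.P272.K (Cm dz dzb cHess jacM Chart)
open Vale.Agent.P272.K.C2

set_option linter.unusedSectionVars false

noncomputable section

namespace Vale.Agent.P253W.FG

namespace BarA

section
variable {n : ℕ} {u : Cm n → ℝ} {z : Cm n}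

theorem gg_psd (u : Cm n → ℝ) (z : Cm n) : (gg u z).PosSemidef :=
  Matrix.posSemidef_vecMulVec_self_star fun j => dz j (fun y => (u y : ℂ)) z

theorem hess_log (hu : ContDiffAt ℝ 2 u z) (h0 : 0 < u z) :
    cHess (fun y => -2 * Real.log (u y)) z =
      ((2 * (u z)⁻¹ ^ 2 : ℝ) : ℂ) • gg u z - ((2 * (u z)⁻¹ : ℝ) : ℂ) • cHess u z := by
  rw [cHess_const_mul _ (hu.log h0.ne')]
  ext j k
  simp only [Matrix.smul_apply, Matrix.sub_apply, cHess_log hu h0, gg, Matrix.of_apply,
    dzb_real k (hu.differentiableAt (by norm_num)), smul_eq_mul]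
  push_cast
  ring

theorem gg_log (hu : ContDiffAt ℝ 2 u z) (h0 : 0 < u z) :
    gg (fun y => -2 * Real.log (u y)) z = ((4 * (u z)⁻¹ ^ 2 : ℝ) : ℂ) • gg u z := by
  have h : ∀ j, dz j (fun y => ((-2 * Real.log (u y) : ℝ) : ℂ)) z =
      ((-2 * (u z)⁻¹ : ℝ) : ℂ) * dz j (fun y => (u y : ℂ)) z := fun j =>
    dz_comp_real (ψ := fun s => -2 * Real.log s) j ((Real.hasDerivAt_log h0.ne').const_mul _)
      (hu.differentiableAt (by norm_num))
  ext j k
  simp only [gg, Matrix.of_apply, h, Matrix.smul_apply, map_mul, Complex.conj_ofReal, smul_eq_mul]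
  push_cast
  ring

theorem exp_log {s : ℝ} (h : 0 < s) : Real.exp (-2 * Real.log s) = s⁻¹ ^ 2 := by
  rw [← Real.exp_log (inv_pos.2 h), ← Real.exp_nat_mul, Real.log_inv]
  congr 1
  push_cast
  ring

end

variable {n : ℕ} {M : Type} [MetricSpace M] [ChartedSpace (Cm n) M]
  [IsManifold 𝓘(ℂ, Cm n) 1 M] [IsManifold 𝓘(ℝ, Cm n) ∞ M]
  [RiemannianBundle (fun x : M => TangentSpace 𝓘(ℝ, Cm n) x)]
  [IsContMDiffRiemannianBundle 𝓘(ℝ, Cm n) ∞ (Cm n) (fun x : M => TangentSpace 𝓘(ℝ, Cm n) x)]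
  [IsRiemannianManifold 𝓘(ℝ, Cm n) M] [CompleteSpace M] [ConnectedSpace M] [NoncompactSpace M]
  [MeasurableSpace M] [BorelSpace M]

/-- a continuous Hermitian form is bounded by the metric on a compact set -/
theorem form_bd (a : B1a n M) (b : B1b n M) (hl : LAM n) {A : Chart n M → Cm n → Mt n}
    (hc : ∀ e : Chart n M, Hc e → ∀ z ∈ e.target, ∀ j k, ContinuousAt (fun y => A e y j k) z)
    (hH : ∀ e : Chart n M, Hc e → ∀ z ∈ e.target, (A e z).IsHermitian)
    (hch : ∀ e e' : Chart n M, Hc e → Hc e' → ∀ x ∈ e.source, x ∈ e'.source →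
      A e (e x) = pb (jacM e e' x) (A e' (e' x))) {K : Set M} (hK : IsCompact K) :
    ∃ C : ℝ, 0 ≤ C ∧ ∀ e : Chart n M, Hc e → ∀ z ∈ e.target, e.symm z ∈ K →
      ((C : ℂ) • hm e z - A e z).PosSemidef := by
  obtain ⟨f, hf⟩ : ∃ f : M → ℝ, ∀ x,
      f x = lam (A (pc n x) (pc n x x)) (hm (pc n x) (pc n x x)) := ⟨_, fun _ => rfl⟩
  have h1 : ∀ e : Chart n M, Hc e → ∀ y ∈ e.target, f (e.symm y) = lam (A e y) (hm e y) := by
    intro e he y hy
    have s1 := e.map_target hy
    have s2 := mem_chart_source (Cm n) (e.symm y)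
    have t2 := (pc n (e.symm y)).map_source s2
    have e1 := hch e _ he (a.chart _) _ s1 s2
    have e2 := b.wch e _ he (a.chart _) _ s1 s2
    rw [e.right_inv hy] at e1 e2
    rw [hf, e1, e2, hl.inv _ _ _ (hH _ (a.chart _) _ t2) (b.wpos _ (a.chart _) _ t2)
      (a.jac_ne e _ he (a.chart _) _ s1 s2)]
  have h2 : Continuous f := MC.cont_of_chart a fun e he z hz => ⟨_, (hl.cont _ e.target (A e) (hm e)
    (fun y hy => (continuousAt_pi.2 fun j => continuousAt_pi.2 fun k =>
      hc e he y hy j k).continuousWithinAt)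
    (fun y hy => (continuousAt_pi.2 fun j => continuousAt_pi.2 fun k =>
      (b.wsm e he y hy j k).continuousAt).continuousWithinAt)
    (b.wpos e he)).continuousAt (e.open_target.mem_nhds hz), h1 e he⟩
  obtain ⟨C, hC⟩ := hK.exists_bound_of_continuousOn h2.continuousOn
  refine ⟨max C 0, le_max_right _ _, fun e he z hz hx => ?_⟩
  have h3 : 0 ≤ max C 0 - lam (A e z) (hm e z) := by
    have := (le_abs_self _).trans (hC _ hx)
    rw [h1 e he z hz] at this
    linarith [le_max_left C 0]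
  convert (hl.le _ _ (hH e he z hz) (b.wpos e he z hz)).add
    (psd_smul (b.wpos e he z hz).posSemidef h3) using 1
  push_cast
  module

end BarA

variable {n : ℕ} {M : Type} [MetricSpace M] [ChartedSpace (Cm n) M]
  [IsManifold 𝓘(ℂ, Cm n) 1 M] [IsManifold 𝓘(ℝ, Cm n) ∞ M]
  [RiemannianBundle (fun x : M => TangentSpace 𝓘(ℝ, Cm n) x)]
  [IsContMDiffRiemannianBundle 𝓘(ℝ, Cm n) ∞ (Cm n) (fun x : M => TangentSpace 𝓘(ℝ, Cm n) x)]
  [IsRiemannianManifold 𝓘(ℝ, Cm n) M] [CompleteSpace M] [ConnectedSpace M] [NoncompactSpace M]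
  [MeasurableSpace M] [BorelSpace M]

open BarA in
/-- **BAR** -/
theorem bar (_hn : 1 ≤ n) (a : B1a n M) (b : B1b n M) (hl : LAM n) (_he : EIG n) : BAR n M := by
  intro ε σ hε h
  have hc := a.sm_cont σ h.sm
  have s2 : ∀ e : Chart n M, Hc e → ∀ z ∈ e.target, ContDiffAt ℝ 2 (fun y => σ (e.symm y)) z :=
    fun e he z hz => (h.sm e he z hz).of_le Calc.two_le
  have i1 : ∀ x, 0 < σ x → 1 ≤ (σ x)⁻¹ := fun x hx => (one_le_inv₀ hx).2 (h.le x)
  refine ⟨by positivity, isOpen_lt continuous_const hc, fun e he z hz => ?_, fun x hx => ?_,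
    fun c => ?_, ⟨_, h.cpt, fun x hx => subset_tsupport _ (ne_of_gt hx)⟩, fun e he z hz => ?_,
    fun e he z hz => ?_, fun S hS => ?_⟩
  · exact contDiffAt_const.mul ((h.sm e he z hz.1).log (ne_of_gt hz.2))
  · linarith [Real.log_nonpos (h.nn x) (h.le x)]
  · refine h.cpt.isCompact.of_isClosed_subset ?_ fun x hx => subset_tsupport _ (ne_of_gt hx.1)
    convert isClosed_le (continuous_const (y := Real.exp (-c / 2))) hc using 1
    ext x
    refine ⟨fun hx => (Real.le_log_iff_exp_le hx.1).1 (by linarith [hx.2]), fun hx => ?_⟩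
    have h0 := (Real.exp_pos _).trans_le hx
    exact ⟨h0, by linarith [(Real.le_log_iff_exp_le h0).2 hx]⟩
  · have h0 : 0 < σ (e.symm z) := hz.2
    have := i1 _ h0
    convert ((psd_smul (h.hess e he z hz.1) (c := 2 * (σ (e.symm z))⁻¹) (by positivity)).add
      (psd_smul (h.grad e he z hz.1) (c := 2 * (σ (e.symm z))⁻¹ ^ 2) (by positivity))).add
      (psd_smul (b.wpos e he z hz.1).posSemidef
        (c := 2 * ε * ((σ (e.symm z))⁻¹ * ((σ (e.symm z))⁻¹ - 1)))
        (mul_nonneg (by positivity) (mul_nonneg (by positivity) (by linarith)))) using 1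
    rw [hh, hs, hess_log (s2 e he z hz.1) h0, exp_log h0]
    push_cast
    module
  · have h0 : 0 < σ (e.symm z) := hz.2
    convert psd_smul (h.grad e he z hz.1) (c := 4 * (σ (e.symm z))⁻¹ ^ 2) (by positivity) using 1
    rw [hh, gg_log (s2 e he z hz.1) h0, exp_log h0]
    push_cast
    module
  · obtain ⟨C₁, c1, hC₁⟩ := form_bd a b hl (A := ric)
      (fun e he z hz j k => (ric_sm b he hz j k).continuousAt)
      (fun e he z hz => b.herm _ _
        (((b.vd_sm e he z hz).log (b.vd_pos e he z hz).ne').neg.of_le Calc.two_le))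
      b.ric_ch h.cpt.isCompact
    obtain ⟨C₂, c2, hC₂⟩ := form_bd a b hl (A := hs σ)
      (fun e he z hz j k =>
        (contDiffAt_cHess (m := 0) (s2 e he z hz) (by norm_num) j k).continuousAt)
      (fun e he z hz => b.herm _ _ (s2 e he z hz))
      (fun e e' he he' x hx hx' => hs_ch a he he' hx hx' (s2 e' he' _ (e'.map_source hx')))
      h.cpt.isCompact
    have hA : 0 < S * C₁ + 2 * n * S * C₂ + 1 := by positivity
    refine ⟨2 * Real.log (S * C₁ + 2 * n * S * C₂ + 1), fun e he z hz hcz => ?_⟩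
    have h0 : 0 < σ (e.symm z) := hz.2
    have h1 := i1 _ h0
    have hx : e.symm z ∈ tsupport σ := subset_tsupport _ h0.ne'
    have h2 : S * C₁ + 2 * n * S * C₂ + 1 ≤ (σ (e.symm z))⁻¹ := by
      rw [← Real.log_le_log_iff hA (inv_pos.2 h0), Real.log_inv]
      linarith
    have h3 : 0 ≤ (σ (e.symm z))⁻¹ ^ 2 - S * C₁ - 2 * n * S * C₂ * (σ (e.symm z))⁻¹ := by
      have : 0 ≤ S * C₁ := by positivity
      nlinarith
    convert (((psd_smul (hC₁ e he z hz.1 hx) hS).add
      (psd_smul (hC₂ e he z hz.1 hx) (c := 2 * n * S * (σ (e.symm z))⁻¹) (by positivity))).add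
      (psd_smul (gg_psd (fun y => σ (e.symm y)) z) (c := 2 * n * S * (σ (e.symm z))⁻¹ ^ 2)
        (by positivity))).add (psd_smul (b.wpos e he z hz.1).posSemidef h3) using 1
    rw [hh, rh, hs, hs, hess_log (s2 e he z hz.1) h0, exp_log h0]
    push_cast
    module

end Vale.Agent.P253W.FG
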