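import Vale.Agent.P253W.FG.Sup

/-!
# P253W, block FG: lower bounds for `Y + S φ_t`
-/

open scoped Manifold ContDiff Bundle ENNReal Topology ComplexConjugate ComplexOrder Matrix
open Bundle IsManifold MeasureTheory Set Metric Filter Vale.Agent.P253.Mfd Vale.Agent.P253Z
open Vale.Agent.P272.K (Cm dz dzb cHess jacM Chart)
open Vale.Agent.P272.K.C2

set_option linter.unusedSectionVars false

noncomputable section

namespace Vale.Agent.P253W.FG

variable {n : ℕ} {M : Type} [MetricSpace M] [ChartedSpace (Cm n) M]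
  [IsManifold 𝓘(ℂ, Cm n) 1 M] [IsManifold 𝓘(ℝ, Cm n) ∞ M]
  [RiemannianBundle (fun x : M => TangentSpace 𝓘(ℝ, Cm n) x)]
  [IsContMDiffRiemannianBundle 𝓘(ℝ, Cm n) ∞ (Cm n) (fun x : M => TangentSpace 𝓘(ℝ, Cm n) x)]
  [IsRiemannianManifold 𝓘(ℝ, Cm n) M] [CompleteSpace M] [ConnectedSpace M] [NoncompactSpace M]
  [MeasurableSpace M] [BorelSpace M]
  {η T t : ℝ} {D : Set M} {l : M → ℝ} {φ : ℝ → M → ℝ} {e : Chart n M} {x : M} {z : Cm n}
  {s : M → ℂ}

theorem nrm_cont (b : B1b n M) (hs : IsSec n 1 s) : Continuous (nrm n 1 s) :=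
  b.nrm_cont 1 s fun e he z hz => (hs e he z hz).contDiffAt.restrict_scalars ℝ

theorem nrm_pos (a : B1a n M) (b : B1b n M) (hx : s x ≠ 0) : 0 < nrm n 1 s x :=
  mul_pos (pow_pos (norm_pos_iff.2 hx) 2)
    (zpow_pos (b.vd_pos _ (a.chart x) _ (mem_chart_target _ x)) _)

theorem ne_of_nrm (hx : nrm n 1 s x ≠ 0) : s x ≠ 0 := fun h => hx (by simp [nrm, h])

theorem nz_open (a : B1a n M) (b : B1b n M) (hs : IsSec n 1 s) : IsOpen {x | s x ≠ 0} := by
  have : {x | s x ≠ 0} = {x | nrm n 1 s x ≠ 0} :=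
    Set.ext fun x => ⟨fun h => (nrm_pos a b h).ne', ne_of_nrm⟩
  rw [this]
  exact isOpen_ne_fun (nrm_cont b hs) continuous_const

theorem lnrm (a : B1a n M) (b : B1b n M) (hs : IsSec n 1 s) (hx : s x ≠ 0) :
    ContDiffAt ℝ 2 (fun y => Real.log (nrm n 1 s ((pc n x).symm y))) (pc n x x) ∧
      cHess (fun y => Real.log (nrm n 1 s ((pc n x).symm y))) (pc n x x) =
        ric (pc n x) (pc n x x) := by
  have hc := a.chart x
  have hz := mem_chart_target (Cm n) x
  have h1 := hs _ hc _ hz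
  have h0 : co 1 s (pc n x) (pc n x x) ≠ 0 := by rwa [a.co_self]
  have h2 : (fun y => Real.log (nrm n 1 s ((pc n x).symm y))) =ᶠ[𝓝 (pc n x x)]
      fun y => -Real.log (vd (pc n x) y) + Real.log (‖co 1 s (pc n x) y‖ ^ 2) := by
    filter_upwards [(pc n x).open_target.mem_nhds hz, h1.continuousAt.eventually_ne h0] with y k1 k2
    rw [b.nrm_eq 1 s _ hc y k1, Real.log_mul (pow_ne_zero _ (norm_ne_zero_iff.2 k2))
      (zpow_pos (b.vd_pos _ hc y k1) _).ne', Real.log_zpow]
    push_cast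
    ring
  have h3 : ContDiffAt ℝ 2 (fun y => -Real.log (vd (pc n x) y)) (pc n x x) :=
    ((b.vd_sm _ hc _ hz).log (b.vd_pos _ hc _ hz).ne').neg.of_le Calc.two_le
  have h4 : ContDiffAt ℝ 2 (fun y => Real.log (‖co 1 s (pc n x) y‖ ^ 2)) (pc n x x) :=
    (((h1.contDiffAt (n := 2)).restrict_scalars ℝ).norm_sq ℂ).log
      (pow_ne_zero _ (norm_ne_zero_iff.2 h0))
  refine ⟨(h3.add h4).congr_of_eventuallyEq h2, ?_⟩
  rw [cHess_congr h2, cHess_add h3 h4, P272.K.cHess_log_norm_sq h1.contDiffAt h0, add_zero]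
  rfl

theorem hh_ge (b : B1b n M) (he : Hc e) (hz : z ∈ e.target) (hl : 0 ≤ l (e.symm z)) :
    (hh l e z - hm e z).PosSemidef := by
  have := psd_smul (b.wpos e he z hz).posSemidef (c := Real.exp (l (e.symm z)) - 1)
    (by linarith [Real.add_one_le_exp (l (e.symm z))])
  rwa [Complex.ofReal_sub, sub_smul, Complex.ofReal_one, one_smul] at this

namespace Hy

variable (H : Hy n η D l T φ)
include H

/-- the bound with a holomorphic `n`-form -/
theorem ys (mp : MP) (b2 : B2 n M) (hs : IsSec n 1 s) {ϱ : M → ℝ} (r1 : Sm n ϱ)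
    (r2 : ∀ e : Chart n M, Hc e → ∀ z ∈ e.target,
      (hm e z - cHess (fun y => ϱ (e.symm y)) z).PosSemidef) {S m : ℝ} (hS : 0 ≤ S)
    (h0 : ∀ x, s x ≠ 0 → m ≤ ϱ x - S * Real.log (nrm n 1 s x)) (ht : t ∈ Icc 0 T) (hx : x ∈ D)
    (hx' : s x ≠ 0) : m ≤ yy n l φ t x + S * lh n l φ t x -
      (S * Real.log (nrm n 1 s x) - S * (n * l x) - ϱ x) := by
  obtain ⟨K, hK, hDK⟩ := H.B.rel
  have hN := nrm_cont H.b hs
  obtain ⟨C, hC⟩ := hK.bddAbove_image hN.continuousOn
  have hC' : ∀ x ∈ D ∩ {x | s x ≠ 0}, Real.log (nrm n 1 s x) ≤ C := fun x hx =>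
    (Real.log_le_self (nrm_pos H.a H.b hx.2).le).trans (hC ⟨x, hDK hx.1, rfl⟩)
  have hl := H.B.cont H.a
  have hL : ContinuousOn (fun x => Real.log (nrm n 1 s x)) (D ∩ {x | s x ≠ 0}) :=
    hN.continuousOn.log fun x hx => (nrm_pos H.a H.b hx.2).ne'
  refine H.sup mp (D' := D ∩ {x | s x ≠ 0}) (l' := fun x => l x + (C - Real.log (nrm n 1 s x)))
    (v := fun x => S * Real.log (nrm n 1 s x) - S * (n * l x) - ϱ x)
    inter_subset_left (H.B.op.inter (nz_open H.a H.b hs))
    ((hl.mono inter_subset_left).add (continuousOn_const.sub hL))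
    (fun x hx => add_nonneg (H.B.nn x hx.1) (sub_nonneg.2 (hC' x hx))) (fun c => ?_) H.B.pos.le
    (fun x hx => ?_) (((continuousOn_const.mul hL).sub (continuousOn_const.mul
      (continuousOn_const.mul (hl.mono inter_subset_left)))).sub (H.a.sm_cont ϱ r1).continuousOn)
    (fun x hx => ?_) (fun x hx => ?_) t ht x ⟨hx, hx'⟩
  · have k1 := H.B.cpt c
    have k2 : IsClosed ({x | x ∈ D ∧ l x ≤ c} ∩ (fun x => nrm n 1 s x * Real.exp (c - l x - C)) ⁻¹'
        Ici 1) := ContinuousOn.preimage_isClosed_of_isClosed (hN.continuousOn.mul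
      (((continuousOn_const.sub (hl.mono fun x hx => hx.1)).sub continuousOn_const).rexp))
        k1.isClosed isClosed_Ici
    convert k1.of_isClosed_subset k2 inter_subset_left using 1
    ext y
    simp only [mem_ofPred_eq, mem_inter_iff, mem_preimage, mem_Ici]
    constructor
    · rintro ⟨⟨k3, k4⟩, k5⟩
      have k6 := hC' y ⟨k3, k4⟩
      refine ⟨⟨k3, by linarith⟩, ?_⟩
      rw [← Real.exp_log (nrm_pos H.a H.b k4), ← Real.exp_add]
      exact Real.one_le_exp (by linarith)
    · rintro ⟨⟨k3, k4⟩, k5⟩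
      have k6 : s y ≠ 0 := ne_of_nrm fun h => by
        rw [h, zero_mul] at k5
        exact absurd k5 (by norm_num)
      refine ⟨⟨k3, k6⟩, ?_⟩
      rw [← Real.exp_log (nrm_pos H.a H.b k6), ← Real.exp_add, Real.one_le_exp_iff] at k5
      linarith
  · obtain ⟨k1, k2⟩ := lnrm H.a H.b hs hx.2
    obtain ⟨k3, k4⟩ := H.bar4 x hx.1
    refine ⟨k3.add (contDiffAt_const.sub k1), ?_⟩
    have k5 := k4.add (b2 _ (H.a.chart x) _ (mem_chart_target _ x)).posSemidef
    simp only [P253W.hs] at k5 ⊢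
    rw [cHess_add k3 (contDiffAt_const.sub k1), cHess_sub contDiffAt_const k1, cHess_const, k2]
    convert k5 using 1
    abel
  · have := mul_nonneg hS (mul_nonneg (Nat.cast_nonneg n) (H.B.nn x hx.1))
    linarith [h0 x hx.2]
  · obtain ⟨k1, k2⟩ := lnrm H.a H.b hs hx.2
    obtain ⟨k3, -⟩ := H.bar4 x hx.1
    have hc := H.a.chart x
    have hz := mem_chart_target (Cm n) x
    have k4 := (r1 _ hc _ hz).of_le Calc.two_le
    have k6 := contDiffAt_const (c := S).mul (contDiffAt_const (c := (n : ℝ)).mul k3)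
    refine ⟨fun y => S * Real.log (nrm n 1 s ((pc n x).symm y)) - S * (n * l ((pc n x).symm y)) -
      ϱ ((pc n x).symm y), ((contDiffAt_const.mul k1).sub k6).sub k4, by simp only [pc_symm],
      Eventually.of_forall fun _ => le_rfl, ?_⟩
    rw [cHess_sub ((contDiffAt_const.mul k1).sub k6) k4, cHess_sub (contDiffAt_const.mul k1) k6,
      cHess_const_mul _ k1, cHess_const_mul _ (contDiffAt_const.mul k3), cHess_const_mul _ k3, k2]
    have k5 := (hh_ge (l := l) H.b hc hz (by rw [pc_symm]; exact H.B.nn x hx.1)).add (r2 _ hc _ hz)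
    convert k5 using 1
    simp only [rh, P253W.hs, smul_sub, Complex.ofReal_natCast]
    abel

end Hy

/-- the global lower bound -/
theorem Bar.low (B : Bar n η D l) (a : B1a n M) (b : B1b n M) (mp : MP)
    (eta : ∀ x : M, ∃ s : M → ℂ, IsSec n 1 s ∧ s x ≠ 0) {S : ℝ} (hS : 0 ≤ S) :
    ∃ L : ℝ, ∀ (T : ℝ) (φ : ℝ → M → ℝ), Hy n η D l T φ → ∀ t ∈ Icc 0 T, ∀ x ∈ D,
      -L ≤ yy n l φ t x + S * lh n l φ t x := by
  obtain ⟨c, hc⟩ := B.far S hS
  obtain ⟨K, hK, hDK⟩ := B.rel
  choose s hs hs0 using eta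
  obtain ⟨J, hJ⟩ := (B.cpt c).elim_finite_subcover (fun x => {y | s x y ≠ 0})
    (fun x => nz_open a b (hs x)) fun x _ => mem_iUnion.2 ⟨x, hs0 x⟩
  have hl := B.cont a
  have hnn : ∀ j x, 0 ≤ nrm n 1 (s j) x := fun j x => mul_nonneg (sq_nonneg _)
    (zpow_pos (b.vd_pos _ (a.chart x) _ (mem_chart_target _ x)) _).le
  have hN : Continuous fun x => ∑ j ∈ J, nrm n 1 (s j) x :=
    continuous_finsetSum _ fun j _ => nrm_cont b (hs j)
  obtain ⟨C, hC⟩ := hK.bddAbove_image hN.continuousOn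
  have hq : ∀ j, ContinuousOn (fun x => nrm n 1 (s j) x * Real.exp (-(n * l x))) D := fun j =>
    (nrm_cont b (hs j)).continuousOn.mul (continuousOn_const.mul hl).neg.rexp
  obtain ⟨a', ha', ha⟩ := (B.cpt c).exists_forall_le'
    (f := fun x => ∑ j ∈ J, nrm n 1 (s j) x * Real.exp (-(n * l x))) (a := 0)
    ((continuousOn_finsetSum _ fun j _ => hq j).mono fun x hx => hx.1) fun x hx => by
      obtain ⟨j, hj, h⟩ := mem_iUnion₂.1 (hJ hx)
      exact Finset.sum_pos' (fun i _ => mul_nonneg (hnn i x) (Real.exp_pos _).le)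
        ⟨j, hj, mul_pos (nrm_pos a b h) (Real.exp_pos _)⟩
  obtain ⟨ε, hε, hε'⟩ : ∃ ε : ℝ, 0 < ε ∧ J.card * ε < a' :=
    ⟨a' / (J.card + 1), by positivity, by
      rw [← mul_div_assoc, div_lt_iff₀ (by positivity)]
      linarith⟩
  let Q : Option M → M → ℝ := fun j x =>
    j.elim ε fun j => nrm n 1 (s j) x * Real.exp (-(n * l x))
  have hne : (Finset.insertNone J).Nonempty := ⟨none, Finset.none_mem_insertNone⟩
  have hP : ContinuousOn (fun x => (Finset.insertNone J).sup' hne fun j => Q j x) D :=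
    ContinuousOn.finset_sup'_apply hne fun j _ => by
      cases j with
      | none => exact continuousOn_const
      | some j => exact hq j
  have hP0 : ∀ x, ε ≤ (Finset.insertNone J).sup' hne fun j => Q j x := fun x =>
    Finset.le_sup' (fun j => Q j x) Finset.none_mem_insertNone
  refine ⟨S * Real.log (max ε C) - S * Real.log ε, fun T φ H t ht x hx => ?_⟩
  have key := H.sup mp (v := fun x => S * Real.log ((Finset.insertNone J).sup' hne fun j => Q j x))
    (S := S) (m := -(S * Real.log (max ε C))) subset_rfl B.op hl B.nn B.cpt B.pos.le H.bar4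
    (continuousOn_const.mul (hP.log fun x _ => (hε.trans_le (hP0 x)).ne')) (fun x hx => ?_)
    (fun x hx => ?_) t ht x hx
  · have := mul_le_mul_of_nonneg_left (Real.log_le_log hε (hP0 x)) hS
    linarith
  · refine neg_le_neg (mul_le_mul_of_nonneg_left (Real.log_le_log (hε.trans_le (hP0 x))
      (Finset.sup'_le _ _ fun j hj => ?_)) hS)
    cases j with
    | none => exact le_max_left _ _
    | some j =>
      refine le_max_of_le_right (le_trans ?_ ((Finset.single_le_sum (fun i _ => hnn i x)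
        (Finset.some_mem_insertNone.1 hj)).trans (hC ⟨x, hDK hx, rfl⟩)))
      exact mul_le_of_le_one_right (hnn j x) (Real.exp_le_one_iff.2
        (neg_nonpos.2 (mul_nonneg (Nat.cast_nonneg n) (B.nn x hx))))
  · obtain ⟨j, hj, h⟩ := Finset.exists_mem_eq_sup' hne fun j => Q j x
    have hch := a.chart x
    cases j with
    | none =>
      refine ⟨fun _ => S * Real.log ε, contDiffAt_const, by rw [h]; rfl,
        Eventually.of_forall fun y =>
          mul_le_mul_of_nonneg_left (Real.log_le_log hε (hP0 _)) hS, ?_⟩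
      rw [cHess_const, add_zero]
      refine hc _ hch _ (mem_pc hx) ?_
      rw [pc_symm]
      by_contra h1
      have h2 := (ha x ⟨hx, (not_le.1 h1).le⟩).trans (Finset.sum_le_card_nsmul J _ ε fun i hi =>
        (Finset.le_sup' (fun j => Q j x) (Finset.some_mem_insertNone.2 hi)).trans h.le)
      rw [nsmul_eq_mul] at h2
      linarith
    | some j =>
      have h1 : s j x ≠ 0 := ne_of_nrm (n := n) fun h2 => by
        have h3 := hP0 x
        rw [h] at h3
        simp only [Q, Option.elim, h2, zero_mul] at h3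
        linarith
      obtain ⟨k1, k2⟩ := lnrm a b (hs j) h1
      obtain ⟨k3, -⟩ := H.bar4 x hx
      have k6 := contDiffAt_const (c := (n : ℝ)).mul k3
      have k7 : ∀ y, s j y ≠ 0 → Real.log (nrm n 1 (s j) y) - n * l y = Real.log (Q (some j) y) :=
        fun y hy => by
          simp only [Q, Option.elim]
          rw [Real.log_mul (nrm_pos a b hy).ne' (Real.exp_pos _).ne', Real.log_exp, sub_eq_add_neg]
      refine ⟨fun y => S * (Real.log (nrm n 1 (s j) ((pc n x).symm y)) - n * l ((pc n x).symm y)),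
        contDiffAt_const.mul (k1.sub k6), by simp only [pc_symm]; rw [h, k7 x h1], ?_, ?_⟩
      · filter_upwards [ev_symm (n := n) ((nz_open a b (hs j)).mem_nhds h1)] with y hy
        rw [k7 _ hy]
        exact mul_le_mul_of_nonneg_left (Real.log_le_log
          (mul_pos (nrm_pos a b hy) (Real.exp_pos _)) (Finset.le_sup' (fun j => Q j _) hj)) hS
      · rw [cHess_const_mul _ (k1.sub k6), cHess_sub k1 k6, cHess_const_mul _ k3, k2]
        convert (B.hh_pos b hch (mem_pc hx)).posSemidef using 1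
        simp only [rh, P253W.hs, Complex.ofReal_natCast]
        abel

end Vale.Agent.P253W.FG
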