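import Vale.Agent.P253W.FG.Anti
import Vale.Agent.P253W.FG.Ys
import Vale.Agent.P253W.FG.Bar
import Vale.Agent.P253W.FP.MDefs

/-!
# P253W, block FG: a priori bounds
-/

open scoped Manifold ContDiff Bundle ENNReal Topology ComplexConjugate ComplexOrder Matrix
open Bundle IsManifold MeasureTheory Set Metric Filter Vale.Agent.P253.Mfd Vale.Agent.P253Z
open Vale.Agent.P272.K (Cm dz dzb cHess jacM Chart)
open Vale.Agent.P272.K.C2

set_option linter.unusedSectionVars false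

noncomputable section

namespace Vale.Agent.P253W.FG

section alg
variable {n : ℕ} {A B : Mt n} {c C : ℝ}

theorem psd_up (hB : B.PosSemidef) (h : ((c : ℂ) • B - A).PosSemidef) (hc : c ≤ C) :
    ((C : ℂ) • B - A).PosSemidef := by
  have := (psd_smul hB (sub_nonneg.2 hc)).add h
  rwa [Complex.ofReal_sub, sub_smul, sub_add_sub_cancel] at this

theorem psd_lo (hB : B.PosSemidef) (h : (A - (C : ℂ) • B).PosSemidef) (hc : c ≤ C) :
    (A - (c : ℂ) • B).PosSemidef := by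
  have := h.add (psd_smul hB (sub_nonneg.2 hc))
  rwa [Complex.ofReal_sub, sub_smul, sub_add_sub_cancel] at this

theorem EIG.abs_ld (E : EIG n) (hA : A.PosDef) (hB : B.PosDef) (hc : 0 < c)
    (h1 : (A - (c : ℂ) • B).PosSemidef) (h2 : ((C : ℂ) • B - A).PosSemidef) :
    |Real.log (A.det.re / B.det.re)| ≤ max (n * C) (n * -Real.log c) := by
  refine abs_le.2 ⟨?_, (E.up _ _ C hA hB (psd_up hB.posSemidef h2
    (by linarith [Real.add_one_le_exp C]))).trans (le_max_left _ _)⟩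
  have h3 := psd_smul h1 (inv_pos.2 hc).le
  rw [smul_sub, smul_smul, ← Complex.ofReal_mul, inv_mul_cancel₀ hc.ne', Complex.ofReal_one,
    one_smul] at h3
  have h4 := E.up _ _ (-Real.log c) hB hA (by rwa [Real.exp_neg, Real.exp_log hc])
  rw [← inv_div, Real.log_inv] at h4
  linarith [le_max_right (n * C) (n * -Real.log c)]

theorem cHess_m2 (u : Cm n → ℝ) (z : Cm n) :
    cHess (fun y => -2 * u y) z = -cHess (fun y => 2 * u y) z := by
  ext j k
  have : (dzb k fun y => ((-2 * u y : ℝ) : ℂ)) =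
      fun z => -dzb k (fun y => ((2 * u y : ℝ) : ℂ)) z := funext fun z => by
    simp only [neg_mul, Complex.ofReal_neg]
    exact dzb_neg k
  rw [cHess_apply, this, dz_neg]
  rfl

end alg

variable {n : ℕ} {M : Type} [MetricSpace M] [ChartedSpace (Cm n) M]
  [IsManifold 𝓘(ℂ, Cm n) 1 M] [IsManifold 𝓘(ℝ, Cm n) ∞ M]
  [RiemannianBundle (fun x : M => TangentSpace 𝓘(ℝ, Cm n) x)]
  [IsContMDiffRiemannianBundle 𝓘(ℝ, Cm n) ∞ (Cm n) (fun x : M => TangentSpace 𝓘(ℝ, Cm n) x)]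
  [IsRiemannianManifold 𝓘(ℝ, Cm n) M] [CompleteSpace M] [ConnectedSpace M] [NoncompactSpace M]
  [MeasurableSpace M] [BorelSpace M]
  {η T t c C : ℝ} {D : Set M} {l σ : M → ℝ} {φ : ℝ → M → ℝ} {e : Chart n M} {x : M} {z : Cm n}

/-- the conformal factor of a cutoff function -/
abbrev lo (σ : M → ℝ) : M → ℝ := fun x => -2 * Real.log (σ x)

theorem hh_lo (h : 0 < σ (e.symm z)) : FP.hh σ e z = hh (lo σ) e z := by
  rw [FP.hh, hh, BarA.exp_log h]

theorem gh_lo (h : 0 < σ (e.symm z)) : FP.gh σ φ t e z = gh (lo σ) φ t e z := by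
  rw [FP.gh, gh, hh_lo h, FP.rh, rh, hs, hs, hs, cHess_m2, smul_neg, sub_neg_eq_add]

theorem lh_lo (h : 0 < σ x) : FP.lvh n σ φ t x = lh n (lo σ) φ t x := by
  rw [FP.lvh, lh, gh_lo (by rwa [pc_symm]), hh_lo (by rwa [pc_symm])]

theorem hh_one (h : l (e.symm z) = 0) : hh l e z = hm e z := by simp [hh, h]

theorem gh_one (h : ∀ᶠ y in 𝓝 z, l (e.symm y) = 0) : gh l φ t e z = g0 φ t e z := by
  have h1 : hs l e z = 0 := (cHess_congr h).trans (cHess_const 0)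
  simp [gh, g0, rh, hh_one h.self_of_nhds, h1]

theorem lh_one (h : ∀ᶠ y in 𝓝 x, l y = 0) : lh n l φ t x = lv n φ t x := by
  rw [lh, lv, gh_one (ev_symm h), hh_one (by rw [pc_symm]; exact h.self_of_nhds), vd]

theorem toHy (a : B1a n M) (b : B1b n M) (E : EIG n) (B : Bar n η {x | 0 < σ x} (lo σ))
    (hT : 0 < T) (hc : 0 < c) (S : FP.Sol n σ T φ) (Bd : FP.Bd n σ T φ c C) :
    Hy n η {x | 0 < σ x} (lo σ) T φ := by
  have h1 : ∀ t ∈ Icc 0 T, ∀ x, 0 < σ x → |FP.lvh n σ φ t x| ≤ max (n * C) (n * -Real.log c) :=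
    fun t ht x hx => by
      have hz := mem_pc (n := n) (D := {x | 0 < σ x}) hx
      have h := Bd t ht _ (a.chart x) _ hz.1 hz.2
      exact E.abs_ld (S.pos t ht _ (a.chart x) _ hz.1 hz.2)
        (hh_lo hz.2 ▸ B.hh_pos b (a.chart x) hz) hc h.1 h.2
  refine ⟨a, b, E, B, ⟨S.sm, S.zero, fun t ht x hx => lh_lo (n := n) hx ▸ S.eq t ht x hx, c,
    max C (max (n * C) (n * -Real.log c) * T), hc, fun t ht =>
      ⟨fun x hx => le_max_of_le_right ?_, fun e he z hz => ?_⟩⟩, hT⟩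
  · have h2 := (convex_Icc 0 T).norm_image_sub_le_of_norm_hasDerivWithin_le
      (fun s hs => S.eq s hs x hx) (fun s hs => h1 s hs x hx) ⟨le_rfl, hT.le⟩ ht
    rw [S.zero x hx, sub_zero, sub_zero, Real.norm_eq_abs, Real.norm_of_nonneg ht.1] at h2
    exact h2.trans (mul_le_mul_of_nonneg_left ht.2 ((abs_nonneg _).trans (h1 t ht x hx)))
  · have h := Bd t ht e he z hz.1 hz.2
    rw [gh_lo hz.2, hh_lo hz.2] at h
    exact ⟨h.1, psd_up (B.hh_pos b he hz).posSemidef h.2 (le_max_left _ _)⟩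

variable (n M) in
/-- the inputs -/
structure In : Prop where
  a : B1a n M
  b : B1b n M
  r : B2 n M
  E : EIG n
  L : LAM n
  W : SWA n
  bk : BK n M
  mp : MP
  gr : GRON
  bar : BAR n M
  sig : SIG n M
  rho : RHO n M
  eta : ETA n M

/-- bounds at one point -/
theorem In.pt (I : In n M) (η₀ S L₀ : ℝ) : ∃ c C : ℝ, 0 < c ∧ c ≤ 1 ∧ 1 ≤ C ∧
    ∀ (η : ℝ) (D : Set M) (l : M → ℝ) (T : ℝ) (φ : ℝ → M → ℝ), Hy n η D l T φ → η ≤ η₀ →
    ∀ T', T' ≤ S → T' ≤ T → ∀ x ∈ D,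
    (∀ t ∈ Icc 0 T', -L₀ ≤ yy n l φ t x + (2 * S + 1) * lh n l φ t x) → ∀ t ∈ Icc 0 T',
      yy n l φ t x ≤ C ∧ ∀ e : Chart n M, Hc e → ∀ z ∈ e.target, e.symm z = x →
        (gh l φ t e z - (c : ℂ) • hh l e z).PosSemidef ∧
        ((C : ℂ) • hh l e z - gh l φ t e z).PosSemidef := by
  obtain ⟨C₁, h₁⟩ := I.gr n (36 * n * η₀) S L₀ (Nat.cast_nonneg n)
  obtain ⟨C, k1, k2, k3, k4⟩ : ∃ C : ℝ, 1 ≤ C ∧ C₁ ≤ C ∧ C₁ + S * C₁ + n * S ≤ C ∧
      Real.exp (36 * η₀ * (C₁ + S * C₁ + n * S)) ≤ C :=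
    ⟨max (max 1 C₁) (max _ _), le_max_of_le_left (le_max_left _ _),
      le_max_of_le_left (le_max_right _ _), le_max_of_le_right (le_max_left _ _),
      le_max_of_le_right (le_max_right _ _)⟩
  obtain ⟨c, hc, h₂⟩ := I.E.low C
  refine ⟨min c 1, C, lt_min hc one_pos, min_le_right _ _, k1,
    fun η D l T φ H hη T' s1 s2 x hx h t ht => ?_⟩
  have hI : Icc 0 T' ⊆ Icc 0 T := Icc_subset_Icc_right s2
  have h0 := H.B.pos
  obtain ⟨k5, k6⟩ := h₁ (fun s => φ s x) (fun s => lh n l φ s x) (36 * n * η) T' (by positivity)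
    (by gcongr) s1 (H.S.zero x hx) (fun s hs => (H.S.eq s (hI hs) x hx).mono hI)
    (fun s hs => H.lh_sw I.L I.W I.bk I.mp (hI hs) hx)
    (fun s hs => (h s hs).trans_eq (by rw [yy]; ring)) t ht
  have k7 : yy n l φ t x ≤ C₁ + S * C₁ + n * S := by
    have j1 : t * -lh n l φ t x ≤ S * C₁ := (mul_le_mul_of_nonneg_left (neg_le.1 (abs_le.1 k6).1)
      ht.1).trans (mul_le_mul_of_nonneg_right (ht.2.trans s1) ((abs_nonneg _).trans k6))
    have j2 : (n : ℝ) * t ≤ n * S := mul_le_mul_of_nonneg_left (ht.2.trans s1) (Nat.cast_nonneg n)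
    rw [yy]
    linarith [(abs_le.1 k5).2]
  refine ⟨k7.trans k3, fun e he z hz hzx => ?_⟩
  subst hzx
  have hp := H.B.hh_pos H.b he ⟨hz, hx⟩
  have hg := H.pos he (hI ht) ⟨hz, hx⟩
  have k8 := psd_up hp.posSemidef (H.sw I.L I.W I.bk I.mp he (hI ht) ⟨hz, hx⟩)
    ((Real.exp_le_exp.2 (mul_le_mul (by linarith) k7 (H.yy_nn I.mp (hI ht) hx)
      (by linarith))).trans k4)
  refine ⟨psd_lo hp.posSemidef (h₂ _ _ hg hp k8 ?_) (min_le_left _ _), k8⟩
  rw [Real.log_div (Calc.det_real hg).2.ne' (Calc.det_real hp).2.ne', ← H.lh_eq he (hI ht) ⟨hz, hx⟩]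
  linarith [(abs_le.1 k6).1]

/-- existence of the approximating flows -/
theorem In.ex (I : In n M) (lt : FP.LT n M) {ε : ℝ} (hε : 0 < ε) (hσ : Cut n ε σ) (hT : 0 < T) :
    ∃ φ, FP.Sol n σ T φ ∧ Hy n (4 * ε) {x | 0 < σ x} (lo σ) T φ := by
  have B := I.bar ε σ hε hσ
  obtain ⟨L₀, hL⟩ := B.low I.a I.b I.mp (fun x => (I.eta x x).elim fun s h =>
    h.elim fun _ h => ⟨s, h.1, h.2.1⟩) (S := 2 * T + 1) (by positivity)
  obtain ⟨c, C, hc, c1, C1, h⟩ := I.pt (4 * ε) T L₀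
  obtain ⟨K, hK, hDK⟩ := B.rel
  obtain ⟨φ, S, Bd⟩ := lt σ T c C hσ.sm
    (hK.of_isClosed_subset isClosed_closure (closure_minimal hDK hK.isClosed)) hT.le hc
    fun T₁ hT₁ φ c' C' hc' S Bd t ht e he z hz hx => by
      rw [gh_lo hx, hh_lo hx]
      rcases hT₁.1.eq_or_lt with h0 | h0
      · obtain rfl : t = 0 := le_antisymm (h0 ▸ ht.2) ht.1
        have h1 : hs (φ 0) e z = 0 := by
          refine (cHess_congr ?_).trans (cHess_const 0)
          filter_upwards [(cd_open e B.op).mem_nhds ⟨hz, hx⟩] with y hy using S.zero _ hy.2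
        have h2 : gh (lo σ) φ 0 e z = hh (lo σ) e z := by simp [gh, h1]
        have hp := (B.hh_pos I.b he ⟨hz, hx⟩).posSemidef
        rw [h2]
        exact ⟨psd_lo hp (C := 1) (by simpa using Matrix.PosSemidef.zero) c1,
          psd_up hp (c := 1) (by simpa using Matrix.PosSemidef.zero) C1⟩
      · have H := toHy I.a I.b I.E B h0 hc' S Bd
        exact (h _ _ _ _ _ H le_rfl T₁ hT₁.2 le_rfl _ hx (fun s hs => hL _ _ H s hs _ hx) t ht).2
          e he z hz rfl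
  exact ⟨φ, S, toHy I.a I.b I.E B hT hc S Bd⟩

theorem In.ys (I : In n M) (H : Hy n η D l T φ) {s : M → ℂ} (hs : IsSec n 1 s) (q : M)
    {S a b : ℝ} (hS : 0 ≤ S) (ha : 0 < a) (ha' : a ≤ 1 / 4)
    (h : ∀ x, s x ≠ 0 → S * Real.log (nrm n 1 s x) ≤ a * (1 + dist x q) ^ 2 + b)
    (ht : t ∈ Icc 0 T) (hx : x ∈ D) (hx' : s x ≠ 0) (hl : l x = 0) :
    S * Real.log (nrm n 1 s x) ≤
      yy n l φ t x + S * lh n l φ t x + 6 * a * (1 + dist x q) ^ 2 + b := by
  obtain ⟨K, ϱ, -, R⟩ := I.rho q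
  have key := H.ys I.mp I.r hs (ϱ := fun x => 2 * a * (ϱ x + 2)) (m := -b)
    (fun e he z hz => contDiffAt_const.mul ((R.sm e he z hz).add contDiffAt_const))
    (fun e he z hz => by
      have h1 := (R.sm e he z hz).of_le Calc.two_le
      have h2 := psd_smul (R.hess e he z hz) (c := 2 * a) (by positivity)
      rw [smul_sub, smul_smul, ← Complex.ofReal_ofNat 2, ← Complex.ofReal_mul] at h2
      rw [cHess_const_mul _ (h1.add contDiffAt_const), cHess_add h1 contDiffAt_const, cHess_const,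
        add_zero]
      simpa using psd_up (C := 1) (I.b.wpos e he z hz).posSemidef h2 (by linarith))
    hS (fun x hx => by
      have h1 := mul_le_mul_of_nonneg_left (abs_le.1 (R.near x)).1 ha.le
      nlinarith [h x hx, mul_nonneg ha.le (sq_nonneg (1 - dist x q))]) ht hx hx'
  have h1 := mul_le_mul_of_nonneg_left (abs_le.1 (R.near x)).2 ha.le
  have h2 := mul_nonneg ha.le (dist_nonneg (x := x) (y := q))
  have h3 := mul_nonneg ha.le (sq_nonneg (dist x q))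
  rw [hl] at key
  nlinarith

end Vale.Agent.P253W.FG
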