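import Vale.Agent.P253W.FG.Apr

/-!
# P253W, block FG: the limit
-/

open scoped Manifold ContDiff Bundle ENNReal Topology ComplexConjugate ComplexOrder Matrix
open Bundle IsManifold MeasureTheory Set Metric Filter Vale.Agent.P253.Mfd Vale.Agent.P253Z
open Vale.Agent.P272.K (Cm dz dzb cHess jacM Chart)
open Vale.Agent.P272.K.C2

set_option linter.unusedSectionVars false

noncomputable section

namespace Vale.Agent.P253W.FG

variable {n : ℕ} {M : Type} [MetricSpace M] [ChartedSpace (Cm n) M]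
  [IsManifold 𝓘(ℂ, Cm n) 1 M] [IsManifold 𝓘(ℝ, Cm n) ∞ M]
  [RiemannianBundle (fun x : M => TangentSpace 𝓘(ℝ, Cm n) x)]
  [IsContMDiffRiemannianBundle 𝓘(ℝ, Cm n) ∞ (Cm n) (fun x : M => TangentSpace 𝓘(ℝ, Cm n) x)]
  [IsRiemannianManifold 𝓘(ℝ, Cm n) M] [CompleteSpace M] [ConnectedSpace M] [NoncompactSpace M]
  [MeasurableSpace M] [BorelSpace M]

theorem psd_lim (b : B1b n M) {f : Filter ℕ} [f.NeBot] {A : ℕ → Mt n} {B : Mt n}
    (hB : B.IsHermitian) (h : Tendsto A f (𝓝 B)) (hA : ∀ᶠ k in f, (A k).PosSemidef) :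
    B.PosSemidef := by
  refine (b.psd B hB).2 fun v => ge_of_tendsto ((Continuous.tendsto
    (f := fun A : Mt n => (∑ j, ∑ k, A j k * (v j * conj (v k))).re) (by fun_prop) B).comp h) ?_
  filter_upwards [hA] with k hk using (b.psd _ hk.isHermitian).1 hk v

theorem In.krf (I : In n M) (lt : FP.LT n M) (lim : FP.LIM n M) :
    ∃ φ : ℝ → M → ℝ, ∀ q, KRF n q φ := by
  obtain ⟨o⟩ : Nonempty M := inferInstance
  have hε : ∀ k : ℕ, (0 : ℝ) < 1 / (k + 1) := fun k => by positivity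
  have hε1 : ∀ k : ℕ, 4 * (1 / (k + 1) : ℝ) ≤ 4 := fun k =>
    mul_le_of_le_one_right (by norm_num) ((div_le_one (by positivity)).2 (by simp))
  choose σ hσ h1 using fun k : ℕ => I.sig o _ k (hε k)
  choose φ S H using fun k : ℕ => I.ex lt (T := k + 1) (hε k) (hσ k) (by positivity)
  have hT : Tendsto (fun k : ℕ => (k + 1 : ℝ)) atTop atTop :=
    tendsto_atTop_add_const_right _ _ tendsto_natCast_atTop_atTop
  have ev : ∀ x : M, ∀ᶠ k in atTop, ∀ y, dist y o < dist x o + 1 → σ k y = 1 := fun x =>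
    (hT.eventually_ge_atTop (dist x o + 2)).mono fun k hk y hy => h1 k y (by linarith)
  have hV : ∀ x : M, IsOpen {y | dist y o < dist x o + 1} := fun x =>
    isOpen_lt (by fun_prop) continuous_const
  have l0 : ∀ k y, σ k y = 1 → lo (σ k) y = 0 := fun k y h => by simp [lo, h]
  have loc : ∀ (x : M) (T : ℝ), ∃ U, IsOpen U ∧ x ∈ U ∧ ∃ c C : ℝ, 0 < c ∧ ∀ᶠ k in atTop,
      (∀ y ∈ U, σ k y = 1) ∧ ∀ t ∈ Icc 0 T, ∀ e : Chart n M, Hc e → ∀ z ∈ e.target,
        e.symm z ∈ U → (g0 (φ k) t e z - (c : ℂ) • hm e z).PosSemidef ∧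
        ((C : ℂ) • hm e z - g0 (φ k) t e z).PosSemidef ∧
        ((Real.exp (36 * (4 * (1 / (k + 1))) * C) : ℂ) • hm e z - g0 (φ k) t e z).PosSemidef := by
    intro x T
    obtain ⟨s, C₀, hs, hx, hb⟩ := I.eta o x
    obtain ⟨c, C, hc, -, -, h⟩ := I.pt 4 T (6 * (1 / 4) * (2 + dist x o) ^ 2 +
      ((2 * T + 1) * C₀) ^ 2 - (2 * T + 1) * Real.log (nrm n 1 s x / 2))
    have hN := nrm_pos I.a I.b hx
    have hU := (hV x).inter (isOpen_lt (continuous_const (y := nrm n 1 s x / 2)) (nrm_cont I.b hs))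
    refine ⟨_, hU, ⟨lt_add_one (dist x o), half_lt_self hN⟩, c, C, hc, ?_⟩
    filter_upwards [ev x, hT.eventually_ge_atTop T] with k k1 k2
    refine ⟨fun y hy => k1 y hy.1, fun t ht e he z hz hy => ?_⟩
    have hD : 0 < σ k (e.symm z) := by rw [k1 _ hy.1]; exact one_pos
    have hS : 0 ≤ 2 * T + 1 := by linarith [ht.1, ht.2]
    have ht' : t ∈ Icc (0 : ℝ) (k + 1) := ⟨ht.1, ht.2.trans k2⟩
    have hl : ∀ᶠ y in 𝓝 z, lo (σ k) (e.symm y) = 0 :=
      ((e.continuousAt_symm hz).eventually ((hV x).mem_nhds hy.1)).mono fun y h => l0 _ _ (k1 _ h)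
    obtain ⟨k3, k4⟩ := h _ _ _ _ _ (H k) (hε1 k) T le_rfl k2 _ hD (fun t ht => by
      have j1 := I.ys (H k) hs o hS (a := 1 / 4) (b := ((2 * T + 1) * C₀) ^ 2) (by norm_num) le_rfl
        (fun y hy => by
          have := mul_le_mul_of_nonneg_left
            ((Real.log_le_iff_le_exp (nrm_pos I.a I.b hy)).2 (hb y)) hS
          nlinarith [sq_nonneg ((1 + dist y o) / 2 - (2 * T + 1) * C₀)])
        ⟨ht.1, ht.2.trans k2⟩ hD (ne_of_nrm ((half_pos hN).trans hy.2).ne') hl.self_of_nhds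
      have j2 := mul_le_mul_of_nonneg_left (Real.log_le_log (half_pos hN) hy.2.le) hS
      have j3 : (1 + dist (e.symm z) o) ^ 2 ≤ (2 + dist x o) ^ 2 :=
        pow_le_pow_left₀ (by positivity) (by linarith [show dist _ o < _ from hy.1]) 2
      linarith) t ht
    have k5 := k4 e he z hz rfl
    have k6 := (H k).sw I.L I.W I.bk I.mp he ht' ⟨hz, hD⟩
    rw [gh_one hl, hh_one hl.self_of_nhds] at k5 k6
    exact ⟨k5.1, k5.2, psd_up (I.b.wpos e he z hz).posSemidef k6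
      (Real.exp_le_exp.2 (mul_le_mul_of_nonneg_left k3 (by positivity)))⟩
  obtain ⟨𝒰, ψ, hU, sm, zero, pos, eq, c1, c2⟩ := lim σ _ φ (fun k => (hσ k).sm) S hT fun x T => by
    obtain ⟨U, u1, u2, c, C, hc, h⟩ := loc x T
    exact ⟨U, u1.mem_nhds u2, c, C, hc, h.mono fun k hk => ⟨hk.1, fun t ht e he z hz hy =>
      ⟨(hk.2 t ht e he z hz hy).1, (hk.2 t ht e he z hz hy).2.1⟩⟩⟩
  have e0 : Tendsto (fun k : ℕ => 4 * (1 / (k + 1) : ℝ)) 𝒰 (𝓝 0) := by
    simpa using (tendsto_one_div_add_atTop_nhds_zero_nat.const_mul (4 : ℝ)).mono_left hU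
  have c3 : ∀ t, 0 ≤ t → ∀ e : Chart n M, Hc e → ∀ z ∈ e.target,
      Tendsto (fun k => g0 (φ k) t e z) 𝒰 (𝓝 (g0 ψ t e z)) := fun t ht e he z hz =>
    tendsto_const_nhds.add (tendsto_pi_nhds.2 fun i => tendsto_pi_nhds.2 (c2 t ht e he z hz i))
  have c4 : ∀ t, 0 ≤ t → ∀ x,
      Tendsto (fun k => lh n (lo (σ k)) (φ k) t x) 𝒰 (𝓝 (lv n ψ t x)) := fun t ht x => by
    have hz := mem_chart_target (Cm n) x
    refine ((((Continuous.tendsto (f := fun A : Mt n => A.det.re) (by fun_prop) _).comp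
      (c3 t ht _ (I.a.chart x) _ hz)).div_const _).log (div_pos (Calc.det_real
        (pos t ht _ (I.a.chart x) _ hz)).2 (I.b.vd_pos _ (I.a.chart x) _ hz)).ne').congr' ?_
    filter_upwards [(ev x).filter_mono hU] with k hk
    exact (lh_one (Eventually.mono ((hV x).mem_nhds (lt_add_one (dist x o)))
      fun y h => l0 _ _ (hk _ h))).symm
  have ev2 : ∀ (x : M) (t : ℝ), ∀ᶠ k : ℕ in 𝒰, σ k x = 1 ∧ t ≤ k + 1 := fun x t =>
    (((ev x).mono fun k hk => hk x (lt_add_one _)).and (hT.eventually_ge_atTop t)).filter_mono hU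
  refine ⟨ψ, fun q => ⟨sm, zero, pos, fun t ht e he z hz => ?_, eq, fun x s hs t ht hst => ?_,
    fun s hs S a b hS ha ha' h t ht x hx => ?_⟩⟩
  · obtain ⟨U, -, u2, c, C, -, h⟩ := loc (e.symm z) t
    refine psd_lim I.b (f := 𝒰) ((I.b.wpos e he z hz).isHermitian.sub
      (pos t ht e he z hz).isHermitian) ?_
      ((h.filter_mono hU).mono fun k hk => (hk.2 t ⟨ht, le_rfl⟩ e he z hz u2).2.2)
    have := ((((e0.const_mul 36).mul_const C).rexp.ofReal).smul_const (hm e z)).sub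
      (c3 t ht e he z hz)
    simpa using this
  · have := le_of_tendsto_of_tendsto ((c4 t ht x).sub ((e0.const_mul ((n : ℝ) ^ 2)).mul_const t))
      ((c4 s hs x).sub ((e0.const_mul ((n : ℝ) ^ 2)).mul_const s)) ((ev2 x t).mono fun k hk =>
        (H k).anti I.r I.mp (x := x) (by simp [hk.1]) ⟨hs, hst.trans hk.2⟩ ⟨ht, hk.2⟩ hst)
    simpa using this
  · have := ge_of_tendsto ((((((c1 t ht x).sub ((c4 t ht x).const_mul t)).add_const (n * t)).add
      ((c4 t ht x).const_mul S)).add_const (6 * a * (1 + dist x q) ^ 2)).add_const b)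
      ((ev2 x t).mono fun k hk =>
        I.ys (H k) hs q hS.le ha ha' h ⟨ht, hk.2⟩ (by simp [hk.1]) hx (l0 _ _ hk.1))
    linarith

end Vale.Agent.P253W.FG
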