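import Vale.Agent.P253W.FG.Defs
import Vale.Agent.P253W.Flow

/-!
# P253W, block FG: the Chern-Ricci flow of `h = e^l ω₀` on a domain `D`
-/

open scoped Manifold ContDiff Bundle ENNReal Topology ComplexConjugate ComplexOrder Matrix
open Bundle IsManifold MeasureTheory Set Metric Filter Vale.Agent.P253.Mfd Vale.Agent.P253Z
open Vale.Agent.P272.K (Cm dz dzb cHess jacM Chart)

noncomputable section

namespace Vale.Agent.P253W.FG

variable {n : ℕ} {M : Type} [MetricSpace M] [ChartedSpace (Cm n) M]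

/-- the part of the chart over `D` -/
def cd (e : Chart n M) (D : Set M) : Set (Cm n) := e.target ∩ e.symm ⁻¹' D

variable [RiemannianBundle (fun x : M => TangentSpace 𝓘(ℝ, Cm n) x)]

/-- the metric `h = e^l ω₀` -/
def hh (l : M → ℝ) (e : Chart n M) (z : Cm n) : Mt n := (Real.exp (l (e.symm z)) : ℂ) • hm e z

/-- the Chern-Ricci form of `h` -/
def rh (l : M → ℝ) (e : Chart n M) (z : Cm n) : Mt n := ric e z - (n : ℂ) • hs l e z

/-- the metric `h - t Ric(h) + i∂∂̄φ_t` -/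
def gh (l : M → ℝ) (φ : ℝ → M → ℝ) (t : ℝ) (e : Chart n M) (z : Cm n) : Mt n :=
  hh l e z - (t : ℂ) • rh l e z + hs (φ t) e z

variable (n) in
/-- `log (ω_t^n / h^n)` -/
def lh (l : M → ℝ) (φ : ℝ → M → ℝ) (t : ℝ) (x : M) : ℝ :=
  Real.log ((gh l φ t (pc n x) (pc n x x)).det.re / (hh l (pc n x) (pc n x x)).det.re)

variable (n) in
/-- `Y = φ - t φ_t + n t` -/
def yy (l : M → ℝ) (φ : ℝ → M → ℝ) (t : ℝ) (x : M) : ℝ := φ t x - t * lh n l φ t x + n * t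

variable (n) in
/-- the conformal factor -/
structure Bar (η : ℝ) (D : Set M) (l : M → ℝ) : Prop where
  pos : 0 < η
  op : IsOpen D
  sm : ∀ e : Chart n M, Hc e → ∀ z ∈ cd e D, ContDiffAt ℝ ∞ (fun y => l (e.symm y)) z
  nn : ∀ x ∈ D, 0 ≤ l x
  cpt : ∀ c, IsCompact {x | x ∈ D ∧ l x ≤ c}
  rel : ∃ K, IsCompact K ∧ D ⊆ K
  hess : ∀ e : Chart n M, Hc e → ∀ z ∈ cd e D, ((η : ℂ) • hh l e z - hs l e z).PosSemidef
  grad : ∀ e : Chart n M, Hc e → ∀ z ∈ cd e D,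
    ((η : ℂ) • hh l e z - gg (fun y => l (e.symm y)) z).PosSemidef
  far : ∀ S : ℝ, 0 ≤ S → ∃ c : ℝ, ∀ e : Chart n M, Hc e → ∀ z ∈ cd e D, c ≤ l (e.symm z) →
    (hh l e z - (S : ℂ) • rh l e z).PosSemidef

variable (n) in
/-- bounds for the potential and the metric on `[0, T] × K` -/
def Bnd (l : M → ℝ) (φ : ℝ → M → ℝ) (T : ℝ) (K : Set M) (c C : ℝ) : Prop :=
  ∀ t ∈ Icc 0 T, (∀ x ∈ K, |φ t x| ≤ C) ∧ ∀ e : Chart n M, Hc e → ∀ z ∈ cd e K,
    (gh l φ t e z - (c : ℂ) • hh l e z).PosSemidef ∧ ((C : ℂ) • hh l e z - gh l φ t e z).PosSemidef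

variable (n) in
/-- a smooth solution on `[0, T] × D` which is uniformly equivalent to `h` -/
structure Sol (D : Set M) (l : M → ℝ) (T : ℝ) (φ : ℝ → M → ℝ) : Prop where
  sm : ∀ e : Chart n M, Hc e → ContDiffOn ℝ ∞ (ch e φ) (Icc 0 T ×ˢ cd e D)
  zero : ∀ x ∈ D, φ 0 x = 0
  eq : ∀ t ∈ Icc 0 T, ∀ x ∈ D, HasDerivWithinAt (fun s => φ s x) (lh n l φ t x) (Icc 0 T) t
  bd : ∃ c C : ℝ, 0 < c ∧ Bnd n l φ T D c C

variable (n M) in
/-- **BAR** -/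
def BAR : Prop := ∀ (ε : ℝ) (σ : M → ℝ), 0 < ε → Cut n ε σ →
  Bar n (4 * ε) {x | 0 < σ x} (fun x => -2 * Real.log (σ x))

end Vale.Agent.P253W.FG
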