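import Vale.Agent.P253W.FG.Ev

/-!
# P253W, block FG: supersolutions
-/

open scoped Manifold ContDiff Bundle ENNReal Topology ComplexConjugate ComplexOrder Matrix
open Bundle IsManifold MeasureTheory Set Metric Filter Vale.Agent.P253.Mfd Vale.Agent.P253Z
open Vale.Agent.P272.K (Cm dz dzb cHess jacM Chart)
open Vale.Agent.P272.K.C2

set_option linter.unusedSectionVars false

noncomputable section

namespace Vale.Agent.P253W.FG

variable {n : ℕ} {M : Type} [MetricSpace M] [ChartedSpace (Cm n) M]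
  [IsManifold 𝓘(ℂ, Cm n) 1 M] [IsManifold 𝓘(ℝ, Cm n) ∞ M]
  [RiemannianBundle (fun x : M => TangentSpace 𝓘(ℝ, Cm n) x)]
  [IsContMDiffRiemannianBundle 𝓘(ℝ, Cm n) ∞ (Cm n) (fun x : M => TangentSpace 𝓘(ℝ, Cm n) x)]
  [IsRiemannianManifold 𝓘(ℝ, Cm n) M] [CompleteSpace M] [ConnectedSpace M] [NoncompactSpace M]
  [MeasurableSpace M] [BorelSpace M]
  {η T t : ℝ} {D D' : Set M} {l l' : M → ℝ} {φ f : ℝ → M → ℝ} {e : Chart n M} {x : M} {z : Cm n}

theorem ev_symm {s : Set M} (hs : s ∈ 𝓝 x) : ∀ᶠ y in 𝓝 (pc n x x), (pc n x).symm y ∈ s := by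
  refine ((pc n x).continuousAt_symm (mem_chart_target _ x)).eventually ?_
  rwa [pc_symm]

/-- the conditions at a minimum for a function which touches from above -/
theorem loc_test {δ κ F' : ℝ} {F : ℝ → Cm n → ℝ} (ht : t ∈ Ioo 0 T) (hD : D' ∈ 𝓝 x)
    (h : ∀ s ∈ Ico 0 T, ∀ y ∈ D',
      f t x + δ * l' x + κ / (T - t) ≤ f s y + δ * l' y + κ / (T - s))
    (h1 : ∀ᶠ s in 𝓝 t, f s x ≤ F s (pc n x x))
    (h2 : ∀ᶠ y in 𝓝 (pc n x x), f t ((pc n x).symm y) ≤ F t y) (h3 : F t (pc n x x) = f t x)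
    (h4 : HasDerivAt (fun s => F s (pc n x x)) F' t) (h5 : ContDiffAt ℝ 2 (F t) (pc n x x))
    (h6 : ContDiffAt ℝ 2 (fun y => l' ((pc n x).symm y)) (pc n x x)) :
    F' = -(κ / (T - t) ^ 2) ∧
      (cHess (F t) (pc n x x) + (δ : ℂ) • hs l' (pc n x) (pc n x x)).PosSemidef ∧
      ∀ j, dz j (fun y => (F t y : ℂ)) (pc n x x) =
        -(δ * dz j (fun y => (l' ((pc n x).symm y) : ℂ)) (pc n x x)) := by
  have hT : T - t ≠ 0 := (sub_pos.2 ht.2).ne'
  have hx := mem_of_mem_nhds hD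
  have e1 : IsLocalMin (fun s => F s (pc n x x) + κ / (T - s)) t := by
    filter_upwards [h1, Ioo_mem_nhds ht.1 ht.2] with s hs hs'
    linarith [h s (Ioo_subset_Ico_self hs') x hx]
  have e2 := e1.hasDerivAt_eq_zero
    (h4.add ((hasDerivAt_const t κ).div ((hasDerivAt_id t).const_sub T) hT))
  have e3 : IsLocalMin (fun y => F t y + δ * l' ((pc n x).symm y)) (pc n x x) := by
    filter_upwards [h2, ev_symm (n := n) hD] with y hy hy'
    have := h t (Ioo_subset_Ico_self ht) _ hy'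
    rw [pc_symm]
    linarith
  obtain ⟨e4, e5⟩ := Calc.min (h5.add (contDiffAt_const.mul h6)) e3
  refine ⟨?_, ?_, fun j => ?_⟩
  · simp only [zero_mul, mul_neg, mul_one, sub_neg_eq_add, zero_add] at e2
    linarith
  · rwa [cHess_add h5 (contDiffAt_const.mul h6), cHess_const_mul _ h6] at e4
  · have e6 := e5 j
    have d5 := differentiableAt_ofReal (h5.differentiableAt (by simp))
    have d6 := differentiableAt_ofReal (h6.differentiableAt (by simp))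
    simp only [Complex.ofReal_add, Complex.ofReal_mul] at e6
    rw [dz_add _ d5 (d6.const_mul _), dz_const_mul _ _ d6] at e6
    exact eq_neg_of_add_eq_zero_left e6

namespace Hy

variable (H : Hy n η D l T φ)
include H

theorem y_bd : ∃ y₀ : ℝ, 0 ≤ y₀ ∧ ∀ t ∈ Icc 0 T, ∀ e : Chart n M, Hc e → ∀ z ∈ cd e D,
    tg (gh l φ t e z) (hh l e z) ≤ y₀ := by
  obtain ⟨c, C, hc, h⟩ := H.S.bd
  refine ⟨n / c, by positivity, fun t ht e he z hz => ?_⟩
  have h1 := H.E.mono _ _ _ (H.pos he ht hz) ((h t ht).2 e he z hz).1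
  rw [tg_smul, H.E.self _ (H.pos he ht hz)] at h1
  rw [le_div_iff₀ hc]
  linarith

theorem y_nn (he : Hc e) (ht : t ∈ Icc 0 T) (hz : z ∈ cd e D) :
    0 ≤ tg (gh l φ t e z) (hh l e z) :=
  H.E.tg_nn (H.pos he ht hz) (H.B.hh_pos H.b he hz).posSemidef

theorem lh_le {c : ℝ} (ht : t ∈ Icc 0 T) (hx : x ∈ D)
    (h : ((Real.exp c : ℂ) • hh l (pc n x) (pc n x x) - gh l φ t (pc n x) (pc n x x)).PosSemidef) :
    lh n l φ t x ≤ n * c :=
  H.E.up _ _ c (H.pos (H.a.chart x) ht (mem_pc hx)) (H.B.hh_pos H.b (H.a.chart x) (mem_pc hx)) h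

theorem lh_bd : ∃ C : ℝ, ∀ t ∈ Icc 0 T, ∀ x ∈ D, |lh n l φ t x| ≤ C := by
  obtain ⟨c, C, hc, h⟩ := H.S.bd
  refine ⟨max (n * C) (n * -Real.log c), fun t ht x hx => abs_le.2 ⟨?_, ?_⟩⟩
  · have h1 := H.pos (H.a.chart x) ht (mem_pc hx)
    have h2 := H.B.hh_pos H.b (H.a.chart x) (mem_pc hx)
    have h3 := psd_smul ((h t ht).2 _ (H.a.chart x) _ (mem_pc hx)).1 (inv_pos.2 hc).le
    rw [smul_sub, smul_smul, ← Complex.ofReal_mul, inv_mul_cancel₀ hc.ne', Complex.ofReal_one,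
      one_smul] at h3
    have h4 := H.E.up _ _ (-Real.log c) h2 h1 (by rwa [Real.exp_neg, Real.exp_log hc])
    rw [← inv_div, Real.log_inv] at h4
    have h5 := le_max_right (n * C) (n * -Real.log c)
    rw [lh]
    linarith
  · refine (H.lh_le ht hx ?_).trans (le_max_left _ _)
    have h2 := H.B.hh_pos H.b (H.a.chart x) (mem_pc hx)
    have h3 := (psd_smul h2.posSemidef (c := Real.exp C - C)
      (by linarith [Real.add_one_le_exp C])).add ((h t ht).2 _ (H.a.chart x) _ (mem_pc hx)).2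
    rwa [Complex.ofReal_sub, sub_smul, sub_add_sub_cancel] at h3

theorem yy_bd : ∃ C : ℝ, ∀ t ∈ Icc 0 T, ∀ x ∈ D, |yy n l φ t x| ≤ C := by
  obtain ⟨c, C, hc, h⟩ := H.S.bd
  obtain ⟨C', h'⟩ := H.lh_bd
  refine ⟨C + T * C' + n * T, fun t ht x hx => ?_⟩
  have h1 := abs_le.1 ((h t ht).1 x hx)
  have h2 := h' t ht x hx
  have h3 : |t * lh n l φ t x| ≤ T * C' := by
    rw [abs_mul, abs_of_nonneg ht.1]
    exact mul_le_mul ht.2 h2 (abs_nonneg _) H.T0.le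
  have h4 := abs_le.1 h3
  have h5 : (n : ℝ) * t ≤ n * T := mul_le_mul_of_nonneg_left ht.2 (Nat.cast_nonneg n)
  have h6 : 0 ≤ (n : ℝ) * t := mul_nonneg (Nat.cast_nonneg n) ht.1
  rw [yy, abs_le]
  constructor <;> linarith [h1.1, h1.2, h4.1, h4.2]

theorem yy_cont : ContinuousOn (fun q : ℝ × M => yy n l φ q.1 q.2) (Icc 0 T ×ˢ D) :=
  (H.φ_cont.sub (continuousOn_fst.mul H.lh_cont)).add (continuousOn_const.mul continuousOn_fst)

theorem yy_zero (hx : x ∈ D) : yy n l φ 0 x = 0 := by simp [yy, H.S.zero x hx]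

theorem yy_sl (he : Hc e) (ht : t ∈ Icc 0 T) (hz : z ∈ cd e D) :
    ContDiffAt ℝ ∞ (fun y => yy n l φ t (e.symm y)) z :=
  ((H.φ_sm he ht hz).sub (contDiffAt_const.mul (H.lh_sl he ht hz))).add contDiffAt_const

theorem hs_lh (t : ℝ) (e : Chart n M) (z : Cm n) :
    hs (lh n l φ t) e z = gd n l φ t e z + rh l e z := by
  rw [gd]; abel

theorem hs_yy (he : Hc e) (ht : t ∈ Icc 0 T) (hz : z ∈ cd e D) :
    hs (yy n l φ t) e z = gh l φ t e z - hh l e z - (t : ℂ) • gd n l φ t e z := by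
  have h1 := (H.φ_sm he ht hz).of_le Calc.two_le
  have h2 := (H.lh_sl he ht hz).of_le Calc.two_le
  have h3 : hs (yy n l φ t) e z = hs (φ t) e z - (t : ℂ) • hs (lh n l φ t) e z := by
    simp only [hs, yy]
    rw [cHess_add (h1.sub (contDiffAt_const.mul h2)) contDiffAt_const, cHess_const, add_zero,
      cHess_sub h1 (contDiffAt_const.mul h2), cHess_const_mul _ h2]
  rw [h3, H.hs_lh, gh, smul_add]
  abel

theorem dyy (ht : t ∈ Ioo 0 T) (hx : x ∈ D) :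
    HasDerivAt (fun s => yy n l φ s x) (n - t * ww n l φ t x) t := by
  refine HasDerivAt.congr_deriv (((H.dφ ht hx).sub ((hasDerivAt_id t).mul (H.dlh ht hx))).add
    ((hasDerivAt_id t).const_mul (n : ℝ))) ?_
  simp only [id]
  ring

theorem tg_yy (ht : t ∈ Icc 0 T) (hx : x ∈ D) :
    tg (gh l φ t (pc n x) (pc n x x)) (hs (yy n l φ t) (pc n x) (pc n x x)) =
      n - tg (gh l φ t (pc n x) (pc n x x)) (hh l (pc n x) (pc n x x)) - t * ww n l φ t x := by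
  rw [H.hs_yy (H.a.chart x) ht (mem_pc hx), tg_sub, tg_sub, tg_smul,
    H.E.self _ (H.pos (H.a.chart x) ht (mem_pc hx)), ww]

/-- the minimum principle for `Y + S φ_t - v` -/
theorem sup (mp : MP) {v : M → ℝ} {S η' m : ℝ} (hD : D' ⊆ D) (ho : IsOpen D')
    (c1 : ContinuousOn l' D') (c2 : ∀ x ∈ D', 0 ≤ l' x)
    (c3 : ∀ c, IsCompact {x | x ∈ D' ∧ l' x ≤ c}) (hη : 0 ≤ η')
    (c4 : ∀ x ∈ D', ContDiffAt ℝ 2 (fun y => l' ((pc n x).symm y)) (pc n x x) ∧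
      ((η' : ℂ) • hh l (pc n x) (pc n x x) - hs l' (pc n x) (pc n x x)).PosSemidef)
    (hv : ContinuousOn v D') (h0 : ∀ x ∈ D', m ≤ -v x)
    (h1 : ∀ x ∈ D', ∃ v' : Cm n → ℝ, ContDiffAt ℝ 2 v' (pc n x x) ∧ v' (pc n x x) = v x ∧
      (∀ᶠ y in 𝓝 (pc n x x), v' y ≤ v ((pc n x).symm y)) ∧
      (hh l (pc n x) (pc n x x) - (S : ℂ) • rh l (pc n x) (pc n x x) +
        cHess v' (pc n x x)).PosSemidef) :
    ∀ t ∈ Icc 0 T, ∀ x ∈ D', m ≤ yy n l φ t x + S * lh n l φ t x - v x := by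
  obtain ⟨y₀, hy₀, hy⟩ := H.y_bd
  obtain ⟨C₁, hC₁⟩ := H.yy_bd
  obtain ⟨C₂, hC₂⟩ := H.lh_bd
  have hsub : Icc (0 : ℝ) T ×ˢ D' ⊆ Icc 0 T ×ˢ D := prod_mono subset_rfl hD
  have T0 := H.T0
  refine mp M D' T m l' (fun t x => yy n l φ t x + S * lh n l φ t x - v x) T0 c1 c2 c3
    (((H.yy_cont.mono hsub).add (continuousOn_const.mul (H.lh_cont.mono hsub))).sub
      (hv.comp continuousOn_snd fun q hq => hq.2))
    ⟨C₁ + |S| * C₂ - m, fun t ht x hx => ?_⟩ (fun x hx => ?_) fun κ hκ =>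
      ⟨κ / T ^ 2 / (η' * y₀ + 1), by positivity, fun δ hδ t ht x hx hmin => ?_⟩
  · have h2 := abs_le.1 (hC₁ t ht x (hD hx))
    have h3 : |S * lh n l φ t x| ≤ |S| * C₂ := by
      rw [abs_mul]
      exact mul_le_mul_of_nonneg_left (hC₂ t ht x (hD hx)) (abs_nonneg _)
    linarith [h0 x hx, h2.1, (abs_le.1 h3).1]
  · simp only [H.yy_zero (hD hx), H.lh_zero (hD hx)]
    linarith [h0 x hx]
  exfalso
  obtain ⟨v', v1, v2, v3, v4⟩ := h1 x hx
  have ht' := Ioo_subset_Icc_self ht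
  have hc := H.a.chart x
  have hz := mem_pc (n := n) (hD hx)
  have s1 := (H.yy_sl hc ht' hz).of_le Calc.two_le
  have s2 := (H.lh_sl hc ht' hz).of_le Calc.two_le
  obtain ⟨k1, k2, -⟩ := loc_test (F := fun s y => yy n l φ s ((pc n x).symm y) +
      S * lh n l φ s ((pc n x).symm y) - v' y) (F' := n - t * ww n l φ t x + S * ww n l φ t x)
    ht (ho.mem_nhds hx) hmin (Eventually.of_forall fun s => by rw [pc_symm, v2])
    (v3.mono fun y hy => by linarith) (by rw [pc_symm, v2])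
    (by
      simp only [pc_symm]
      exact ((H.dyy ht (hD hx)).add ((H.dlh ht (hD hx)).const_mul S)).sub_const _)
    ((s1.add (contDiffAt_const.mul s2)).sub v1) (c4 x hx).1
  rw [cHess_sub (s1.add (contDiffAt_const.mul s2)) v1, cHess_add s1 (contDiffAt_const.mul s2),
    cHess_const_mul _ s2] at k2
  have hp := H.pos hc ht' hz
  have k3 := H.E.tg_nn hp k2
  have k4 := H.E.tg_nn hp v4
  have k5 := H.E.tg_nn hp (c4 x hx).2
  have k6 := H.tg_yy ht' (hD hx)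
  have k7 := congrArg (tg (gh l φ t (pc n x) (pc n x x))) (H.hs_lh t (pc n x) (pc n x x))
  simp only [tg_add, tg_sub, tg_smul] at k3 k4 k5 k7
  change 0 ≤ tg _ (hs (yy n l φ t) _ _) + S * tg _ (hs (lh n l φ t) _ _) - _ + _ at k3
  rw [k6, k7, ← ww] at k3
  have k8 := hy t ht' _ hc _ hz
  have k9 : κ / T ^ 2 ≤ κ / (T - t) ^ 2 :=
    div_le_div_of_nonneg_left hκ.le (pow_pos (sub_pos.2 ht.2) 2)
      (pow_le_pow_left₀ (sub_pos.2 ht.2).le (by linarith [ht.1]) 2)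
  have k10 := (le_div_iff₀ (by positivity)).1 hδ.2
  have k11 : δ * tg (gh l φ t (pc n x) (pc n x x)) (hs l' (pc n x) (pc n x x)) ≤ δ * (η' * y₀) :=
    mul_le_mul_of_nonneg_left (by nlinarith) hδ.1.le
  nlinarith [hδ.1]

theorem bar4 : ∀ x ∈ D, ContDiffAt ℝ 2 (fun y => l ((pc n x).symm y)) (pc n x x) ∧
    ((η : ℂ) • hh l (pc n x) (pc n x x) - hs l (pc n x) (pc n x x)).PosSemidef := fun x hx =>
  ⟨(H.B.sm _ (H.a.chart x) _ (mem_pc hx)).of_le Calc.two_le,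
    H.B.hess _ (H.a.chart x) _ (mem_pc hx)⟩

theorem yy_nn (mp : MP) (ht : t ∈ Icc 0 T) (hx : x ∈ D) : 0 ≤ yy n l φ t x := by
  have := H.sup mp (v := fun _ => 0) (S := 0) (m := 0) subset_rfl H.B.op (H.B.cont H.a) H.B.nn
    H.B.cpt H.B.pos.le H.bar4 continuousOn_const (fun _ _ => by simp) (fun x hx =>
      ⟨fun _ => 0, contDiffAt_const, rfl, Eventually.of_forall fun _ => le_rfl, by
        simpa [cHess_const] using (H.B.hh_pos H.b (H.a.chart x) (mem_pc hx)).posSemidef⟩) t ht x hx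
  simpa using this

end Hy

end Vale.Agent.P253W.FG
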