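import Vale.Agent.P272.K.C2.ChernLu

/-!
# P253W, row FG.SWA: the calculus and the matrix identity
-/

open scoped ContDiff Topology ComplexConjugate ComplexOrder Matrix
open Filter Matrix
open Vale.Agent.P272.K Vale.Agent.P272.K.C2

noncomputable section

namespace Vale.Agent.P253W.FG.Swa

variable {n : ℕ}

/-- matrices -/
abbrev Mx (n : ℕ) : Type := Matrix (Fin n) (Fin n) ℂ

/-! ### affine holomorphic fields -/

/-- the field `ξ₀ - ∑ (y_k - z_k) Γ_k` -/
def xi (ξ₀ z : Cm n) (Γ : Mx n) (y : Cm n) : Cm n := ξ₀ - (y - z) ᵥ* Γ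

theorem xi_self (ξ₀ z : Cm n) (Γ : Mx n) : xi ξ₀ z Γ z = ξ₀ := by simp [xi]

theorem xi_sm (ξ₀ z : Cm n) (Γ : Mx n) : ContDiff ℝ ∞ (xi ξ₀ z Γ) := by
  refine contDiff_pi.2 fun i => ?_
  simp only [xi, Pi.sub_apply, vecMul, dotProduct]
  fun_prop

theorem xi_fd (ξ₀ z : Cm n) (Γ : Mx n) (i : Fin n) (y v : Cm n) :
    fderiv ℝ (fun y => xi ξ₀ z Γ y i) y v = -(v ᵥ* Γ) i := by
  have h : HasFDerivAt (fun y : Cm n => ξ₀ i - ∑ k, (y k - z k) * Γ k i) _ y :=
    (HasFDerivAt.fun_sum fun k _ =>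
      (((hasFDerivAt_apply (𝕜 := ℝ) k y).sub_const (z k)).mul_const (Γ k i))).const_sub (ξ₀ i)
  rw [show (fun y => xi ξ₀ z Γ y i) = fun y : Cm n => ξ₀ i - ∑ k, (y k - z k) * Γ k i from rfl,
    h.fderiv]
  simp [vecMul, dotProduct, mul_comm]

theorem dz_xi (ξ₀ z : Cm n) (Γ : Mx n) (a i : Fin n) (y : Cm n) :
    dz a (fun y => xi ξ₀ z Γ y i) y = -Γ a i := by
  simp only [dz, xi_fd, single_vecMul, Pi.smul_apply, MulOpposite.smul_eq_mul_unop, smul_eq_mul,
    Matrix.row_apply]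
  linear_combination (Γ a i / 2) * Complex.I_mul_I

theorem dzb_xi (ξ₀ z : Cm n) (Γ : Mx n) (a i : Fin n) (y : Cm n) :
    dzb a (fun y => xi ξ₀ z Γ y i) y = 0 := by
  simp only [dzb, xi_fd, single_vecMul, Pi.smul_apply, MulOpposite.smul_eq_mul_unop, smul_eq_mul,
    Matrix.row_apply]
  linear_combination (-Γ a i / 2) * Complex.I_mul_I

/-- a vector as a matrix with one row -/
def rw1 (v : Cm n) : Matrix Unit (Fin n) ℂ := Matrix.of fun _ i => v i

theorem rw1_mul (v : Cm n) (A : Mx n) : rw1 v * A = rw1 (v ᵥ* A) := rfl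

theorem rw1_dot (v w : Cm n) : (rw1 v * (rw1 w)ᴴ) () () = v ⬝ᵥ star w := rfl

/-- the rows `ξ ∂_a K` -/
def UU (ξ : Cm n) (K : Cm n → Mx n) (z : Cm n) : Mx n := Matrix.of fun a i => (ξ ᵥ* DM a K z) i

/-- the matrix `ξ (∂_a ∂_b̄ K) ξ̄` -/
def AA (ξ : Cm n) (K : Cm n → Mx n) (z : Cm n) : Mx n :=
  Matrix.of fun a b => (ξ ᵥ* D2 a b K z) ⬝ᵥ star ξ

theorem mul_ct (A B : Mx n) (a b : Fin n) : (A * Bᴴ) a b = A a ⬝ᵥ star (B b) := rfl

theorem row_mul (A B : Mx n) (a : Fin n) : (A * B) a = A a ᵥ* B := rfl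

theorem dot_ct (v w : Cm n) (A : Mx n) : (v ᵥ* Aᴴ) ⬝ᵥ star w = v ⬝ᵥ star (w ᵥ* A) := by
  rw [← dotProduct_mulVec, star_vecMul]

section norm

variable {K : Cm n → Mx n} {z ξ₀ : Cm n} {Γ : Mx n}

theorem mc_xi (m : ℕ) (y : Cm n) : MC m (fun y => rw1 (xi ξ₀ z Γ y)) y := fun _ i =>
  (contDiff_pi.1 (xi_sm ξ₀ z Γ) i).contDiffAt.of_le (by exact_mod_cast le_top)

theorem DM_xi (a : Fin n) (y : Cm n) : DM a (fun y => rw1 (xi ξ₀ z Γ y)) y = -rw1 (Γ a) := by
  ext u i; exact dz_xi ξ₀ z Γ a i y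

theorem DMb_xi (a : Fin n) (y : Cm n) : DMb a (fun y => rw1 (xi ξ₀ z Γ y)) y = 0 := by
  ext u i; exact dzb_xi ξ₀ z Γ a i y

/-- the norm of the field -/
def NN (K : Cm n → Mx n) (ξ : Cm n → Cm n) (y : Cm n) : ℂ := (ξ y ᵥ* K y) ⬝ᵥ star (ξ y)

theorem NN_sm (hK : MC 2 K z) : ContDiffAt ℝ 2 (NN K (xi ξ₀ z Γ)) z :=
  (((mc_xi 2 z).mul hK).mul (mc_xi 2 z).conjTranspose) () ()

theorem dz_NN (hK : MC 2 K z) (a : Fin n) :
    dz a (NN K (xi ξ₀ z Γ)) z = ((UU ξ₀ K z - Γ * K z) *ᵥ star ξ₀) a := by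
  have one : ((1 : ℕ) : WithTop ℕ∞) ≠ 0 := by norm_num
  have h1 : MC (1 : ℕ) K z := hK.mono (by norm_num)
  have hx := mc_xi (ξ₀ := ξ₀) (z := z) (Γ := Γ) 1 z
  have h := DM_mul (k := a) ((hx.mul h1).md one) (hx.conjTranspose.md one)
  rw [DM_mul (hx.md one) (h1.md one), DM_conjTranspose (hx.md one), DM_xi, DMb_xi, xi_self] at h
  refine (congrFun (congrFun h ()) ()).trans ?_
  simp only [conjTranspose_zero, Matrix.mul_zero, add_zero, Matrix.add_mul, Matrix.neg_mul,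
    rw1_mul, Matrix.add_apply, Matrix.neg_apply, rw1_dot, sub_mulVec, Pi.sub_apply,
    Matrix.zero_apply]
  rw [neg_add_eq_sub]
  rfl

theorem dd_NN (hK : MC 2 K z) (hH : ∀ᶠ y in 𝓝 z, (K y).IsHermitian) (a b : Fin n) :
    dz a (dzb b (NN K (xi ξ₀ z Γ))) z =
      (AA ξ₀ K z - Γ * (UU ξ₀ K z)ᴴ - UU ξ₀ K z * Γᴴ + Γ * K z * Γᴴ) a b := by
  have one : ((1 : ℕ) : WithTop ℕ∞) ≠ 0 := by norm_num
  have h1 : MC (1 : ℕ) K z := hK.mono (by norm_num)
  have h2 : MC (1 : ℕ) (DMb b K) z := hK.DMb (by norm_num)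
  have hx := mc_xi (ξ₀ := ξ₀) (z := z) (Γ := Γ) 1
  have e : DMb b (fun y => rw1 (xi ξ₀ z Γ y) * K y * (rw1 (xi ξ₀ z Γ y))ᴴ) =ᶠ[𝓝 z] fun y =>
      rw1 (xi ξ₀ z Γ y) * DMb b K y * (rw1 (xi ξ₀ z Γ y))ᴴ +
        rw1 (xi ξ₀ z Γ y) * K y * (-rw1 (Γ b))ᴴ := by
    filter_upwards [h1.eventually] with y hy
    rw [DMb_mul (((hx y).mul hy).md one) ((hx y).conjTranspose.md one),
      DMb_mul ((hx y).md one) (hy.md one), DMb_conjTranspose ((hx y).md one), DM_xi, DMb_xi,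
      Matrix.zero_mul, zero_add]
  have hc : MC (1 : ℕ) (fun _ : Cm n => (-rw1 (Γ b))ᴴ) z := fun _ _ => contDiffAt_const
  have h := DM_congr (k := a) e
  rw [DM_add ((((hx z).mul h2).mul (hx z).conjTranspose).md one) ((((hx z).mul h1).mul hc).md one),
    DM_mul (((hx z).mul h2).md one) ((hx z).conjTranspose.md one),
    DM_mul (((hx z).mul h1).md one) (hc.md one), DM_mul ((hx z).md one) (h2.md one),
    DM_mul ((hx z).md one) (h1.md one), DM_conjTranspose ((hx z).md one), DM_xi, DMb_xi, xi_self,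
    DM_const, DMb_of_isHermitian (h1.md one) hH] at h
  refine (congrFun (congrFun h ()) ()).trans ?_
  simp only [conjTranspose_zero, Matrix.mul_zero, add_zero, Matrix.add_mul, Matrix.neg_mul,
    conjTranspose_neg, Matrix.mul_neg, rw1_mul, Matrix.add_apply, Matrix.neg_apply, rw1_dot,
    Matrix.sub_apply, mul_ct, dot_ct, row_mul]
  change _ = (ξ₀ ᵥ* DM a (DMb b K) z) ⬝ᵥ star ξ₀ - Γ a ⬝ᵥ star (ξ₀ ᵥ* DM b K z) -
    (ξ₀ ᵥ* DM a K z) ⬝ᵥ star (Γ b) + _
  ring

end norm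

/-! ### exchange of the indices -/

theorem D2_swap {H : Cm n → Mx n} {z : Cm n} (hG : MC 2 H z)
    (hH : ∀ᶠ y in 𝓝 z, (H y).IsHermitian)
    (hK : ∀ᶠ y in 𝓝 z, ∀ i j k, dz k (fun y => H y i j) y = dz i (fun y => H y k j) y)
    (i j k l : Fin n) : D2 k l H z i j = D2 i j H z k l := by
  have one : (1 : WithTop ℕ∞) ≠ 0 := by norm_num
  have hKb : ∀ᶠ y in 𝓝 z, ∀ i j k, dzb k (fun y => H y i j) y = dzb j (fun y => H y i k) y := by
    filter_upwards [hK, MC.eventually (q := 1) (hG.mono (by norm_num)), hH.eventually_nhds]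
      with y h1 h2 h3 i j k
    have a : ∀ i j k, dzb k (fun y => H y i j) y = conj (dz k (fun y => H y j i) y) := by
      intro i j k
      simpa using congrFun (congrFun (DMb_of_isHermitian (k := k) (h2.md one) h3) i) j
    rw [a, a, h1]
  change dz k (fun y => dzb l (fun y => H y i j) y) z = dz i (fun y => dzb j (fun y => H y k l) y) z
  have e1 : (fun y => dzb l (fun y => H y i j) y) =ᶠ[𝓝 z] dzb j fun y => H y i l := by
    filter_upwards [hKb] with y hy using hy i j l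
  rw [dz_congr k e1, dz_dzb_comm k j (hG i l)]
  have e2 : dz k (fun y => H y i l) =ᶠ[𝓝 z] dz i fun y => H y k l := by
    filter_upwards [hK] with y hy using hy i l k
  rw [dzb_congr j e2, ← dz_dzb_comm i j (hG k l)]

theorem dd_mul {f g : Cm n → ℂ} {z : Cm n} (hf : ContDiffAt ℝ 2 f z) (hg : ContDiffAt ℝ 2 g z)
    (i j : Fin n) : dz i (dzb j fun y => f y * g y) z = dz i (dzb j f) z * g z +
      dzb j f z * dz i g z + (dz i f z * dzb j g z + f z * dz i (dzb j g) z) := by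
  have two : (2 : WithTop ℕ∞) ≠ 0 := by norm_num
  have e : (dzb j fun y => f y * g y) =ᶠ[𝓝 z] fun y => dzb j f y * g y + f y * dzb j g y := by
    filter_upwards [eventually_contDiffAt (m := 2) hf, eventually_contDiffAt (m := 2) hg]
      with y h1 h2 using dzb_mul j (h1.differentiableAt two) (h2.differentiableAt two)
  have f1 := hf.differentiableAt two
  have g1 := hg.differentiableAt two
  rw [dz_congr i e, dz_add i ((differentiableAt_dzb j hf).fun_mul g1)
    (f1.fun_mul (differentiableAt_dzb j hg)), dz_mul i (differentiableAt_dzb j hf) g1,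
    dz_mul i f1 (differentiableAt_dzb j hg)]

theorem dd_sub {f g : Cm n → ℂ} {z : Cm n} (hf : ContDiffAt ℝ 2 f z) (hg : ContDiffAt ℝ 2 g z)
    (i j : Fin n) : dz i (dzb j fun y => f y - g y) z = dz i (dzb j f) z - dz i (dzb j g) z := by
  have two : (2 : WithTop ℕ∞) ≠ 0 := by norm_num
  have e : (dzb j fun y => f y - g y) =ᶠ[𝓝 z] fun y => dzb j f y - dzb j g y := by
    filter_upwards [eventually_contDiffAt (m := 2) hf, eventually_contDiffAt (m := 2) hg]
      with y h1 h2 using dzb_sub j (h1.differentiableAt two) (h2.differentiableAt two)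
  rw [dz_congr i e, dz_sub i (differentiableAt_dzb j hf) (differentiableAt_dzb j hg)]

/-- the matrix `ξ_i ξ̄_j ∂_i ∂_j̄ K` -/
def BB (ξ : Cm n) (K : Cm n → Mx n) (z : Cm n) : Mx n :=
  ∑ i, ∑ j, (ξ i * conj (ξ j)) • D2 i j K z

/-- the derivative in the direction `ξ` -/
def KX (ξ : Cm n) (K : Cm n → Mx n) (z : Cm n) : Mx n := ∑ i, ξ i • DM i K z

theorem kdot {K : Cm n → Mx n} {z : Cm n} (hK : MC 2 K z) (hp : ∀ᶠ y in 𝓝 z, (K y).PosDef)
    (ξ : Cm n) : ξ ⬝ᵥ (cHess (fun y => Real.log (K y).det.re) z *ᵥ star ξ) =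
      ((K z)⁻¹ * (BB ξ K z - KX ξ K z * (K z)⁻¹ * (KX ξ K z)ᴴ)).trace := by
  have h : ∀ j, (DM j K z)ᴴ = DMb j K z := fun j =>
    (DMb_of_isHermitian (hK.md (by norm_num)) (hp.mono fun _ h => h.isHermitian)).symm
  simp only [dotProduct, mulVec, cHess_log_det hK hp, BB, KX, conjTranspose_sum, conjTranspose_smul,
    h, Matrix.mul_sub, Matrix.mul_sum, Matrix.sum_mul, Matrix.mul_smul, Matrix.smul_mul, trace_sub,
    trace_sum, trace_smul, smul_eq_mul, Finset.mul_sum, Matrix.mul_assoc]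
  rw [Finset.sum_comm (f := fun j i => star (ξ j) * (ξ i * _)), ← Finset.sum_sub_distrib]
  refine Finset.sum_congr rfl fun i _ => ?_
  rw [← Finset.sum_sub_distrib]
  refine Finset.sum_congr rfl fun j _ => ?_
  simp only [Pi.star_apply, RCLike.star_def]
  ring

section closed

variable {W K : Cm n → Mx n} {E : Cm n → ℝ} {z : Cm n} (ξ : Cm n) (hW : MC 2 W z) (hK : MC 2 K z)
  (hE : ContDiffAt ℝ 2 E z)
  (cW : ∀ᶠ y in 𝓝 z, ∀ i j k, dz k (fun y => W y i j) y = dz i (fun y => W y k j) y)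
  (cK : ∀ᶠ y in 𝓝 z, ∀ i j k, dz k (fun y => K y i j - (E y : ℂ) * W y i j) y =
    dz i (fun y => K y k j - (E y : ℂ) * W y k j) y)

/-- the gradient -/
def gr (E : Cm n → ℝ) (z : Cm n) : Cm n := fun a => dz a (fun y => (E y : ℂ)) z

/-- the torsion term -/
def TT (ξ : Cm n) (W : Mx n) (e : Cm n) : Mx n := vecMulVec e (ξ ᵥ* W) - (ξ ⬝ᵥ e) • W

include hW hK hE cW cK

theorem KX_eq : KX ξ K z = UU ξ K z - TT ξ (W z) (gr E z) := by
  have two : (2 : WithTop ℕ∞) ≠ 0 := by norm_num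
  have e1 := differentiableAt_ofReal (hE.differentiableAt two)
  have h : ∀ i a b, DM i K z a b = DM a K z i b - gr E z a * W z i b + gr E z i * W z a b := by
    intro i a b
    have h1 := cK.self_of_nhds a b i
    rw [dz_sub _ (hK.md two _ _) (e1.fun_mul (hW.md two _ _)),
      dz_sub _ (hK.md two _ _) (e1.fun_mul (hW.md two _ _)), dz_mul _ e1 (hW.md two _ _),
      dz_mul _ e1 (hW.md two _ _), cW.self_of_nhds a b i] at h1
    simp only [DM_apply, gr]
    linear_combination h1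
  ext a b
  simp only [KX, UU, TT, Matrix.sum_apply, Matrix.smul_apply, Matrix.sub_apply, of_apply, vecMul,
    dotProduct, vecMulVec_apply, smul_eq_mul, Finset.mul_sum, Finset.sum_mul,
    ← Finset.sum_sub_distrib, transpose_apply]
  exact Finset.sum_congr rfl fun i _ => by rw [h i a b]; ring

theorem BB_eq (pW : ∀ᶠ y in 𝓝 z, (W y).IsHermitian) (pK : ∀ᶠ y in 𝓝 z, (K y).IsHermitian) :
    BB ξ K z = AA ξ K z + (ξ ⬝ᵥ (cHess E z *ᵥ star ξ)) • W z -
      ((ξ ᵥ* W z) ⬝ᵥ star ξ) • cHess E z + ((ξ ⬝ᵥ gr E z) • (UU ξ W z)ᴴ +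
      star (ξ ⬝ᵥ gr E z) • UU ξ W z - vecMulVec (gr E z) (star (UU ξ W z *ᵥ star ξ)) -
      vecMulVec (UU ξ W z *ᵥ star ξ) (star (gr E z))) := by
  have two : (2 : WithTop ℕ∞) ≠ 0 := by norm_num
  have e2 := contDiffAt_ofReal hE
  have eb : ∀ j, dzb j (fun y => (E y : ℂ)) z = conj (gr E z j) := fun j =>
    dzb_real j (hE.differentiableAt two)
  have wb : ∀ j a b, dzb j (fun y => W y a b) z = conj (DM j W z b a) := fun j a b =>
    congrFun (congrFun (DMb_of_isHermitian (k := j) (hW.md two) pW) a) b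
  have w1 : ∀ i a b, DM i W z a b = DM a W z i b := fun i a b => cW.self_of_nhds a b i
  have hH : MC 2 (fun y => Matrix.of fun i j => K y i j - (E y : ℂ) * W y i j) z := fun i j =>
    (hK i j).sub (e2.mul (hW i j))
  have d : ∀ i j a b, D2 i j (fun y => Matrix.of fun i j => K y i j - (E y : ℂ) * W y i j) z a b =
      D2 i j K z a b - (cHess E z i j * W z a b + conj (gr E z j) * DM i W z a b +
        (gr E z i * conj (DM j W z b a) + E z * D2 i j W z a b)) := fun i j a b => by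
    rw [← eb, ← wb]
    exact (dd_sub (hK a b) (e2.mul (hW a b)) i j).trans
      (congrArg _ (dd_mul e2 (hW a b) i j))
  have h : ∀ i j a b, D2 i j K z a b = D2 a b K z i j + cHess E z i j * W z a b -
      W z i j * cHess E z a b + (gr E z i * conj (DM b W z j a) + conj (gr E z j) * DM a W z i b -
      gr E z a * conj (DM b W z j i) - DM a W z i j * conj (gr E z b)) := fun i j a b => by
    have h1 := D2_swap hH (by
      filter_upwards [pW, pK] with y h1 h2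
      ext i j
      simp [conjTranspose_apply, h1.apply, h2.apply]) cK a b i j
    rw [d, d, D2_swap hW pW cW a b i j, w1 i a b, w1 j b a] at h1
    linear_combination h1
  ext a b
  simp only [BB, AA, UU, Matrix.sum_apply, Matrix.smul_apply, Matrix.sub_apply, Matrix.add_apply,
    of_apply, vecMul, mulVec, dotProduct, vecMulVec_apply, smul_eq_mul, conjTranspose_apply,
    Pi.star_apply, star_sum, star_mul', star_star, transpose_apply, RCLike.star_def,
    Finset.mul_sum, Finset.sum_mul, map_sum, map_mul, Complex.conj_conj]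
  simp only [h _ _ a b, mul_add, mul_sub, Finset.sum_add_distrib, Finset.sum_sub_distrib]
  congr 1
  · congr 1
    · congr 1
      · rw [Finset.sum_comm]; simp only [mul_comm, mul_left_comm, mul_assoc]
      · simp only [mul_comm, mul_left_comm, mul_assoc]
    · rw [Finset.sum_comm]; simp only [mul_comm, mul_left_comm, mul_assoc]
  · congr 1
    · congr 1
      · congr 1
        · rw [Finset.sum_comm]; simp only [mul_comm, mul_left_comm, mul_assoc]
        · simp only [mul_comm, mul_left_comm, mul_assoc]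
      · simp only [mul_comm, mul_left_comm, mul_assoc]
    · rw [Finset.sum_comm]; simp only [mul_comm, mul_left_comm, mul_assoc]

end closed

/-- the point algebra -/
theorem point {K W G V A U B HE : Mx n} {ξ e : Cm n} {c d : ℂ} (hK : Kᴴ = K) (hW : Wᴴ = W)
    (hKG : K * G = 1) (hGK : G * K = 1) {Γ : Mx n} (hΓ : Γ * W = V)
    (hB : B = A + c • W - d • HE + ((ξ ⬝ᵥ e) • Vᴴ + star (ξ ⬝ᵥ e) • V -
      vecMulVec e (star (V *ᵥ star ξ)) - vecMulVec (V *ᵥ star ξ) (star e))) :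
    B - (U - TT ξ W e) * G * (U - TT ξ W e)ᴴ - (A - Γ * Uᴴ - U * Γᴴ + Γ * K * Γᴴ) =
      c • W - d • HE - (U - Γ * K - TT ξ W e) * G * (U - Γ * K - TT ξ W e)ᴴ := by
  have h1 : Γ * (TT ξ W e)ᴴ = vecMulVec (V *ᵥ star ξ) (star e) - star (ξ ⬝ᵥ e) • V := by
    rw [TT, conjTranspose_sub, conjTranspose_smul, conjTranspose_vecMulVec, hW, Matrix.mul_sub,
      Matrix.mul_smul, hΓ, star_vecMul, hW, mul_vecMulVec, mulVec_mulVec, hΓ]
  have h2 : TT ξ W e * Γᴴ = vecMulVec e (star (V *ᵥ star ξ)) - (ξ ⬝ᵥ e) • Vᴴ := by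
    have := congrArg conjTranspose h1
    rwa [conjTranspose_mul, conjTranspose_conjTranspose, conjTranspose_sub, conjTranspose_smul,
      conjTranspose_vecMulVec, star_star, star_star] at this
  have h3 : ∀ M : Mx n, (M - Γ * K) * G * (M - Γ * K)ᴴ =
      M * G * Mᴴ - Γ * Mᴴ - M * Γᴴ + Γ * K * Γᴴ := fun M => by
    rw [conjTranspose_sub, conjTranspose_mul, hK]
    calc _ = M * G * Mᴴ - Γ * (K * G) * Mᴴ - M * (G * K) * Γᴴ + Γ * (K * G) * K * Γᴴ := by
          noncomm_ring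
      _ = _ := by rw [hKG, hGK]; simp only [Matrix.mul_one]
  rw [sub_right_comm U, h3, hB, conjTranspose_sub U, Matrix.mul_sub Γ, Matrix.sub_mul U _ Γᴴ, h1, h2]
  abel

/-- Cauchy-Schwarz in matrix form -/
theorem cs_psd {A : Mx n} (hA : A.PosSemidef) (x : Cm n) :
    (((x ᵥ* A) ⬝ᵥ star x) • A - vecMulVec (A *ᵥ star x) (star (A *ᵥ star x))).PosSemidef := by
  obtain ⟨B, rfl⟩ := exists_factor hA
  have h := (trace_smul_one_sub_posSemidef
    (posSemidef_vecMulVec_self_star (B *ᵥ star x))).conjTranspose_mul_mul_same B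
  convert h using 1
  rw [Matrix.mul_sub, Matrix.sub_mul, Matrix.mul_smul, Matrix.smul_mul, Matrix.mul_one,
    trace_vecMulVec, mul_vecMulVec, vecMulVec_mul, mulVec_mulVec, star_mulVec, star_mulVec,
    star_star, vecMul_vecMul, conjTranspose_mul, conjTranspose_conjTranspose, ← vecMul_vecMul,
    ← dotProduct_mulVec, dotProduct_comm]

end Vale.Agent.P253W.FG.Swa
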