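import Vale.Agent.P253W.FG.Defs
import Vale.Agent.P253W.FG.SwaA

/-!
# P253W, row FG.SWA: the computation in the parabolic Schwarz lemma at one point
-/

open scoped ContDiff Topology ComplexConjugate ComplexOrder Matrix
open Filter Matrix
open Vale.Agent.P272.K Vale.Agent.P272.K.C2

noncomputable section

namespace Vale.Agent.P253W.FG

namespace Swa

variable {n : ℕ}

theorem qf_coe {A : Mt n} (hA : A.IsHermitian) (ξ : Cm n) :
    ((qf A ξ : ℝ) : ℂ) = ξ ⬝ᵥ (A *ᵥ star ξ) := by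
  refine Complex.conj_eq_iff_re.1 ?_
  change star _ = _
  rw [← star_dotProduct_star, star_mulVec, star_star, hA.eq, dotProduct_mulVec, dotProduct_comm]

theorem qf_coe' {A : Mt n} (hA : A.IsHermitian) (ξ : Cm n) :
    ((qf A ξ : ℝ) : ℂ) = (ξ ᵥ* A) ⬝ᵥ star ξ := by
  rw [qf_coe hA, dotProduct_mulVec]

theorem tg_add (g a b : Mt n) : tg g (a + b) = tg g a + tg g b := by
  simp only [tg, Matrix.mul_add, trace_add, Complex.add_re]

theorem tg_sub (g a b : Mt n) : tg g (a - b) = tg g a - tg g b := by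
  simp only [tg, Matrix.mul_sub, trace_sub, Complex.sub_re]

theorem tg_smul (g a : Mt n) (c : ℝ) : tg g ((c : ℂ) • a) = c * tg g a := by
  simp only [tg, Matrix.mul_smul, trace_smul, smul_eq_mul, Complex.re_ofReal_mul]

theorem qf_add (a b : Mt n) (ξ : Cm n) : qf (a + b) ξ = qf a ξ + qf b ξ := by
  simp only [qf, add_mulVec, dotProduct_add, Complex.add_re]

theorem qf_smul (a : Mt n) (c : ℝ) (ξ : Cm n) : qf ((c : ℂ) • a) ξ = c * qf a ξ := by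
  simp only [qf, smul_mulVec, dotProduct_smul, smul_eq_mul, Complex.re_ofReal_mul]

/-- the matrix `v v*` -/
abbrev vv (v : Cm n) : Mt n := vecMulVec v (star v)

theorem vv_smul (c : ℂ) (v : Cm n) : vv (c • v) = ((Complex.normSq c : ℝ) : ℂ) • vv v := by
  ext i j
  simp only [vecMulVec_apply, Pi.star_apply, Pi.smul_apply, Matrix.smul_apply, smul_eq_mul,
    star_mul', Complex.normSq_eq_conj_mul_self, RCLike.star_def]
  ring

theorem qf_vv (v ξ : Cm n) : qf (vv v) ξ = Complex.normSq (ξ ⬝ᵥ v) := by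
  rw [qf, vecMulVec_mulVec, star_dotProduct_star, dotProduct_smul, dotProduct_comm ξ v]
  simp only [MulOpposite.smul_eq_mul_unop, MulOpposite.unop_op, RCLike.star_def,
    Complex.mul_conj, Complex.ofReal_re]

theorem gg_eq (f : Cm n → ℝ) (z : Cm n) : gg f z = vv (gr f z) := rfl

theorem tg_nonneg {g M : Mt n} (hg : g.PosDef) (h : ∀ X, 0 ≤ qf M X) : 0 ≤ tg g M := by
  obtain ⟨B, hB⟩ := exists_factor hg.inv.posSemidef
  rw [tg, hB, Matrix.mul_assoc, trace_mul_comm, trace, Complex.re_sum]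
  refine Finset.sum_nonneg fun r _ => ?_
  have := h (B r)
  rwa [qf, dotProduct_mulVec] at this

theorem sqrt_le {r x t : ℝ} (hr : 0 ≤ r) (h : x ≤ r ^ 2 * t) : √x ≤ r * √t := by
  refine (Real.sqrt_le_sqrt h).trans_eq ?_
  rw [Real.sqrt_mul (sq_nonneg r), Real.sqrt_sq hr]

/-- the derivatives of the logarithm of the norm of the field -/
theorem logN {K : Cm n → Mt n} {z ξ₀ : Cm n} (Γ : Mt n) (hK : MC 2 K z)
    (hH : ∀ᶠ y in 𝓝 z, (K y).IsHermitian) (h0 : 0 < qf (K z) ξ₀) :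
    gr (fun y => Real.log (qf (K y) (xi ξ₀ z Γ y))) z =
      (((qf (K z) ξ₀)⁻¹ : ℝ) : ℂ) • ((UU ξ₀ K z - Γ * K z) *ᵥ star ξ₀) ∧
    cHess (fun y => Real.log (qf (K y) (xi ξ₀ z Γ y))) z =
      (((qf (K z) ξ₀)⁻¹ : ℝ) : ℂ) •
        (AA ξ₀ K z - Γ * (UU ξ₀ K z)ᴴ - UU ξ₀ K z * Γᴴ + Γ * K z * Γᴴ) -
      ((((qf (K z) ξ₀)⁻¹) ^ 2 : ℝ) : ℂ) • vv ((UU ξ₀ K z - Γ * K z) *ᵥ star ξ₀) := by
  have two : (2 : WithTop ℕ∞) ≠ 0 := by norm_num
  have e : (fun y => ((qf (K y) (xi ξ₀ z Γ y) : ℝ) : ℂ)) =ᶠ[𝓝 z] NN K (xi ξ₀ z Γ) := by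
    filter_upwards [hH] with y hy using qf_coe' hy _
  have hs : ContDiffAt ℝ 2 (fun y => qf (K y) (xi ξ₀ z Γ y)) z :=
    (Complex.reCLM.contDiff.contDiffAt.comp z (NN_sm (ξ₀ := ξ₀) (Γ := Γ) hK)).congr_of_eventuallyEq
      (e.mono fun y hy => by simpa using congrArg Complex.re hy)
  have h1 : 0 < qf (K z) (xi ξ₀ z Γ z) := by rwa [xi_self]
  have hd : ∀ j, dz j (fun y => ((qf (K y) (xi ξ₀ z Γ y) : ℝ) : ℂ)) z =
      ((UU ξ₀ K z - Γ * K z) *ᵥ star ξ₀) j := fun j => (dz_congr j e).trans (dz_NN hK j)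
  constructor
  · ext j
    rw [gr, dz_comp_real (u := fun y => qf (K y) (xi ξ₀ z Γ y)) j (Real.hasDerivAt_log h1.ne')
      (hs.differentiableAt two), hd, xi_self]
    rfl
  · ext j k
    rw [cHess_log hs h1, dzb_real k (hs.differentiableAt two), hd, hd, cHess_apply,
      dz_congr j (dzb_eventuallyEq k e), dd_NN hK hH, xi_self]
    simp only [Matrix.sub_apply, Matrix.smul_apply, smul_eq_mul, vecMulVec_apply, Pi.star_apply,
      RCLike.star_def]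
    push_cast
    ring

/-- the term with the curvature of `W` -/
theorem curv {W : Cm n → Mt n} {z ξ₀ : Cm n} {g : Mt n} (hg : g.PosDef) (hW : MC 2 W z)
    (hH : ∀ᶠ y in 𝓝 z, (W y).IsHermitian)
    (hR : ∀ X a : Cm n, 0 ≤ qf (∑ q, ∑ p, (X p * conj (X q)) • RM p q W z) a) :
    tg g (AA ξ₀ W z - UU ξ₀ W z * (W z)⁻¹ * (UU ξ₀ W z)ᴴ) ≤ 0 := by
  have e : AA ξ₀ W z - UU ξ₀ W z * (W z)⁻¹ * (UU ξ₀ W z)ᴴ =
      ((-1 : ℝ) : ℂ) • Matrix.of fun a b => ξ₀ ⬝ᵥ (RM a b W z *ᵥ star ξ₀) := by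
    ext a b
    simp only [Matrix.sub_apply, mul_ct, row_mul, Matrix.smul_apply, of_apply, RM,
      DMb_of_isHermitian (hW.md (by norm_num)) hH, dotProduct_mulVec, vecMul_add, vecMul_neg,
      add_dotProduct, neg_dotProduct, ← vecMul_vecMul, dot_ct, smul_eq_mul]
    change (ξ₀ ᵥ* D2 a b W z) ⬝ᵥ star ξ₀ -
      ((ξ₀ ᵥ* DM a W z) ᵥ* (W z)⁻¹) ⬝ᵥ star (ξ₀ ᵥ* DM b W z) = _
    push_cast
    ring
  rw [e, tg_smul]
  refine mul_nonpos_of_nonpos_of_nonneg (by norm_num) (tg_nonneg hg fun X => ?_)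
  convert hR X ξ₀ using 1
  simp only [qf, sum_mulVec, dotProduct_sum, smul_mulVec, dotProduct_smul, smul_eq_mul]
  congr 1
  rw [Finset.sum_comm]
  change ∑ p, X p * ∑ q, (ξ₀ ⬝ᵥ (RM p q W z *ᵥ star ξ₀)) * conj (X q) = _
  simp only [Finset.mul_sum]
  exact Finset.sum_congr rfl fun p _ => Finset.sum_congr rfl fun q _ => by ring

theorem pgp {K : Mt n} (hK : K.PosDef) (P : Mt n) (ξ : Cm n) :
    (((qf K ξ : ℝ) : ℂ) • (P * K⁻¹ * Pᴴ) - vv (P *ᵥ star ξ)).PosSemidef := by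
  have hu : IsUnit K.det := (posDef_det_ne_zero hK).isUnit
  have h := (cs_psd hK.posSemidef ξ).mul_mul_conjTranspose_same (P * K⁻¹)
  convert h using 1
  have e : P * K⁻¹ * K = P := by rw [Matrix.mul_assoc, nonsing_inv_mul _ hu, Matrix.mul_one]
  rw [Matrix.mul_sub, Matrix.sub_mul, Matrix.mul_smul, Matrix.smul_mul, e, mul_vecMulVec,
    vecMulVec_mul, ← star_mulVec, mulVec_mulVec, e, conjTranspose_mul, hK.inv.isHermitian.eq,
    qf_coe' hK.isHermitian, Matrix.mul_assoc]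

theorem final {N N₀ E τ η tH c tl tq tP a b σ s k Δ Δ₀ : ℝ} (hN : 0 < N) (hN₀ : 0 < N₀)
    (hE : 0 < E) (hτ : 0 ≤ τ) (hη : 0 ≤ η) (hle : E * N₀ ≤ N) (ha : 0 ≤ a) (hb : 0 ≤ b)
    (hs : 0 ≤ s) (hk : k = tH + c * τ - N₀ * (E * (tl + tq)) - tP)
    (hΔ : Δ = N⁻¹ * tH - N⁻¹ ^ 2 * a ^ 2) (h₀ : Δ₀ ≤ 0) (hP : b ^ 2 ≤ N * tP) (hab : a ≤ b + σ)
    (hσ : σ ≤ 2 * (E * N₀ * s)) (hc : c ≤ E * (2 * (η * E * N₀))) (hl : tl ≤ η * E * τ)
    (hq : 0 ≤ tq) :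
    k / N - Δ + Δ₀ + tl ≤ 3 * η * (E * τ) + 4 * s * (N⁻¹ * a) * (E * N₀ / N) := by
  have h1 : a ^ 2 - b ^ 2 ≤ 4 * a * (E * N₀ * s) := by
    rcases le_total a b with h | h
    · have : 0 ≤ a * (E * N₀ * s) := by positivity
      nlinarith
    · nlinarith
  have h2 : c * τ ≤ 2 * (η * E * τ) * N := by
    have : 0 ≤ η * E * τ := by positivity
    nlinarith [mul_le_mul_of_nonneg_right hc hτ]
  have h3 : (N - E * N₀) * tl ≤ η * E * τ * N := by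
    have : 0 ≤ η * E * τ * (E * N₀) := by positivity
    nlinarith [mul_le_mul_of_nonneg_left hl (sub_nonneg.2 hle)]
  have h4 : 0 ≤ N₀ * E * tq := by positivity
  have h5 : N * (k - tH + N * tl) + a ^ 2 ≤ N * (3 * η * (E * τ) * N) + 4 * a * (E * N₀ * s) := by
    have : k - tH + N * tl ≤ 3 * η * (E * τ) * N - tP := by rw [hk]; nlinarith
    nlinarith [mul_le_mul_of_nonneg_left this hN.le]
  have h6 := mul_le_mul_of_nonneg_left h5 (show 0 ≤ N⁻¹ ^ 2 by positivity)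
  have e1 : k / N - Δ + tl = N⁻¹ ^ 2 * (N * (k - tH + N * tl) + a ^ 2) := by
    rw [hΔ]; field_simp; ring
  have e2 : 3 * η * (E * τ) + 4 * s * (N⁻¹ * a) * (E * N₀ / N) =
      N⁻¹ ^ 2 * (N * (3 * η * (E * τ) * N) + 4 * a * (E * N₀ * s)) := by
    field_simp
  linarith

end Swa

open Swa in
/-- **SWA** -/
theorem swa (n : ℕ) (h : EIG n) : SWA n := by
  intro W K l z ξ₀ η hW hK hl hp cW cK hR hη h1 h2 h0 hle
  have two : (2 : WithTop ℕ∞) ≠ 0 := by norm_num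
  have pW := hp.self_of_nhds.1
  have pK := hp.self_of_nhds.2
  have eW : ∀ᶠ y in 𝓝 z, (W y).IsHermitian := hp.mono fun _ h => h.1.isHermitian
  have eK : ∀ᶠ y in 𝓝 z, (K y).IsHermitian := hp.mono fun _ h => h.2.isHermitian
  have uW : IsUnit (W z).det := (posDef_det_ne_zero pW).isUnit
  have uK : IsUnit (K z).det := (posDef_det_ne_zero pK).isUnit
  obtain ⟨Γ, hΓ'⟩ : ∃ Γ, Γ = UU ξ₀ W z * (W z)⁻¹ := ⟨_, rfl⟩
  have hΓ : Γ * W z = UU ξ₀ W z := by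
    rw [hΓ', Matrix.mul_assoc, nonsing_inv_mul _ uW, Matrix.mul_one]
  have hN := h.qf_pos _ pK _ h0
  have hN₀ := h.qf_pos _ pW _ h0
  obtain ⟨a1, a2⟩ := logN Γ hK eK hN
  obtain ⟨b1, b2⟩ := logN Γ hW eW hN₀
  rw [hΓ, sub_self, zero_mulVec] at b1 b2
  have hE : ContDiffAt ℝ 2 (fun y => Real.exp (l y)) z := hl.exp
  have hE0 := Real.exp_pos (l z)
  have ge : gr (fun y => Real.exp (l y)) z = ((Real.exp (l z) : ℝ) : ℂ) • gr l z := by
    ext j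
    exact dz_comp_real j (Real.hasDerivAt_exp _) (hl.differentiableAt two)
  have he : cHess (fun y => Real.exp (l y)) z =
      ((Real.exp (l z) : ℝ) : ℂ) • (cHess l z + gg l z) := by
    ext j k
    rw [cHess_comp (Eventually.of_forall Real.hasDerivAt_exp) (Real.hasDerivAt_exp _) hl,
      dzb_real k (hl.differentiableAt two)]
    simp only [Matrix.smul_apply, Matrix.add_apply, gg, of_apply, smul_eq_mul, mul_add]
  have hτ : 0 ≤ tg (K z) (W z) := tg_nonneg pK fun X => by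
    simpa [qf] using h.qf_le 0 (W z) (by simpa using pW.posSemidef) X
  have hpt := point (U := UU ξ₀ K z) pK.isHermitian.eq pW.isHermitian.eq (mul_nonsing_inv _ uK)
    (nonsing_inv_mul _ uK) hΓ (BB_eq ξ₀ hW hK hE cW cK eW eK)
  rw [← KX_eq ξ₀ hW hK hE cW cK, sub_eq_iff_eq_add, ← qf_coe (cHess_isHermitian hE),
    ← qf_coe' pW.isHermitian] at hpt
  refine ⟨xi ξ₀ z Γ, xi_sm _ _ _, xi_self _ _ _, fun j => by simpa [gr] using congrFun b1 j, ?_⟩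
  have hg : √(tg (K z) (gg (fun y => Real.log (qf (K y) (xi ξ₀ z Γ y))) z)) =
      (qf (K z) ξ₀)⁻¹ * √(tg (K z) (vv ((UU ξ₀ K z - Γ * K z) *ᵥ star ξ₀))) := by
    rw [gg_eq, a1, vv_smul, tg_smul, Complex.normSq_ofReal, Real.sqrt_mul (mul_self_nonneg _),
      Real.sqrt_mul_self (inv_pos.2 hN).le]
  rw [hg]
  have hl1 := h.mono _ _ _ pK h1
  have hl2 := h.mono _ _ _ pK h2
  have hq1 := h.qf_le _ _ h1 ξ₀
  have hq2 := h.qf_le _ _ h2 ξ₀
  rw [tg_smul] at hl1 hl2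
  rw [qf_smul] at hq1 hq2
  obtain ⟨P, hP⟩ : ∃ P, P = UU ξ₀ K z - Γ * K z - TT ξ₀ (W z) (gr (fun y => Real.exp (l y)) z) :=
    ⟨_, rfl⟩
  refine final (tH := tg (K z) (AA ξ₀ K z - Γ * (UU ξ₀ K z)ᴴ - UU ξ₀ K z * Γᴴ + Γ * K z * Γᴴ))
    (c := qf (cHess (fun y => Real.exp (l y)) z) ξ₀) (tq := tg (K z) (gg l z))
    (tP := tg (K z) (P * (K z)⁻¹ * Pᴴ)) (b := √(tg (K z) (vv (P *ᵥ star ξ₀))))
    (σ := √(tg (K z) (vv (TT ξ₀ (W z) (gr (fun y => Real.exp (l y)) z) *ᵥ star ξ₀))))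
    hN hN₀ hE0 hτ hη hle (Real.sqrt_nonneg _) (Real.sqrt_nonneg _) (Real.sqrt_nonneg _) ?_ ?_ ?_ ?_
    ?_ ?_ ?_ hl1 (h.nn _ _ pK)
  · rw [qf, kdot hK (hp.mono fun _ h => h.2), hpt, ← hP]
    change tg (K z) _ = _
    rw [tg_add, tg_sub, tg_sub, tg_smul, tg_smul, ← tg_add, ← tg_smul (K z) (_ + _), ← he]
    ring
  · rw [a2, tg_sub, tg_smul, tg_smul, Real.sq_sqrt (h.nn _ _ pK)]
  · rw [b2, sub_add_cancel, tg_sub, tg_smul, tg_smul, hΓ']
    have := curv (ξ₀ := ξ₀) pK hW eW hR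
    have e0 : tg (K z) (vv (0 : Cm n)) = 0 := by simp [tg]
    rw [e0, mul_zero, sub_zero]
    exact mul_nonpos_of_nonneg_of_nonpos (inv_pos.2 hN₀).le this
  · rw [Real.sq_sqrt (h.nn _ _ pK), ← tg_smul]
    exact h.mono _ _ _ pK (pgp pK P ξ₀)
  · have := h.cs _ (P *ᵥ star ξ₀)
      (TT ξ₀ (W z) (gr (fun y => Real.exp (l y)) z) *ᵥ star ξ₀) pK
    rwa [← add_mulVec, hP, sub_add_cancel, ← hP] at this
  · have e : TT ξ₀ (W z) (gr (fun y => Real.exp (l y)) z) *ᵥ star ξ₀ =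
        ((Real.exp (l z) * qf (W z) ξ₀ : ℝ) : ℂ) • gr l z +
          (-(Real.exp (l z) * (ξ₀ ⬝ᵥ gr l z))) • (W z *ᵥ star ξ₀) := by
      rw [TT, sub_mulVec, vecMulVec_mulVec, ← qf_coe' pW.isHermitian, ge, smul_mulVec,
        dotProduct_smul]
      ext i
      simp only [Pi.sub_apply, Pi.add_apply, Pi.smul_apply, MulOpposite.smul_eq_mul_unop,
        MulOpposite.unop_op, smul_eq_mul]
      push_cast
      ring
    have hr : 0 ≤ Real.exp (l z) * qf (W z) ξ₀ := by positivity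
    rw [e, two_mul]
    refine (h.cs _ _ _ pK).trans (add_le_add (sqrt_le hr ?_) (sqrt_le hr ?_))
    · change tg _ (vv _) ≤ _
      rw [vv_smul, tg_smul, Complex.normSq_ofReal, ← gg_eq, sq, ← mul_assoc η]
      exact mul_le_mul_of_nonneg_left hl2 (mul_self_nonneg _)
    · change tg _ (vv _) ≤ _
      have h3 := h.mono _ _ _ pK (cs_psd pW.posSemidef ξ₀)
      rw [← qf_coe' pW.isHermitian, tg_smul] at h3
      rw [vv_smul, tg_smul, Complex.normSq_neg, Complex.normSq_mul, Complex.normSq_ofReal, ← qf_vv,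
        ← gg_eq]
      refine (mul_le_mul (mul_le_mul_of_nonneg_left hq2 (mul_self_nonneg _)) h3 (h.nn _ _ pK)
        (by positivity)).trans_eq (by ring)
  · rw [he, qf_smul, qf_add]
    exact mul_le_mul_of_nonneg_left (by linarith) hE0.le

end Vale.Agent.P253W.FG
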