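import Vale.Agent.P253W.FG.Sup
import Vale.Agent.P253W.FG.Swa

/-!
# P253W, block FG: the parabolic Schwarz lemma
-/

open scoped Manifold ContDiff Bundle ENNReal Topology ComplexConjugate ComplexOrder Matrix
open Bundle IsManifold MeasureTheory Set Metric Filter Vale.Agent.P253.Mfd Vale.Agent.P253Z
open Vale.Agent.P272.K (Cm dz dzb cHess jacM Chart)
open Vale.Agent.P272.K.C2

set_option linter.unusedSectionVars false

noncomputable section

namespace Vale.Agent.P253W.FG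

open Swa (gr vv gg_eq vv_smul qf_add qf_smul)

section alg
variable {n : ℕ} {u : Cm n → ℝ} {z : Cm n}

theorem cHess_cl (hu : ContDiffAt ℝ ∞ u z) (i j k : Fin n) :
    dz k (fun y => cHess u y i j) z = dz i (fun y => cHess u y k j) z :=
  dz_dz_comm k i (contDiffAt_dzb j (contDiffAt_ofReal hu) (WithTop.coe_le_coe.2 le_top))

theorem cHess_cp {ψ ψ₁ : ℝ → ℝ} {ψ₂ : ℝ} (h : ∀ᶠ s in 𝓝 (u z), HasDerivAt ψ (ψ₁ s) s)
    (h₁ : HasDerivAt ψ₁ ψ₂ (u z)) (hu : ContDiffAt ℝ 2 u z) :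
    cHess (fun y => ψ (u y)) z = (ψ₁ (u z) : ℂ) • cHess u z + (ψ₂ : ℂ) • gg u z := by
  ext j k
  rw [cHess_comp h h₁ hu, dzb_real k (hu.differentiableAt (by simp))]
  rfl

theorem qf_sm {A : Cm n → Mt n} {ξ : Cm n → Cm n} (hA : MC 2 A z) (hξ : ContDiff ℝ ∞ ξ) :
    ContDiffAt ℝ 2 (fun y => qf (A y) (ξ y)) z := by
  have h : ∀ i, ContDiffAt ℝ 2 (fun y => ξ y i) z := fun i =>
    (contDiff_pi.1 hξ i).contDiffAt.of_le Calc.two_le
  simp only [qf, dotProduct, Matrix.mulVec, Pi.star_apply]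
  exact Complex.reCLM.contDiff.contDiffAt.comp z (ContDiffAt.sum fun i _ => (h i).mul
    (ContDiffAt.sum fun j _ => (hA i j).mul (contDiffAt_conj (h j))))

theorem qf_dt {g : ℝ → Mt n} {g' : Mt n} {t : ℝ}
    (h : ∀ j k, HasDerivAt (fun s => g s j k) (g' j k) t) (ξ : Cm n) :
    HasDerivAt (fun s => qf (g s) ξ) (qf g' ξ) t := by
  simp only [qf, dotProduct, Matrix.mulVec]
  exact Complex.reCLM.hasFDerivAt.comp_hasDerivAt t (HasDerivAt.fun_sum fun i _ =>
    (HasDerivAt.fun_sum fun j _ => (h i j).mul_const _).const_mul _)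

theorem LAM.pos (L : LAM n) (E : EIG n) {A B : Mt n} (hA : A.PosDef) (hB : B.PosDef) :
    0 < lam A B := by
  obtain ⟨ξ, h0, h⟩ := L.att A B hA.isHermitian hB
  have h1 := E.qf_pos A hA ξ h0
  rw [h] at h1
  exact (mul_pos_iff_of_pos_right (E.qf_pos B hB ξ h0)).1 h1

theorem sq_smul (g : Mt n) (c : ℝ) (hc : 0 ≤ c) (v : Cm n) :
    √(tg g (vv ((c : ℂ) • v))) = c * √(tg g (vv v)) := by
  rw [vv_smul, tg_smul, Complex.normSq_ofReal, Real.sqrt_mul (mul_self_nonneg c),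
    Real.sqrt_mul_self hc]

/-- the function of `Y` in the Schwarz lemma -/
def th (η u : ℝ) : ℝ := 12 * η * u + 8 / 3 * (1 - Real.exp (-(9 * η * u)))

theorem ex_d (η u : ℝ) : HasDerivAt (fun u => Real.exp (-(9 * η * u)))
    (Real.exp (-(9 * η * u)) * -(9 * η)) u := by
  simpa using (((hasDerivAt_id u).const_mul (9 * η)).neg).exp

theorem th_d (η u : ℝ) : HasDerivAt (th η) (η * (12 + 24 * Real.exp (-(9 * η * u)))) u := by
  refine HasDerivAt.congr_deriv (((hasDerivAt_id u).const_mul (12 * η)).add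
    (((ex_d η u).const_sub 1).const_mul (8 / 3))) ?_
  ring

theorem th_dd (η u : ℝ) : HasDerivAt (fun u => η * (12 + 24 * Real.exp (-(9 * η * u))))
    (-(216 * η ^ 2 * Real.exp (-(9 * η * u)))) u := by
  refine HasDerivAt.congr_deriv ((((ex_d η u).const_mul 24).const_add 12).const_mul η) ?_
  ring

theorem th_sm (η : ℝ) : ContDiff ℝ 2 (th η) := by
  unfold th
  fun_prop

theorem th_le {η u : ℝ} (h : 0 ≤ η * u) : 9 * η * u ≤ th η u ∧ th η u ≤ 36 * η * u := by
  have h1 := Real.add_one_le_exp (-(9 * η * u))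
  have h2 : Real.exp (-(9 * η * u)) ≤ 1 := Real.exp_le_one_iff.2 (by linarith)
  constructor <;> rw [th] <;> linarith

theorem sw_fin {η y a G E r κ δ L : ℝ} (hη : 0 < η) (hy : 0 ≤ y) (ha : 0 ≤ a) (hE : E ≤ 1)
    (hr : 0 ≤ r) (hrE : r ≤ E) (hκ : 0 < κ) (hδ : δ ∈ Ioc (0 : ℝ) 1) (hL : L ≤ η * y)
    (hG : G ≤ η * (12 + 24 * E) * a + (1 + δ) * √(η * y))
    (h : η * (12 + 24 * E) * y + κ + 216 * η ^ 2 * E * a ^ 2 - δ * L ≤
      3 * η * y + 4 * √(η * y) * G * r) : False := by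
  have h0 : 0 ≤ η * y := by positivity
  have h1 := Real.mul_self_sqrt h0
  have hs := Real.sqrt_nonneg (η * y)
  set s := √(η * y)
  have h2 : δ * L ≤ η * y := (mul_le_mul_of_nonneg_left hL hδ.1.le).trans
    (mul_le_of_le_one_left h0 hδ.2)
  have hE0 : 0 ≤ E := hr.trans hrE
  have h3 : G * r ≤ 36 * η * a * E + 2 * s := by
    have k1 : η * (12 + 24 * E) * a ≤ 36 * η * a := by
      nlinarith [mul_nonneg (mul_nonneg hη.le ha) (sub_nonneg.2 hE)]
    have k2 : (1 + δ) * s ≤ 2 * s := mul_le_mul_of_nonneg_right (by linarith [hδ.2]) hs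
    have k3 : G * r ≤ (36 * η * a + 2 * s) * r := mul_le_mul_of_nonneg_right (by linarith) hr
    have k4 : 36 * η * a * r ≤ 36 * η * a * E := mul_le_mul_of_nonneg_left hrE (by positivity)
    have k5 : s * r ≤ s := mul_le_of_le_one_right hs (hrE.trans hE)
    linarith
  have h4 := mul_le_mul_of_nonneg_left h3 hs
  have h5 := mul_nonneg hE0 (sq_nonneg (s - 3 * η * a))
  have h6 : E * (s * s) = E * (η * y) := by rw [h1]
  nlinarith

end alg

variable {n : ℕ} {M : Type} [MetricSpace M] [ChartedSpace (Cm n) M]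
  [IsManifold 𝓘(ℂ, Cm n) 1 M] [IsManifold 𝓘(ℝ, Cm n) ∞ M]
  [RiemannianBundle (fun x : M => TangentSpace 𝓘(ℝ, Cm n) x)]
  [IsContMDiffRiemannianBundle 𝓘(ℝ, Cm n) ∞ (Cm n) (fun x : M => TangentSpace 𝓘(ℝ, Cm n) x)]
  [IsRiemannianManifold 𝓘(ℝ, Cm n) M] [CompleteSpace M] [ConnectedSpace M] [NoncompactSpace M]
  [MeasurableSpace M] [BorelSpace M]
  {η T t : ℝ} {D : Set M} {l : M → ℝ} {φ : ℝ → M → ℝ} {e : Chart n M} {x : M} {z : Cm n}

variable (n) in
/-- the largest eigenvalue of the metric -/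
def lm (l : M → ℝ) (φ : ℝ → M → ℝ) (t : ℝ) (x : M) : ℝ :=
  lam (gh l φ t (pc n x) (pc n x x)) (hh l (pc n x) (pc n x x))

namespace Hy

variable (H : Hy n η D l T φ) (L : LAM n)
include H

theorem cl (he : Hc e) (ht : t ∈ Icc 0 T) (hz : z ∈ cd e D) (i j k : Fin n) :
    dz k (fun y => gh l φ t e y i j - (Real.exp (l (e.symm y)) : ℂ) * hm e y i j) z =
      dz i (fun y => gh l φ t e y k j - (Real.exp (l (e.symm y)) : ℂ) * hm e y k j) z := by
  have h1 := ((H.b.vd_sm e he z hz.1).log (H.b.vd_pos e he z hz.1).ne').neg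
  have h2 := H.B.sm e he z hz
  have h : ∀ i, (fun y => gh l φ t e y i j - (Real.exp (l (e.symm y)) : ℂ) * hm e y i j) =ᶠ[𝓝 z]
      fun y => cHess (fun y => φ t (e.symm y) - t * (-Real.log (vd e y) - n * l (e.symm y))) y i j :=
    fun i => by
      filter_upwards [(cd_open e H.B.op).mem_nhds hz] with y hy
      have k1 := ((H.b.vd_sm e he y hy.1).log (H.b.vd_pos e he y hy.1).ne').neg.of_le Calc.two_le
      have k2 := (H.B.sm e he y hy).of_le Calc.two_le
      have k3 := k1.sub (contDiffAt_const (c := (n : ℝ)).mul k2)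
      rw [cHess_sub ((H.φ_sm he ht hy).of_le Calc.two_le) (contDiffAt_const.mul k3),
        cHess_const_mul _ k3, cHess_sub k1 (contDiffAt_const.mul k2), cHess_const_mul _ k2]
      simp only [gh, hh, rh, hs, ric, Matrix.add_apply, Matrix.sub_apply, Matrix.smul_apply,
        smul_eq_mul, Complex.ofReal_natCast]
      ring
  rw [dz_congr k (h i), dz_congr i (h k)]
  exact cHess_cl ((H.φ_sm he ht hz).sub (contDiffAt_const.mul
    (h1.sub (contDiffAt_const.mul h2)))) i j k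

include L

theorem lm_eq (he : Hc e) (ht : t ∈ Icc 0 T) (hz : z ∈ cd e D) :
    lm n l φ t (e.symm z) = lam (gh l φ t e z) (hh l e z) := by
  have hx := e.map_target hz.1
  have hs := mem_chart_source (Cm n) (e.symm z)
  have hc := H.a.chart (e.symm z)
  rw [lm, H.gh_ch hc he ht hs hx hz.2, hh_ch H.b hc he hs hx, e.right_inv hz.1,
    L.inv _ _ _ (H.pos he ht hz).isHermitian (H.B.hh_pos H.b he hz) (H.a.jac_ne _ _ hc he _ hs hx)]

theorem lm_pos (ht : t ∈ Icc 0 T) (hx : x ∈ D) : 0 < lm n l φ t x :=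
  L.pos H.E (H.pos (H.a.chart x) ht (mem_pc hx)) (H.B.hh_pos H.b (H.a.chart x) (mem_pc hx))

theorem lm_cont : ContinuousOn (fun q : ℝ × M => lm n l φ q.1 q.2) (Icc 0 T ×ˢ D) :=
  cont_ch H.a H.B.op fun e he => (L.cont _ _ (fun q : ℝ × Cm n => gh l φ q.1 e q.2)
    (fun q => hh l e q.2)
    (continuousOn_pi.2 fun j => continuousOn_pi.2 fun k => (H.gh_sm he j k).continuousOn)
    (continuousOn_pi.2 fun j => continuousOn_pi.2 fun k =>
      (H.lift fun _ hz => H.B.hh_sm H.b he hz j k).continuousOn)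
    fun _ hq => H.B.hh_pos H.b he hq.2).congr fun _ hq => H.lm_eq L he hq.1 hq.2

theorem lm_ge (he : Hc e) (ht : t ∈ Icc 0 T) (hz : z ∈ cd e D) {ξ : Cm n} (hξ : ξ ≠ 0) :
    Real.log (qf (gh l φ t e z) ξ) ≤
      Real.log (lm n l φ t (e.symm z)) + (Real.log (qf (hm e z) ξ) + l (e.symm z)) := by
  have h1 := H.E.qf_le _ _ (L.le _ _ (H.pos he ht hz).isHermitian (H.B.hh_pos H.b he hz)) ξ
  have h2 := H.E.qf_pos _ (H.b.wpos e he z hz.1) ξ hξ
  have h3 := H.lm_pos L ht hz.2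
  rw [← H.lm_eq L he ht hz, qf_smul, hh, qf_smul] at h1
  have h4 := Real.log_le_log (H.E.qf_pos _ (H.pos he ht hz) ξ hξ) h1
  rwa [Real.log_mul h3.ne' (by positivity), Real.log_mul (Real.exp_pos _).ne' h2.ne', Real.log_exp,
    add_comm (l _)] at h4

theorem sw0 (W : SWA n) (bk : BK n M) (mp : MP) :
    ∀ t ∈ Icc 0 T, ∀ x ∈ D, 0 ≤ th η (yy n l φ t x) - Real.log (lm n l φ t x) := by
  obtain ⟨c, C, -, hb⟩ := H.S.bd
  have hη := H.B.pos
  refine mp M D T 0 l (fun t x => th η (yy n l φ t x) - Real.log (lm n l φ t x)) H.T0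
    (H.B.cont H.a) H.B.nn H.B.cpt (((th_sm η).continuous.comp_continuousOn H.yy_cont).sub
      ((H.lm_cont L).log fun q hq => (H.lm_pos L hq.1 hq.2).ne')) ⟨C, fun t ht x hx => ?_⟩
    (fun x hx => ?_) fun κ hκ => ⟨1, one_pos, fun δ hδ t ht x hx hmin => ?_⟩
  · have h1 := mul_nonneg hη.le (H.yy_nn mp ht hx)
    have h2 := (Real.log_le_self (H.lm_pos L ht hx).le).trans (L.min _ _ C
      (H.pos (H.a.chart x) ht (mem_pc hx)).isHermitian (H.B.hh_pos H.b (H.a.chart x) (mem_pc hx))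
      ((hb t ht).2 _ (H.a.chart x) _ (mem_pc hx)).2)
    linarith [(th_le h1).1]
  · have h1 := H.B.hh_pos H.b (H.a.chart x) (mem_pc (n := n) hx)
    have h2 : lm n l φ 0 x ≤ 1 := by
      rw [lm, H.gh_zero (H.a.chart x) (mem_pc hx)]
      exact L.min _ _ 1 h1.isHermitian h1 (by simpa using Matrix.PosSemidef.zero)
    have h3 := Real.log_nonpos (H.lm_pos L ⟨le_rfl, H.T0.le⟩ hx).le h2
    simp only [H.yy_zero hx, th]
    simpa using h3
  by_contra hneg
  have ht' := Ioo_subset_Icc_self ht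
  have hc := H.a.chart x
  have hz := mem_pc (n := n) hx
  have hO := (cd_open (pc n x) H.B.op).mem_nhds hz
  have hp := H.pos hc ht' hz
  have hw := H.b.wpos _ hc _ hz.1
  have hY := mul_nonneg hη.le (H.yy_nn mp ht' hx)
  have hl := H.lm_pos L ht' hx
  obtain ⟨ξ₀, h0, hq⟩ := L.att _ _ hp.isHermitian (H.B.hh_pos H.b hc hz)
  rw [← lm, hh, qf_smul, pc_symm] at hq
  have q0 := H.E.qf_pos _ hw ξ₀ h0
  have q1 := H.E.qf_pos _ hp ξ₀ h0
  have hE : (lm n l φ t x)⁻¹ ≤ Real.exp (-(9 * η * yy n l φ t x)) := by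
    rw [← Real.exp_log hl, ← Real.exp_neg]
    exact Real.exp_le_exp.2 (by linarith [(th_le hY).1, not_le.1 hneg])
  have hE1 : Real.exp (-(9 * η * yy n l φ t x)) ≤ 1 := Real.exp_le_one_iff.2 (by linarith)
  have mW : MC 2 (hm (pc n x)) (pc n x x) := fun j k => (H.b.wsm _ hc _ hz.1 j k).of_le Calc.two_le
  have mK : MC 2 (gh l φ t (pc n x)) (pc n x x) := fun j k =>
    (H.gh_sl hc ht' hz j k).of_le Calc.two_le
  obtain ⟨sl, b1⟩ := H.bar4 x hx
  have b2 := H.B.grad _ hc _ hz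
  have ee : ((η * Real.exp (l ((pc n x).symm (pc n x x))) : ℝ) : ℂ) • hm (pc n x) (pc n x x) =
      (η : ℂ) • hh l (pc n x) (pc n x x) := by rw [hh, smul_smul, Complex.ofReal_mul]
  obtain ⟨ξ, x1, x2, x3, x4⟩ := W (hm (pc n x)) (gh l φ t (pc n x)) (fun y => l ((pc n x).symm y))
    (pc n x x) ξ₀ η mW mK sl
    (by filter_upwards [hO] with y hy using ⟨H.b.wpos _ hc y hy.1, H.pos hc ht' hy⟩)
    (by filter_upwards [hO] with y hy i j k using H.b.wcl _ hc y hy.1 i j k)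
    (by filter_upwards [hO] with y hy using H.cl hc ht' hy) (bk _ hc _ hz.1) hη.le
    (by rw [ee]; exact b1) (by rw [ee]; exact b2) h0 (by
      rw [hq, pc_symm]
      exact le_mul_of_one_le_left (by positivity) ((inv_le_one₀ hl).1 (hE.trans hE1)))
  have sY := (H.yy_sl hc ht' hz).of_le Calc.two_le
  have s1 : ContDiffAt ℝ 2 (fun y => th η (yy n l φ t ((pc n x).symm y))) (pc n x x) :=
    (th_sm η).contDiffAt.comp _ sY
  have s2 := (qf_sm mK x1).log (by rw [x2]; exact q1.ne')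
  have s3 := (qf_sm mW x1).log (by rw [x2]; exact q0.ne')
  obtain ⟨k1, k2, k3⟩ := loc_test
    (f := fun t x => th η (yy n l φ t x) - Real.log (lm n l φ t x)) (F := fun s y =>
      th η (yy n l φ s ((pc n x).symm y)) - Real.log (qf (gh l φ s (pc n x) y) (ξ y)) +
      (Real.log (qf (hm (pc n x) y) (ξ y)) + l ((pc n x).symm y)))
    (F' := η * (12 + 24 * Real.exp (-(9 * η * yy n l φ t x))) * (n - t * ww n l φ t x) -
      qf (gd n l φ t (pc n x) (pc n x x)) ξ₀ / qf (gh l φ t (pc n x) (pc n x x)) ξ₀)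
    ht (H.B.op.mem_nhds hx) hmin
    (by
      filter_upwards [Icc_mem_nhds ht.1 ht.2] with s hs
      have := H.lm_ge L hc hs hz h0
      rw [pc_symm] at this ⊢
      rw [x2]
      linarith)
    (by
      filter_upwards [hO, x1.continuous.continuousAt.eventually_ne (x2 ▸ h0)] with y hy hy'
      linarith [H.lm_ge L hc ht' hy hy'])
    (by
      rw [pc_symm, x2, hq, Real.log_mul hl.ne' (by positivity),
        Real.log_mul (Real.exp_pos _).ne' q0.ne', Real.log_exp]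
      ring)
    (by
      simp only [pc_symm, x2]
      exact (((th_d η _).comp t (H.dyy ht hx)).sub
        ((qf_dt (H.dg hc ht hz) ξ₀).log q1.ne')).add_const _)
    ((s1.sub s2).add (s3.add sl)) sl
  rw [cHess_add (s1.sub s2) (s3.add sl), cHess_sub s1 s2, cHess_add s3 sl,
    cHess_cp (Eventually.of_forall (th_d η)) (th_dd η _) sY] at k2
  have d : ∀ {f : Cm n → ℝ}, ContDiffAt ℝ 2 f (pc n x x) →
      DifferentiableAt ℝ (fun y => (f y : ℂ)) (pc n x x) := fun h =>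
    differentiableAt_ofReal (h.differentiableAt (by simp))
  have k4 : gr (fun y => Real.log (qf (gh l φ t (pc n x) y) (ξ y))) (pc n x x) =
      ((η * (12 + 24 * Real.exp (-(9 * η * yy n l φ t x))) : ℝ) : ℂ) •
        gr (fun y => yy n l φ t ((pc n x).symm y)) (pc n x x) +
      ((1 + δ : ℝ) : ℂ) • gr (fun y => l ((pc n x).symm y)) (pc n x x) := by
    ext j
    have k5 := k3 j
    simp only [Complex.ofReal_add, Complex.ofReal_sub] at k5
    rw [dz_add j ((d s1).fun_sub (d s2)) ((d s3).fun_add (d sl)), dz_sub j (d s1) (d s2),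
      dz_add j (d s3) (d sl), x3 j, dz_comp_real j (th_d η _) (sY.differentiableAt (by simp)),
      pc_symm] at k5
    simp only [gr, Pi.add_apply, Pi.smul_apply, smul_eq_mul, Complex.ofReal_add (1 : ℝ),
      Complex.ofReal_one]
    linear_combination -k5
  have k5 := H.E.cs _ (((η * (12 + 24 * Real.exp (-(9 * η * yy n l φ t x))) : ℝ) : ℂ) •
    gr (fun y => yy n l φ t ((pc n x).symm y)) (pc n x x))
    (((1 + δ : ℝ) : ℂ) • gr (fun y => l ((pc n x).symm y)) (pc n x x)) hp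
  rw [← k4, sq_smul _ _ (by positivity), sq_smul _ _ (by linarith [hδ.1]), ← vv, ← gg_eq, ← gg_eq,
    ← gg_eq] at k5
  have k6 := H.E.tg_nn hp k2
  have k7 := H.E.tg_nn hp b1
  have k8 := H.E.tg_nn hp b2
  have k9 := H.tg_yy ht' hx
  have k10 := Real.sq_sqrt (H.E.nn _ (gr (fun y => yy n l φ t ((pc n x).symm y)) (pc n x x)) hp)
  rw [← vv, ← gg_eq] at k10
  simp only [tg_add, tg_sub, tg_smul, pc_symm] at k6 k7 k8
  have y1 : Real.exp (l x) * tg (gh l φ t (pc n x) (pc n x x)) (hm (pc n x) (pc n x x)) =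
      tg (gh l φ t (pc n x) (pc n x x)) (hh l (pc n x) (pc n x x)) := by rw [hh, tg_smul, pc_symm]
  have y2 : Real.exp (l x) * qf (hm (pc n x) (pc n x x)) ξ₀ /
      qf (gh l φ t (pc n x) (pc n x x)) ξ₀ = (lm n l φ t x)⁻¹ := by
    rw [hq]
    field_simp
  simp only [pc_symm] at x4
  rw [H.ldet hc ht' hz, y1, y2] at x4
  refine sw_fin hη (H.y_nn hc ht' hz) (Real.sqrt_nonneg _) hE1 (inv_pos.2 hl).le hE
    (div_pos hκ (pow_pos (sub_pos.2 ht.2) 2)) hδ (sub_nonneg.1 k7) (k5.trans (add_le_add le_rfl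
      (mul_le_mul_of_nonneg_left (Real.sqrt_le_sqrt (sub_nonneg.1 k8)) (by linarith [hδ.1]))))
    (le_trans ?_ x4)
  rw [k10]
  simp only [hs] at k6 k9 ⊢
  rw [k9] at k6
  linarith

/-- the Schwarz lemma -/
theorem sw (W : SWA n) (bk : BK n M) (mp : MP) (he : Hc e) (ht : t ∈ Icc 0 T) (hz : z ∈ cd e D) :
    ((Real.exp (36 * η * yy n l φ t (e.symm z)) : ℂ) • hh l e z - gh l φ t e z).PosSemidef := by
  have h1 := H.sw0 L W bk mp t ht _ hz.2
  have h2 := (th_le (mul_nonneg H.B.pos.le (H.yy_nn mp ht hz.2))).2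
  have h3 := (Real.log_le_iff_le_exp (H.lm_pos L ht hz.2)).1 ((sub_nonneg.1 h1).trans h2)
  have h4 := (psd_smul (H.B.hh_pos H.b he hz).posSemidef (sub_nonneg.2 h3)).add
    (L.le _ _ (H.pos he ht hz).isHermitian (H.B.hh_pos H.b he hz))
  rwa [Complex.ofReal_sub, sub_smul, H.lm_eq L he ht hz, sub_add_sub_cancel] at h4

theorem lh_sw (W : SWA n) (bk : BK n M) (mp : MP) (ht : t ∈ Icc 0 T) (hx : x ∈ D) :
    lh n l φ t x ≤ 36 * n * η * yy n l φ t x := by
  have h := H.lh_le ht hx (H.sw L W bk mp (H.a.chart x) ht (mem_pc hx))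
  rw [pc_symm] at h
  linarith

end Hy

end Vale.Agent.P253W.FG
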